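import Crest.Agent.N49.Rm.St
import Crest.Agent.N49.Rm.Fb
import Crest.Agent.N49.Rm.Pr

/-! # Row 49 (helper53): the cut of `Rm.ONE` -/

set_option autoImplicit false
noncomputable section
open Finset MeasureTheory

namespace Crest.Agent.N49.On
open Rm Po

/-- an integer matrix acts on tuples -/
def ap {G : Type*} [AddCommGroup G] {r s : ℕ} (g : Fin r → Fin s → ℤ) (ω : Fin s → G) :
    Fin r → G := fun k => ∑ o, g k o • ω o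

/-- unit rows -/
def er {s : ℕ} (o : Fin s) : Fin s → ℤ := Pi.single o 1

/-- rectangles `(x,s₀,s₁,t₀,t₁)` of the 4-cycle `(x,s₀,s₀',s₁,s₁',t₀,t₁)` -/
def gA (i k : Fin 2) : Fin 5 → Fin 7 → ℤ := ![er 0, er (![1, 2] i), er (![3, 4] k), er 5, er 6]
/-- rectangles of the 4-cycle `(x,s₀,s₁,t₀,t₀',t₁,t₁')` -/
def gB (i k : Fin 2) : Fin 5 → Fin 7 → ℤ := ![er 0, er 1, er 2, er (![3, 4] i), er (![5, 6] k)]
/-- the sum pairing -/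
def gC (i k : Fin 2) : Fin 5 → Fin 7 → ℤ :=
  ![er 0, er 1, er 2 - er (![3, 4] i) - er (![5, 6] k), er (![3, 4] i), er (![5, 6] k)]
/-- two completions `(x,s₀,s₁,t₀,t₁,α₀,β₀,α₁,β₁)` of the same corners -/
def gI (i : Fin 2) : Fin 5 → Fin 9 → ℤ :=
  ![er 0 - er (![5, 7] i) - er (![6, 8] i), er 1 + er (![5, 7] i), er 2 + er (![5, 7] i),
    er 3 + er (![6, 8] i), er 4 + er (![6, 8] i)]

section
variable {G : Type*} [AddCommGroup G]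
theorem sum_er {s : ℕ} (o : Fin s) (ω : Fin s → G) : ∑ o', er o o' • ω o' = ω o := by
  simp [er, Pi.single_apply]
theorem ap_gA (i k : Fin 2) (ω : Fin 7 → G) :
    ap (gA i k) ω = ![ω 0, ω (![1, 2] i), ω (![3, 4] k), ω 5, ω 6] := by
  funext m; fin_cases m <;> simp [ap, gA, sum_er]
theorem ap_gB (i k : Fin 2) (ω : Fin 7 → G) :
    ap (gB i k) ω = ![ω 0, ω 1, ω 2, ω (![3, 4] i), ω (![5, 6] k)] := by
  funext m; fin_cases m <;> simp [ap, gB, sum_er]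
theorem ap_gC (i k : Fin 2) (ω : Fin 7 → G) : ap (gC i k) ω =
    ![ω 0, ω 1, ω 2 - ω (![3, 4] i) - ω (![5, 6] k), ω (![3, 4] i), ω (![5, 6] k)] := by
  funext m; fin_cases m <;> simp [ap, gC, sum_er, sub_smul, sum_sub_distrib]
theorem ap_gI (i : Fin 2) (ω : Fin 9 → G) : ap (gI i) ω =
    ![ω 0 - ω (![5, 7] i) - ω (![6, 8] i), ω 1 + ω (![5, 7] i), ω 2 + ω (![5, 7] i),
      ω 3 + ω (![6, 8] i), ω 4 + ω (![6, 8] i)] := by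
  funext m; fin_cases m <;> simp [ap, gI, sum_er, sub_smul, add_smul, sum_sub_distrib, sum_add_distrib]
end

/-- **the combinatorial half**: pruning, three popular labels, a fixed reference -/
def CYC : Prop := ∃ K : ℕ, ∀ (d : Type) [Fintype d] [DecidableEq d] (μ β γ ν : Measure (d → ℤ))
  [IsProbabilityMeasure μ] [IsProbabilityMeasure β] [IsProbabilityMeasure γ]
  [IsProbabilityMeasure ν] (N N' : Seminorm ℝ (d → ℝ)) (Lb : Type) (m : ℕ)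
  (S : Set (Fin 5 → d → ℤ)) (NI NA NB NC : (Fin 5 → d → ℤ) → Prop)
  (n : Fin 4 → (Fin 5 → d → ℤ) → Lb) (GA GB : Set (Fin 7 → d → ℤ)) (GI : Set (Fin 9 → d → ℤ)),
  To.QI N μ → To.QI N β → To.QI N γ → To.QI N' β → Integrable (fun x => N (La.ci x)) ν →
  Integrable (fun x => N' (La.ci x)) γ → ∫ x, N (La.ci x) ∂ν ≤ (1 / 2) ^ (K * (m + 1)) →
  ∫ x, N' (La.ci x) ∂γ ≤ (1 / 2) ^ (K * (m + 1)) →
  (Measure.pi ![μ, β, β, β, β, γ, γ]).real GAᶜ ≤ (1 / 2) ^ (K * (m + 1)) →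
  (Measure.pi ![μ, β, β, γ, γ, γ, γ]).real GBᶜ ≤ (1 / 2) ^ (K * (m + 1)) →
  (Measure.pi ![μ, β, β, γ, γ, ν, ν, ν, ν]).real GIᶜ ≤ (1 / 2) ^ (K * (m + 1)) →
  (∀ ω ∈ GI, (∀ i, ap (gI i) ω ∈ S) → NI (ap (gI 0) ω)) →
  (∀ ω ∈ GA, (∀ i k, ap (gA i k) ω ∈ S) → NA (ap (gA 0 0) ω)) →
  (∀ ω ∈ GB, (∀ i k, ap (gB i k) ω ∈ S) → NB (ap (gB 0 0) ω)) →
  (∀ ω ∈ GB, (∀ i k, ap (gC i k) ω ∈ S) → NC (ap (gC 0 0) ω)) →
  (∀ ω ∈ GA, (∀ i k, ap (gA i k) ω ∈ {z ∈ S | NI z ∧ NA z ∧ NB z ∧ NC z}) →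
    n 0 (ap (gA 0 0) ω) = n 0 (ap (gA 0 1) ω) ∧ n 1 (ap (gA 0 0) ω) = n 1 (ap (gA 0 1) ω)) →
  (∀ ω ∈ GB, (∀ i k, ap (gB i k) ω ∈ {z ∈ S | NI z ∧ NA z ∧ NB z ∧ NC z}) →
    n 1 (ap (gB 0 0) ω) = n 1 (ap (gB 1 0) ω) ∧ n 3 (ap (gB 0 0) ω) = n 3 (ap (gB 1 0) ω)) →
  (∀ ω ∈ GB, (∀ i k, ap (gC i k) ω ∈ {z ∈ S | NI z ∧ NA z ∧ NB z ∧ NC z}) →
    n 2 (ap (gC 0 0) ω) = n 2 (ap (gC 1 0) ω)) →
  (1 / 2) ^ m ≤ (Measure.pi ![μ, β, β, γ, γ]).real S →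
  ∃ Θ : Set ((d → ℤ) × (d → ℤ) × (d → ℤ)), (1 / 2) ^ (K * (m + 1)) ≤ (μ.prod (β.prod γ)).real Θ ∧
    ∀ z ∈ Θ, ∃ (κ₀ κ₂ κ₃ : (d → ℤ) → Lb) (ℓ : Lb), (1 / 2) ^ (K * (m + 1)) ≤ (γ.prod β).real
      {p | ∃ ω ∈ S, ω = ![z.1, z.2.1, p.2, p.1, z.2.2] ∧ NI ω ∧ NA ω ∧ NB ω ∧ NC ω ∧
        n 0 ω = κ₀ p.1 ∧ n 1 ω = ℓ ∧ n 2 ω = κ₂ (p.1 + p.2) ∧ n 3 ω = κ₃ p.2}

section
variable {L C : Type} [Fintype L] [DecidableEq L] [Fintype C] [DecidableEq C]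

/-- only the words inside `Z` stay alive -/
def act (T : TT L C) (Z : Finset L) : TT L C where
  ty c := if T.ty c ⊆ Z then T.ty c else ∅
  Φ p c := if T.ty c ⊆ Z then T.Φ p c else p (.inl c)

theorem act_mem {T : TT L C} {Z : Finset L} {j : L} {c : C} :
    j ∈ (act T Z).ty c ↔ j ∈ T.ty c ∧ T.ty c ⊆ Z := by
  by_cases h : T.ty c ⊆ Z <;> simp [act, h]

/-- the lattice of the active `j`-words -/
abbrev Lt (T : TT L C) (Z : Finset L) (j : L) := (act T Z).Bl j → ℤ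

/-- the configuration of a clone shape with given active blocks -/
def cw (T : TT L C) (Z : Finset L) (j : L) (y : C → ℤ) {r : ℕ} (ω : Fin (r + 1) → Lt T Z j) :
    T.CC j (Fin r) → ℤ :=
  T.gl j ((act T Z).jn j y (ω 0)) fun x => (act T Z).jn j y (ω x.succ)

/-- the active blocks of a configuration of a clone shape -/
def aw (T : TT L C) (Z : Finset L) (j : L) {r : ℕ} (w : T.CC j (Fin r) → ℤ) :
    Fin (r + 1) → Lt T Z j :=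
  Fin.cons (fun c => w (.inl c.1)) fun x c => w (.inr (⟨c.1, (act_mem.1 c.2).1⟩, x))
end

/-- a point and `r` directions -/
def lw {d : Type} [Fintype d] [DecidableEq d] (M : Matrix d d ℝ) (θ : d → ℝ) {r : ℕ}
    (a : Fin r → ℕ) : Measure (Fin (r + 1) → d → ℤ) :=
  Measure.pi (Fin.cons (gm M θ) fun x => gm (((4 : ℝ) ^ a x) • M) 0)

/-- **disintegration**: the active blocks of a clone shape, given the rest -/
def DIS : Prop := ∀ (L C : Type) [Fintype L] [DecidableEq L] [Fintype C] [DecidableEq C]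
  (T : TT L C) (n b m : ℕ) (j : L) (Z : Finset L) (r : ℕ) (a : Fin r → ℕ)
  (g : (C → ℤ) → (Fin (r + 1) → Lt T Z j) → ℝ), Fintype.card C ≤ 2 ^ n → Fintype.card L ≤ n →
  j ∈ Z → r ≤ 8 → (∀ x, a x ≤ b) → 4 * n + m + 40 ≤ b → Good b (n + 20) L C T →
  (∀ y ω, 0 ≤ g y ω ∧ g y ω ≤ 1) →
  (∀ y y', (∀ c, T.ty c ⊆ Z.erase j → (T.ty c).Nonempty → y c = y' c) → g y = g y') →
  |((T.cl j (fun _ => false) a).Ex fun w => g (fun c => w (.inl c)) (aw T Z j w)) -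
    T.Ex fun y => ∫ ω, g y ω ∂lw ((act T Z).Mm j y) ((act T Z).ce j y) a| ≤ (1 / 2) ^ m

/-- few non-generic configurations of the clone shape of widths `a` over `y` -/
def NG {L C : Type} [Fintype L] [DecidableEq L] [Fintype C] [DecidableEq C] (T : TT L C)
    (A M : Finset L) (j : L) (y : C → ℤ)
    (Q : Matrix ((act T (A \ M)).Bl j) ((act T (A \ M)).Bl j) ℝ) (θ : (act T (A \ M)).Bl j → ℝ)
    {r : ℕ} (a : Fin r → ℕ) (b m : ℕ) : Prop :=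
  (lw Q θ a).real {ω | ¬ (T.cl j (fun _ => false) a).UQ (TT.upA A (Fin r)) (M.image Sum.inl)
    (cw T (A \ M) j y ω) (2 ^ b)} ≤ (1 / 2) ^ m

/-- **the fibre theorem** -/
def FIB : Prop := ∃ (K : ℕ) (Dn : ℕ → ℕ), (∀ n, 2 ≤ n → Dn n ≤ n ^ K) ∧ ∀ (L C : Type) [Fintype L]
  [DecidableEq L] [Fintype C] [DecidableEq C] (T : TT L C) (D : Type) [Fintype D] (n : ℕ)
  (A M : Finset L) (j : L) (q : ℕ) (F : Fin 4 → D → Fm L C) (y : C → ℤ)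
  (Q : Matrix ((act T (A \ M)).Bl j) ((act T (A \ M)).Bl j) ℝ) (θ : (act T (A \ M)).Bl j → ℝ)
  (a1 a2 a3 b : ℕ) (X : Set (Lt T (A \ M) j)) (w : Lt T (A \ M) j → Lt T (A \ M) j → ℝ),
  T.Ok → Q.PosDef → 2 ≤ n → Fintype.card C ≤ 2 ^ n → Fintype.card L ≤ n → Fintype.card D ≤ n →
  M.Nonempty → M ⊆ A → j ∈ A → j ∉ M → (∀ l d, T.Dat A M (F l d)) → 1 ≤ q → q ≤ 2 ^ n →
  n ^ K ≤ a1 → a1 + n ^ K ≤ a2 → a2 + n ^ K ≤ a3 → n ^ K ≤ b →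
  (∀ c x, 0 ≤ w c x ∧ w c x ≤ 1) →
  (∀ t ∈ X, (1 / 2) ^ n ≤ ∫ x, w (t - x) x ∂gm (((4 : ℝ) ^ a3) • Q) 0) →
  (1 / 2) ^ n ≤ (lw Q θ ![a1, a1, a2, a2]).real {ω | ω 0 + ω 1 + ω 3 ∈ X ∧
    ∀ d, T.RR A M j a1 a2 (cw T (A \ M) j y ω) q (2 ^ n) fun l => F l d} →
  T.UQ (A.erase j) M y (2 ^ b) →
  NG T A M j y Q θ ![a1, a1, a1, a1, a2, a2] b (n ^ K) →
  NG T A M j y Q θ ![a1, a1, a2, a2, a2, a2] b (n ^ K) →
  NG T A M j y Q θ ![a1, a1, a2, a2, a3, a3, a3, a3] b (n ^ K) →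
  ∃ Tc : Set (Lt T (A \ M) j), (1 / 2) ^ n ^ K ≤ (gm Q θ).real Tc ∧ ∀ c ∈ Tc,
    ∃ (A' : Set (Lt T (A \ M) j)) (γ : Fin (Dn n) → Fm L C) (X' : D → Fm L C)
      (Λ : D → Fin (Dn n) → Fm L C), (1 / 2) ^ n ^ K ≤ ∫ x in A', w c x ∂gm (((4 : ℝ) ^ a3) • Q) 0 ∧
      T.Rep A M j ((fun x => (act T (A \ M)).jn j y (c + x)) '' A') q (2 ^ (n + a3) ^ K) (F 0) γ X' Λ

end Crest.Agent.N49.On
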