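import Crest.Agent.N49.On.Cy0
import Crest.Agent.N49.On.Defs

/-! Row 49 (helper16): the combinatorial half `CYC` of `ONE`. -/

set_option autoImplicit false
set_option linter.unusedSectionVars false
noncomputable section
namespace Crest.Agent.N49.On
open Finset Function Gg G1 MeasureTheory

namespace Cy
variable {d : Type} [Fintype d] [DecidableEq d] (μ β γ ν : Measure (d → ℤ))
  [IsProbabilityMeasure μ] [IsProbabilityMeasure β] [IsProbabilityMeasure γ] [IsProbabilityMeasure ν]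

instance i5 (i : Fin 5) : IsProbabilityMeasure (![μ, β, β, γ, γ] i) := by
  fin_cases i <;> simp <;> infer_instance
instance iA (i : Fin 7) : IsProbabilityMeasure (![μ, β, β, β, β, γ, γ] i) := by
  fin_cases i <;> simp <;> infer_instance
instance iB (i : Fin 7) : IsProbabilityMeasure (![μ, β, β, γ, γ, γ, γ] i) := by
  fin_cases i <;> simp <;> infer_instance
instance iI (i : Fin 9) : IsProbabilityMeasure (![μ, β, β, γ, γ, ν, ν, ν, ν] i) := by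
  fin_cases i <;> simp <;> infer_instance

theorem mg {r : ℕ} (μs : Fin r → Measure (d → ℤ)) [∀ i, IsProbabilityMeasure (μs i)]
    {ι : Fin 5 → Fin r} (hι : Injective ι) (h : (fun k => μs (ι k)) = ![μ, β, β, γ, γ])
    (E : Set (Fin 5 → d → ℤ)) :
    (Measure.pi μs).real {ω | ω ∘ ι ∈ E} = (Measure.pi ![μ, β, β, γ, γ]).real E := by
  rw [← h]
  exact (marg_pi μs hι).measureReal_preimage MeasurableSet.of_discrete.nullMeasurableSet

theorem mA (E : Set (Fin 5 → d → ℤ)) : (Measure.pi ![μ, β, β, β, β, γ, γ]).real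
    {ω | ap (gA 0 0) ω ∈ E} = (Measure.pi ![μ, β, β, γ, γ]).real E := by
  rw [← mg μ β γ ![μ, β, β, β, β, γ, γ] (ι := ![0, 1, 3, 5, 6]) (by decide) (by funext k; fin_cases k <;> rfl)]
  congr 1; ext ω
  rw [Set.mem_setOf, Set.mem_setOf, ap_gA]
  exact iff_of_eq (congrArg _ (by funext k; fin_cases k <;> rfl))

theorem mB (E : Set (Fin 5 → d → ℤ)) : (Measure.pi ![μ, β, β, γ, γ, γ, γ]).real
    {ω | ap (gB 0 0) ω ∈ E} = (Measure.pi ![μ, β, β, γ, γ]).real E := by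
  rw [← mg μ β γ ![μ, β, β, γ, γ, γ, γ] (ι := ![0, 1, 2, 3, 5]) (by decide) (by funext k; fin_cases k <;> rfl)]
  congr 1; ext ω
  rw [Set.mem_setOf, Set.mem_setOf, ap_gB]
  exact iff_of_eq (congrArg _ (by funext k; fin_cases k <;> rfl))

variable {μ β γ ν} {N N' : Seminorm ℝ (d → ℝ)} {τ : ℝ}

theorem sh2 (q : To.QI N' β) (i : Integrable (fun x => N' (La.ci x)) γ)
    (t : ∫ x, N' (La.ci x) ∂γ ≤ τ) (c : ℤ) (hc : c = 1 ∨ c = -1) (E : Set (Fin 5 → d → ℤ)) :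
    (Measure.pi ![μ, β, β, γ, γ]).real E ≤ (Measure.pi ![μ, β, β, γ, γ]).real
      {z | ![z 0, z 1, z 2 + c • z 3 + c • z 4, z 3, z 4] ∈ E} + 2 * τ := by
  have a := shear ![μ, β, β, γ, γ] (k := 2) (k' := 4) (by decide) q i c hc t E
  have b := shear ![μ, β, β, γ, γ] (k := 2) (k' := 3) (by decide) q i c hc t
    {ω | update ω 2 (ω 2 + c • ω 4) ∈ E}
  have e : {ω : Fin 5 → d → ℤ | update ω 2 (ω 2 + c • ω 3) ∈ {ω | update ω 2 (ω 2 + c • ω 4) ∈ E}} =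
      {z | ![z 0, z 1, z 2 + c • z 3 + c • z 4, z 3, z 4] ∈ E} := by
    ext ω
    simp only [Set.mem_setOf]
    exact iff_of_eq (congrArg _ (by funext k; fin_cases k <;> simp))
  rw [e] at b
  linarith

theorem mC0 (E : Set (Fin 5 → d → ℤ)) : (Measure.pi ![μ, β, β, γ, γ, γ, γ]).real
    {ω | ap (gC 0 0) ω ∈ E} = (Measure.pi ![μ, β, β, γ, γ]).real
      {z | ![z 0, z 1, z 2 + (-1 : ℤ) • z 3 + (-1 : ℤ) • z 4, z 3, z 4] ∈ E} := by
  rw [← mB]
  congr 1; ext ω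
  simp only [Set.mem_setOf, ap_gC, ap_gB]
  exact iff_of_eq (congrArg _ (by funext k; fin_cases k <;> simp [sub_eq_add_neg]))

theorem mC (q : To.QI N' β) (i : Integrable (fun x => N' (La.ci x)) γ)
    (t : ∫ x, N' (La.ci x) ∂γ ≤ τ) (E : Set (Fin 5 → d → ℤ)) :
    (Measure.pi ![μ, β, β, γ, γ]).real E ≤ (Measure.pi ![μ, β, β, γ, γ, γ, γ]).real
      {ω | ap (gC 0 0) ω ∈ E} + 2 * τ := by
  rw [mC0]; exact sh2 q i t _ (.inr rfl) E

theorem mC' (q : To.QI N' β) (i : Integrable (fun x => N' (La.ci x)) γ)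
    (t : ∫ x, N' (La.ci x) ∂γ ≤ τ) (E : Set (Fin 5 → d → ℤ)) :
    (Measure.pi ![μ, β, β, γ, γ, γ, γ]).real {ω | ap (gC 0 0) ω ∈ E} ≤
      (Measure.pi ![μ, β, β, γ, γ]).real E + 2 * τ := by
  rw [mC0]
  refine (sh2 q i t _ (.inl rfl) _).trans_eq ?_
  congr 2; ext ω
  simp only [Set.mem_setOf]
  exact iff_of_eq (congrArg _ (by funext k; fin_cases k <;> simp <;> abel))

theorem mI (q0 : To.QI N μ) (q1 : To.QI N β) (q2 : To.QI N γ)
    (i : Integrable (fun x => N (La.ci x)) ν) (t : ∫ x, N (La.ci x) ∂ν ≤ τ)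
    (E : Set (Fin 5 → d → ℤ)) : (Measure.pi ![μ, β, β, γ, γ]).real E ≤
      (Measure.pi ![μ, β, β, γ, γ, ν, ν, ν, ν]).real {ω | ap (gI 0) ω ∈ E} + 6 * τ := by
  rw [← mg μ β γ ![μ, β, β, γ, γ, ν, ν, ν, ν] (ι := ![0, 1, 2, 3, 4]) (by decide)
    (by funext k; fin_cases k <;> rfl)]
  have s := fun (k k' : Fin 9) hk q i c hc t E =>
    shear ![μ, β, β, γ, γ, ν, ν, ν, ν] (N := N) (k := k) (k' := k') hk q i c hc (τ := τ) t E
  have a1 := s 0 5 (by decide) q0 i (-1) (.inr rfl) t {ω | ω ∘ ![0, 1, 2, 3, 4] ∈ E}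
  have a2 := a1.trans (add_le_add (s 0 6 (by decide) q0 i (-1) (.inr rfl) t _) le_rfl)
  have a3 := a2.trans (add_le_add (add_le_add (s 1 5 (by decide) q1 i 1 (.inl rfl) t _) le_rfl) le_rfl)
  have a4 := a3.trans (add_le_add (add_le_add (add_le_add (s 2 5 (by decide) q1 i 1 (.inl rfl) t _)
    le_rfl) le_rfl) le_rfl)
  have a5 := a4.trans (add_le_add (add_le_add (add_le_add (add_le_add
    (s 3 6 (by decide) q2 i 1 (.inl rfl) t _) le_rfl) le_rfl) le_rfl) le_rfl)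
  have a6 := a5.trans (add_le_add (add_le_add (add_le_add (add_le_add (add_le_add
    (s 4 6 (by decide) q2 i 1 (.inl rfl) t _) le_rfl) le_rfl) le_rfl) le_rfl) le_rfl)
  refine a6.trans_eq ?_
  rw [add_assoc, add_assoc, add_assoc, add_assoc, add_assoc, show τ + (τ + (τ + (τ + (τ + τ)))) =
    6 * τ by ring]
  congr 2; ext ω
  simp only [Set.mem_setOf, ap_gI]
  exact iff_of_eq (congrArg _ (by funext k; fin_cases k <;> simp <;> abel))

theorem d4A : D4 (1 : Fin 7) 2 3 4 := ⟨by decide, by decide, by decide, by decide, by decide, by decide⟩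
theorem d4B : D4 (5 : Fin 7) 6 3 4 := ⟨by decide, by decide, by decide, by decide, by decide, by decide⟩
theorem d4I : D4 (5 : Fin 9) 7 6 8 := ⟨by decide, by decide, by decide, by decide, by decide, by decide⟩

section cor
variable {G : Type*} [AddCommGroup G]
theorem iA' (m m' : Fin 7 → G) (h : ∀ x, x ≠ 2 → x ≠ 4 → m x = m' x) :
    ap (gA 0 0) m = ap (gA 0 0) m' := by
  simp [ap_gA, h 0, h 1, h 3, h 5, h 6]
theorem iB' (m m' : Fin 7 → G) (h : ∀ x, x ≠ 6 → x ≠ 4 → m x = m' x) :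
    ap (gB 0 0) m = ap (gB 0 0) m' := by
  simp [ap_gB, h 0, h 1, h 2, h 3, h 5]
theorem iC' (m m' : Fin 7 → G) (h : ∀ x, x ≠ 6 → x ≠ 4 → m x = m' x) :
    ap (gC 0 0) m = ap (gC 0 0) m' := by
  simp [ap_gC, h 0, h 1, h 2, h 3, h 5]
theorem iI' (m m' : Fin 9 → G) (h : ∀ x, x ≠ 7 → x ≠ 8 → m x = m' x) :
    ap (gI 0) m = ap (gI 0) m' := by
  simp [ap_gI, h 0, h 1, h 2, h 3, h 4, h 5, h 6]
theorem cA (w : Fin 7 → G) : ap (gA 0 0) (update w 3 (w 4)) = ap (gA 0 1) w ∧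
    ap (gA 0 0) (update w 1 (w 2)) = ap (gA 1 0) w ∧
    ap (gA 0 0) (update (update w 1 (w 2)) 3 (w 4)) = ap (gA 1 1) w := by simp [ap_gA]
theorem cB (w : Fin 7 → G) : ap (gB 0 0) (update w 3 (w 4)) = ap (gB 1 0) w ∧
    ap (gB 0 0) (update w 5 (w 6)) = ap (gB 0 1) w ∧
    ap (gB 0 0) (update (update w 5 (w 6)) 3 (w 4)) = ap (gB 1 1) w := by simp [ap_gB]
theorem cC (w : Fin 7 → G) : ap (gC 0 0) (update w 3 (w 4)) = ap (gC 1 0) w ∧
    ap (gC 0 0) (update w 5 (w 6)) = ap (gC 0 1) w ∧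
    ap (gC 0 0) (update (update w 5 (w 6)) 3 (w 4)) = ap (gC 1 1) w := by simp [ap_gC]
theorem cI (w : Fin 9 → G) : ap (gI 0) (update (update w 5 (w 7)) 6 (w 8)) = ap (gI 1) w := by
  simp [ap_gI]
theorem sA (w : Fin 7 → G) (x : Fin 7) (a : x ≠ 2) (b : x ≠ 3) (c : x ≠ 4) : w x =
    ![ap (gA 0 0) w 0, ap (gA 0 0) w 1, 0, 0, 0, ap (gA 0 0) w 3, ap (gA 0 0) w 4] x := by
  fin_cases x <;> simp_all [ap_gA]
theorem sB (w : Fin 7 → G) (x : Fin 7) (a : x ≠ 6) (b : x ≠ 3) (c : x ≠ 4) : w x =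
    ![ap (gB 0 0) w 0, ap (gB 0 0) w 1, ap (gB 0 0) w 2, 0, 0, ap (gB 0 0) w 4, 0] x := by
  fin_cases x <;> simp_all [ap_gB]
theorem sC (w : Fin 7 → G) (x : Fin 7) (a : x ≠ 6) (b : x ≠ 3) (c : x ≠ 4) : w x =
    ![ap (gC 0 0) w 0, ap (gC 0 0) w 1, ap (gC 0 0) w 3 + ap (gC 0 0) w 2 + ap (gC 0 0) w 4, 0, 0,
      ap (gC 0 0) w 4, 0] x := by
  fin_cases x <;> simp_all [ap_gC]
  abel
end cor

theorem mp5 : MeasurePreserving (fun q : ((d → ℤ) × (d → ℤ) × (d → ℤ)) × (d → ℤ) × (d → ℤ) =>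
    (![q.1.1, q.1.2.1, q.2.2, q.2.1, q.1.2.2] : Fin 5 → d → ℤ))
    ((μ.prod (β.prod γ)).prod (γ.prod β)) (Measure.pi ![μ, β, β, γ, γ]) := by
  let e : ((d → ℤ) × (d → ℤ) × (d → ℤ)) × (d → ℤ) × (d → ℤ) ≃ (Fin 5 → d → ℤ) :=
    ⟨fun q => ![q.1.1, q.1.2.1, q.2.2, q.2.1, q.1.2.2], fun z => ((z 0, z 1, z 4), z 3, z 2),
      fun _ => rfl, fun z => by funext k; fin_cases k <;> rfl⟩
  refine mp_of_atoms e fun ⟨⟨a, b, c⟩, u, v⟩ => ?_
  show Measure.pi _ {![a, b, v, u, c]} = _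
  simp only [← Set.singleton_prod_singleton, Measure.prod_prod, Measure.pi_singleton,
    Fin.prod_univ_five, Matrix.cons_val]
  ring

theorem bad {X : Type*} [MeasurableSpace X] {m : Measure X} [IsFiniteMeasure m] {G : Set X}
    (h : m.real Gᶜ ≤ τ) {Q : X → Prop} (k : ∀ w, Q w → w ∉ G) : m.real {w | Q w} ≤ τ :=
  (measureReal_mono (s₂ := Gᶜ) k).trans h

theorem rt {ε y : ℝ} (h0 : 0 ≤ ε) (h1 : ε ≤ 1) (h : y ^ 4 ≤ ε ^ 300) : y ≤ ε ^ 8 :=
  le_of_pow_le_pow_left₀ (by norm_num) (pow_nonneg h0 8)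
    (h.trans (by rw [← pow_mul]; exact pow_le_pow_of_le_one h0 h1 (by norm_num)))

end Cy
open Cy

set_option maxHeartbeats 800000 in
theorem cyc : CYC := by
  refine ⟨300, fun d _ _ μ β γ ν _ _ _ _ N N' Lb m S NI NA NB NC n GA GB GI q0 q1 q2 q3 i1 i2 t1 t2
    gA' gB' gI' hI hA hB hC lA lB lC hS => ?_⟩
  rw [pow_mul'] at t1 t2 gA' gB' gI' ⊢
  have e0 : (0 : ℝ) < (1 / 2) ^ (m + 1) := by positivity
  have e1 : ((1 : ℝ) / 2) ^ (m + 1) ≤ 1 / 2 := by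
    rw [pow_succ]; exact mul_le_of_le_one_left (by norm_num) (pow_le_one₀ (by norm_num) (by norm_num))
  rw [show ((1 : ℝ) / 2) ^ m = 2 * (1 / 2) ^ (m + 1) by ring] at hS
  generalize ((1 : ℝ) / 2) ^ (m + 1) = ε at *
  have e2 : ε ≤ 1 := by linarith
  have h2 : ∀ j k, k = j + 1 → 2 * ε ^ k ≤ ε ^ j := fun j k hk => by
    rw [hk, pow_succ]; nlinarith [pow_pos e0 j]
  have ht : ∀ j, j ≤ 300 → ε ^ 300 ≤ ε ^ j := fun j => pow_le_pow_of_le_one e0.le e2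
  haveI : Nonempty Lb := ⟨n 0 0⟩
  -- pruning
  have pA : (Measure.pi ![μ, β, β, γ, γ]).real {z | z ∈ S ∧ ¬ NA z} ≤ ε ^ 8 := by
    rw [← mA]
    refine rt e0.le e2 ((c4m _ d4A rfl rfl _ fun m m' h => by rw [iA' m m' h]).trans
      (bad gA' fun w hw hG => ?_))
    simp only [Set.mem_setOf, cA w] at hw
    exact hw.1.2 (hA w hG (by simp [Fin.forall_fin_two, hw.1.1, hw.2.1.1, hw.2.2.1.1, hw.2.2.2.1]))
  have pB : (Measure.pi ![μ, β, β, γ, γ]).real {z | z ∈ S ∧ ¬ NB z} ≤ ε ^ 8 := by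
    rw [← mB]
    refine rt e0.le e2 ((c4m _ d4B rfl rfl _ fun m m' h => by rw [iB' m m' h]).trans
      (bad gB' fun w hw hG => ?_))
    simp only [Set.mem_setOf, cB w] at hw
    exact hw.1.2 (hB w hG (by simp [Fin.forall_fin_two, hw.1.1, hw.2.1.1, hw.2.2.1.1, hw.2.2.2.1]))
  have pC : (Measure.pi ![μ, β, β, γ, γ]).real {z | z ∈ S ∧ ¬ NC z} ≤ ε ^ 8 + 2 * ε ^ 300 := by
    refine (mC q3 i2 t2 _).trans (add_le_add ?_ le_rfl)
    refine rt e0.le e2 ((c4m _ d4B rfl rfl _ fun m m' h => by rw [iC' m m' h]).trans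
      (bad gB' fun w hw hG => ?_))
    simp only [Set.mem_setOf, cC w] at hw
    exact hw.1.2 (hC w hG (by simp [Fin.forall_fin_two, hw.1.1, hw.2.1.1, hw.2.2.1.1, hw.2.2.2.1]))
  have pI : (Measure.pi ![μ, β, β, γ, γ]).real {z | z ∈ S ∧ ¬ NI z} ≤ ε ^ 8 + 6 * ε ^ 300 := by
    refine (mI q0 q1 q2 i1 t1 _).trans (add_le_add ?_ le_rfl)
    refine rt e0.le e2 ((c4m _ d4I rfl rfl _ fun m m' h => by rw [iI' m m' h]).trans
      (bad gI' fun w hw hG => ?_))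
    simp only [Set.mem_setOf, cI w] at hw
    exact hw.1.2 (hI w hG (by simp [Fin.forall_fin_two, hw.1.1, hw.2.2.2.1]))
  set S1 : Set (Fin 5 → d → ℤ) := {z ∈ S | NI z ∧ NA z ∧ NB z ∧ NC z} with hS1
  have d1 : ε ≤ (Measure.pi ![μ, β, β, γ, γ]).real S1 := by
    have : S ⊆ S1 ∪ ({z | z ∈ S ∧ ¬ NI z} ∪ ({z | z ∈ S ∧ ¬ NA z} ∪ ({z | z ∈ S ∧ ¬ NB z} ∪
        {z | z ∈ S ∧ ¬ NC z}))) := fun z hz => by
      simp only [hS1, Set.mem_union, Set.mem_setOf]; tauto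
    have a := (measureReal_mono this).trans ((measureReal_union_le  _ _).trans
      (add_le_add le_rfl ((measureReal_union_le _ _).trans (add_le_add pI
        ((measureReal_union_le _ _).trans (add_le_add pA ((measureReal_union_le _ _).trans
          (add_le_add pB pC))))))))
    have := h2 1 2 rfl; have := h2 2 3 rfl; have := h2 3 4 rfl; have := h2 4 5 rfl; have := h2 5 6 rfl; have := h2 6 7 rfl
    have := h2 7 8 rfl; have := ht 8 (by norm_num); have := pow_pos e0 8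
    simp only [pow_one] at *
    linarith
  have up : ∀ {j : ℕ} {x y z : ℝ}, 4 * j + 1 ≤ 300 → ε ^ j ≤ x → x ^ 4 ≤ y + 2 * z → y ≤ ε ^ 300 →
      ε ^ (4 * j + 2) ≤ z := fun {j x y z} hj a b c => by
    have := pow_le_pow_left₀ (pow_pos e0 j).le a 4
    rw [← pow_mul, mul_comm] at this
    have := h2 (4 * j) (4 * j + 1) rfl; have := h2 (4 * j + 1) (4 * j + 2) rfl; have := ht _ hj
    linarith
  -- first label
  obtain ⟨fA, jA, kA⟩ := g1m ![μ, β, β, β, β, γ, γ] d4A rfl rfl (fun w => ap (gA 0 0) w ∈ S1)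
    (fun w => (n 0 (ap (gA 0 0) w), n 1 (ap (gA 0 0) w))) fun m m' h => by simp [iA' m m' h]
  set S2 : Set (Fin 5 → d → ℤ) := {z ∈ S1 | (n 0 z, n 1 z) = fA ![z 0, z 1, 0, 0, 0, z 3, z 4]} with hS2
  have d2 : ε ^ 6 ≤ (Measure.pi ![μ, β, β, γ, γ]).real S2 := by
    rw [mA] at kA
    refine (up (j := 1) (by norm_num) (by simpa using d1) kA
      (bad gA' fun w hw hG => ?_)).trans_eq ?_
    · simp only [Set.mem_setOf, cA w] at hw
      have := lA w hG (by simp only [Fin.forall_fin_two]; exact ⟨⟨hw.1, hw.2.1⟩, hw.2.2.1, hw.2.2.2.1⟩)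
      exact hw.2.2.2.2 (Prod.ext this.1 this.2)
    · rw [← mA]
      congr 1; ext w
      simp only [hS2, Set.mem_setOf]
      rw [jA w _ (sA w)]
  -- second label
  obtain ⟨fB, jB, kB⟩ := g1m ![μ, β, β, γ, γ, γ, γ] d4B rfl rfl (fun w => ap (gB 0 0) w ∈ S2)
    (fun w => (n 1 (ap (gB 0 0) w), n 3 (ap (gB 0 0) w))) fun m m' h => by simp [iB' m m' h]
  set S3 : Set (Fin 5 → d → ℤ) := {z ∈ S2 | (n 1 z, n 3 z) = fB ![z 0, z 1, z 2, 0, 0, z 4, 0]} with hS3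
  have d3 : ε ^ 26 ≤ (Measure.pi ![μ, β, β, γ, γ]).real S3 := by
    rw [mB] at kB
    refine (up (j := 6) (by norm_num) d2 kB
      (bad gB' fun w hw hG => ?_)).trans_eq ?_
    · simp only [Set.mem_setOf, cB w] at hw
      have := lB w hG (by
        simp only [Fin.forall_fin_two]; exact ⟨⟨hw.1.1, hw.2.2.1.1⟩, hw.2.1.1, hw.2.2.2.1.1⟩)
      exact hw.2.2.2.2 (Prod.ext this.1 this.2)
    · rw [← mB]
      congr 1; ext w
      simp only [hS3, Set.mem_setOf]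
      rw [jB w _ (sB w)]
  -- third label
  obtain ⟨fC, jC, kC⟩ := g1m ![μ, β, β, γ, γ, γ, γ] d4B rfl rfl (fun w => ap (gC 0 0) w ∈ S3)
    (fun w => n 2 (ap (gC 0 0) w)) fun m m' h => by simp [iC' m m' h]
  set S4 : Set (Fin 5 → d → ℤ) := {z ∈ S3 | n 2 z = fC ![z 0, z 1, z 3 + z 2 + z 4, 0, 0, z 4, 0]}
    with hS4
  have d4 : ε ^ 111 ≤ (Measure.pi ![μ, β, β, γ, γ]).real S4 := by
    have a := mC (μ := μ) q3 i2 t2 S3
    have b := mC' (μ := μ) q3 i2 t2 S4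
    have c : ε ^ 110 ≤ (Measure.pi ![μ, β, β, γ, γ, γ, γ]).real {ω | ap (gC 0 0) ω ∈ S4} := by
      refine (up (j := 27) (by norm_num) (by linarith [h2 26 27 rfl, h2 27 28 rfl, ht 28 (by norm_num)]) kC
        (bad gB' fun w hw hG => ?_)).trans_eq ?_
      · simp only [Set.mem_setOf, cC w] at hw
        exact hw.2.2.2.2 (lC w hG (by
          simp only [Fin.forall_fin_two]; exact ⟨⟨hw.1.1.1, hw.2.2.1.1.1⟩, hw.2.1.1.1, hw.2.2.2.1.1.1⟩))
      · congr 1; ext w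
        simp only [hS4, Set.mem_setOf]
        rw [jC w _ (sC w)]
    linarith [h2 110 111 rfl, h2 111 112 rfl, ht 112 (by norm_num)]
  -- the reference
  let F : (d → ℤ) × (d → ℤ) × (d → ℤ) → Set ((d → ℤ) × (d → ℤ)) :=
    fun z => {p | ![z.1, z.2.1, p.2, p.1, z.2.2] ∈ S4}
  have fu : (Measure.pi ![μ, β, β, γ, γ]).real S4 = ∫ z, (γ.prod β).real (F z) ∂μ.prod (β.prod γ) := by
    rw [← mp5.measureReal_preimage MeasurableSet.of_discrete.nullMeasurableSet, Measure.real,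
      Measure.prod_apply .of_discrete, ← integral_toReal Measurable.of_discrete.aemeasurable
        (.of_forall fun _ => measure_lt_top _ _)]
    rfl
  have mk := Lo.markov_ge (μ.prod (β.prod γ)) (Lo.int_real _ (γ.prod β) F)
    (fun _ => measureReal_le_one) (pow_pos e0 112).le
  refine ⟨{z | ε ^ 112 ≤ (γ.prod β).real (F z)}, by linarith [h2 111 112 rfl, ht 112 (by norm_num)],
    fun z hz => ?_⟩
  obtain ⟨ℓ, hl⟩ := popv γ β (F z) (fun t => (fA ![z.1, z.2.1, 0, 0, 0, t, z.2.2]).2)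
    (fun s => (fB ![z.1, z.2.1, s, 0, 0, z.2.2, 0]).1) fun p hp =>
      (congrArg Prod.snd hp.1.1.2).symm.trans (congrArg Prod.fst hp.1.2)
  refine ⟨fun t => (fA ![z.1, z.2.1, 0, 0, 0, t, z.2.2]).1,
    fun u => fC ![z.1, z.2.1, u + z.2.2, 0, 0, z.2.2, 0],
    fun s => (fB ![z.1, z.2.1, s, 0, 0, z.2.2, 0]).2, ℓ, (ht 224 (by norm_num)).trans
      (le_trans ?_ (hl.trans (measureReal_mono fun p hp => ?_)))⟩
  · rw [show 224 = 112 * 2 from rfl, pow_mul]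
    exact pow_le_pow_left₀ (pow_pos e0 _).le hz 2
  · have k := hp.1
    exact ⟨_, k.1.1.1.1, rfl, k.1.1.1.2.1, k.1.1.1.2.2.1, k.1.1.1.2.2.2.1, k.1.1.1.2.2.2.2,
      congrArg Prod.fst k.1.1.2, (congrArg Prod.snd k.1.1.2).trans hp.2, k.2, congrArg Prod.snd k.1.2⟩

end Crest.Agent.N49.On
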