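import Crest.Agent.N49.On.Defs
import Crest.Agent.N49.Rm.Dl
import Crest.Agent.N49.Rm.Law
import Crest.Agent.N49.Rm.Op
import Crest.Agent.N49.Lo.Amhw

/-! # Row 49 (helper95): disintegration along the active blocks of a clone shape -/

set_option autoImplicit false
set_option linter.unusedSectionVars false
noncomputable section
open Finset MeasureTheory

namespace Crest.Agent.N49.On
open Rm Po TT

variable {L C L' C' : Type} [Fintype L] [DecidableEq L] [Fintype C] [DecidableEq C]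
  [Fintype L'] [DecidableEq L'] [Fintype C'] [DecidableEq C']

theorem abs_u {X : Type} {f : X → ℝ} (h : ∀ y, 0 ≤ f y ∧ f y ≤ 1) (y : X) : |f y| ≤ 1 :=
  abs_le.2 ⟨by linarith [h y], (h y).2⟩

/-- deleting a set of letters is a marginal, for functions -/
theorem ex_dls (mg : MG) {n b g : ℕ} {T : TT L C} (S : Finset L) (hC : Fintype.card C ≤ 2 ^ n)
    (hb : 2 * n + 10 ≤ b) (h : Good b (g + #S) L C T) {f : (C → ℤ) → ℝ}
    (u : ∀ y, 0 ≤ f y ∧ f y ≤ 1) (e : ∀ y y', (∀ c, Disjoint (T.ty c) S → y c = y' c) → f y = f y') :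
    |T.Ex f - (T.dls S).Ex f| ≤ 8 * #S * (1 / 2) ^ b := by
  have o := h.ok_sm.1
  have o' := (h.dls S).ok_sm.1
  have := o.prob
  have := o'.prob
  have k := fun t => abs_le.1 (mg_dls mg S hC hb h (E := {y | t ≤ f y}) fun y y' a b =>
    le_of_le_of_eq b (e y y' a))
  rw [← o.integral_eq (Lo.int_u u), ← o'.integral_eq (Lo.int_u u), abs_le]
  have a := Lo.layer (ν := T.μ) (μ := (T.dls S).μ) u u (a := 8 * #S * (1 / 2) ^ b) fun t => by
    rw [o.μ_real, o'.μ_real]; linarith [k t]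
  have a := Lo.layer (μ := T.μ) (ν := (T.dls S).μ) u u (a := 8 * #S * (1 / 2) ^ b) fun t => by
    rw [o.μ_real, o'.μ_real]; linarith [k t]
  constructor <;> linarith

/-- dead words are independent noise -/
theorem ex_noise {T : TT L C} {T' : TT L' C'} (h : T.Ok) (ι : C' → C) (hι : Function.Injective ι)
    (a : ∀ w c, T.Φ (cf w) (ι c) = T'.Φ (cf (w ∘ ι)) c)
    (d : ∀ c, c ∉ Set.range ι → ∀ w, T.Φ (cf w) c = w c) {f : (C' → ℤ) → ℝ} (u : ∀ y, |f y| ≤ 1) :
    (T.Ex fun w => f (w ∘ ι)) = T'.Ex f := by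
  classical
  let e : (C' → ℤ) × ({c // c ∉ Set.range ι} → ℤ) ≃ (C → ℤ) :=
    { toFun := fun x c => if k : c ∈ Set.range ι then x.1 k.choose else x.2 ⟨c, k⟩
      invFun := fun w => (w ∘ ι, fun c => w c.1)
      left_inv := fun x => Prod.ext (funext fun c => (dif_pos ⟨c, rfl⟩).trans
        (congrArg x.1 (hι (Exists.choose_spec (⟨c, rfl⟩ : ι c ∈ Set.range ι)))))
        (funext fun c => dif_neg c.2)
      right_inv := fun w => funext fun c => by
        by_cases k : c ∈ Set.range ι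
        · exact (dif_pos k).trans (congrArg w k.choose_spec)
        · exact dif_neg k }
  have e1 : ∀ x, e x ∘ ι = x.1 := fun x => congrArg Prod.fst (e.left_inv x)
  let ν : ({c // c ∉ Set.range ι} → ℤ) → ℝ := fun n => Real.exp (-Real.pi * ∑ c, (n c : ℝ) ^ 2)
  have w : ∀ x, T.wt (e x) = T'.wt x.1 * ν x.2 := fun x => by
    rw [wt, wt, ← Real.exp_add, ← mul_add, ← sum_add_sum_compl (univ.image ι), sum_image hι.injOn,
      sum_subtype (p := fun c => c ∉ Set.range ι) (F := inferInstance) _ (by simp)]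
    congr 3
    · exact sum_congr rfl fun c _ => by rw [a, e1]
    · exact sum_congr rfl fun c _ => by rw [d _ c.2]; congr 2; exact dif_neg c.2
  have k : ∀ f : (C' → ℤ) → ℝ, (∀ y, |f y| ≤ 1) → ∑' x, T.wt x * f (x ∘ ι) =
      (∑' y, T'.wt y * f y) * ∑' n, ν n := fun f u => by
    rw [← e.tsum_eq, ← tsum_mul_right]
    refine (e.summable_iff.2 (h.summable_mul fun x => u (x ∘ ι))).tsum_prod.trans
      (tsum_congr fun y => ?_)
    rw [← tsum_mul_left]
    exact tsum_congr fun n => by simp only [Function.comp_apply, w, e1]; ring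
  have z := k (fun _ => 1) fun _ => by simp
  simp only [mul_one] at z
  have z0 : ∑' n, ν n ≠ 0 := right_ne_zero_of_mul (z.symm.trans_ne h.Z_pos.ne')
  rw [Ex, Ex, k f u, Z, Z, z, mul_div_mul_right _ _ z0]

theorem dj_compl {S Z : Finset L} : Disjoint S Zᶜ ↔ S ⊆ Z := by
  simp [disjoint_left, subset_iff]

theorem act_dls (T : TT L C) (Z : Finset L) : act T Z = T.dls Zᶜ := by
  simp only [act, dls, dj_compl]

theorem integral_cons {X : Type} [MeasurableSpace X] [DiscreteMeasurableSpace X] [Countable X]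
    {r : ℕ} (μ : Measure X) (ν : Fin r → Measure X) [IsProbabilityMeasure μ]
    [∀ x, IsProbabilityMeasure (ν x)] {f : (Fin (r + 1) → X) → ℝ} (u : ∀ y, 0 ≤ f y ∧ f y ≤ 1) :
    ∫ ω, f ω ∂Measure.pi (Fin.cons μ ν : Fin (r + 1) → Measure X) =
      ∫ n, ∫ n', f (Fin.cons n n') ∂Measure.pi ν ∂μ := by
  have : ∀ i, IsProbabilityMeasure ((Fin.cons μ ν : Fin (r + 1) → Measure X) i) :=
    Fin.forall_fin_succ.2 ⟨‹_›, ‹_›⟩
  have mp := (measurePreserving_piFinSuccAbove (Fin.cons μ ν : Fin (r + 1) → Measure X) 0).symm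
  rw [← mp.integral_comp' f]
  refine (integral_prod _ (Lo.int_u fun _ => u _)).trans ?_
  simp [MeasurableEquiv.piFinSuccAbove, Fin.insertNthEquiv]

theorem dis (mg : MG) : DIS := by
  intro L C _ _ _ _ T n b m j Z r a g cC cL hj hr ha hb hG u hg
  set U := act T Z with hU
  have zc : #Zᶜ ≤ n := (card_le_univ _).trans cL
  have gU : Good b 20 L C U := by
    rw [hU, act_dls]; exact Good.dls _ (mono _ _ _ _ _ _ _ le_rfl (by omega) hG)
  have oT := hG.ok_sm.1
  have oU := gU.ok_sm.1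
  have gW : Good b 19 _ _ _ := gU.2.2.1 j r (fun _ => false) a hr ha
  have gT := hG.2.2.1 j r (fun _ => false) a hr ha
  have c4 : ∀ V : TT L C, Fintype.card (V.CC j (Fin r)) ≤ 2 ^ (n + 4) := fun V => by
    have : Fintype.card (V.Bl j) * r ≤ 2 ^ n * 8 :=
      Nat.mul_le_mul ((Fintype.card_subtype_le _).trans cC) hr
    simp only [Fintype.card_sum, Fintype.card_prod, Fintype.card_fin, pow_add]
    omega
  have gy : ∀ y y', (∀ c, T.ty c ⊆ Z → j ∉ T.ty c → y c = y' c) → g y = g y' := fun y y' e =>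
    hg y y' fun c s _ => e c (s.trans (erase_subset _ _)) fun k => by simpa using s k
  let ι : U.CC j (Fin r) → T.CC j (Fin r) :=
    Sum.map id fun cx => (⟨cx.1.1, (act_mem.1 cx.1.2).1⟩, cx.2)
  let G : (U.CC j (Fin r) → ℤ) → ℝ := fun w =>
    g (fun c => w (.inl c)) (Fin.cons (fun c => w (.inl c.1)) fun x c => w (.inr (c, x)))
  let k : (C → ℤ) → ℝ := fun y => ∫ n', g y (Fin.cons (U.bl j y) n') ∂U.cm j (fun _ => false) a y
  have ku : ∀ y, 0 ≤ k y ∧ k y ≤ 1 := fun y =>
    have := oU.cm_prob j (fun _ => false) a y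
    Lo.int_u' fun _ => u _ _
  let h : (C → ℤ) → ℝ := fun y => ∫ ω, g y ω ∂lw (U.Mm j y) (U.ce j y) a
  have hk : ∀ y, h y = ∫ n, k (U.jn j y n) ∂U.bm j y := fun y => by
    have := oU.bm_prob j y
    have := fun x => gm_prob (oU.cM_pd j a y x) 0
    refine (integral_cons (U.bm j y) (fun x => gm (U.cM j a y x) 0) (u y)).trans ?_
    refine integral_congr_ae (.of_forall fun n => Eq.symm ?_)
    show ∫ n', g (U.jn j y n) (Fin.cons (U.bl j (U.jn j y n)) n')
      ∂U.cm j (fun _ => false) a (U.jn j y n) = _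
    rw [bl_jn, cm_jn, gy (U.jn j y n) y fun c _ m => jn_out _ _ fun e => m (act_mem.1 e).1]
    simp only [cm, gp, TT.cc, Bool.false_eq_true, if_false]
  have hu : ∀ y, 0 ≤ h y ∧ h y ≤ 1 := fun y => by
    have := oU.bm_prob j y
    rw [hk]; exact Lo.int_u' fun _ => ku _
  have dj : ∀ S : Finset L, Disjoint (S.image (Sum.inl : L → L ⊕ Fin r)) (Zᶜ.image .inl) ↔ S ⊆ Z :=
    fun S => by rw [disjoint_image Sum.inl_injective, dj_compl]
  have dk : ∀ (c : T.Bl j) (x : Fin r), Disjoint ((T.cl j (fun _ => false) a).ty (.inr (c, x)))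
      (Zᶜ.image .inl) ↔ T.ty c.1 ⊆ Z := fun c x => by
    rw [cl_ty_r, disjoint_insert_left, dj, ← subset_insert_iff, insert_eq_of_mem hj]; simp
  have s1 := ex_dls mg (g := 0) (f := fun w => G (w ∘ ι)) (Zᶜ.image .inl) (c4 T) (by omega)
    (mono _ _ _ _ _ _ _ le_rfl (by have := card_image_le (s := Zᶜ) (f := (Sum.inl : L → L ⊕ Fin r)); omega) gT)
    (fun _ => u _ _) fun w w' e => by
      have e1 : ∀ c, T.ty c ⊆ Z → w (.inl c) = w' (.inl c) := fun c s => e _ ((dj _).2 s)
      simp only [G, ι, Function.comp_apply, Sum.map_inl, Sum.map_inr, id]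
      rw [gy _ (fun c => w' (.inl c)) fun c s _ => e1 c s]
      congr 2
      · exact funext fun c => e1 _ (act_mem.1 c.2).2
      · exact funext fun x => funext fun c => e _ ((dk _ _).2 (act_mem.1 c.2).2)
  have s2 : (((T.cl j (fun _ => false) a).dls (Zᶜ.image .inl)).Ex fun w => G (w ∘ ι)) =
      (U.cl j (fun _ => false) a).Ex G := by
    refine ex_noise (Good.dls (g := 0) _ (mono _ _ _ _ _ _ _ le_rfl (by
      have := card_image_le (s := Zᶜ) (f := (Sum.inl : L → L ⊕ Fin r)); omega) gT)).ok_sm.1 ι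
      (Sum.map_injective.2 ⟨fun _ _ e => e, fun x y e => ?_⟩) ?_ ?_ fun _ => abs_u (fun _ => u _ _) _
    · simp only [Prod.mk.injEq, Subtype.mk.injEq] at e
      exact Prod.ext (Subtype.ext e.1) e.2
    · rintro w (c | ⟨c, x⟩)
      · simp only [ι, Sum.map_inl, id, dls, cl_ty_l, dj, cl_Φ_l, p0_cf, hU, act]
        rfl
      · have s := (act_mem.1 c.2).2
        refine (dls_Φ ((dk _ _).2 s) _).trans ?_
        rw [cl_Φ_r, cl_Φ_r]
        congr 1
        refine Eq.trans (oT.phi_cg ?_) (if_pos s).symm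
        rintro (c' | ℓ) t
        · by_cases q : j ∈ T.ty c'
          · have q' : j ∈ U.ty c' := act_mem.2 ⟨q, t.trans s⟩
            simp only [px, q, q', dif_pos]; rfl
          · have q' : j ∉ U.ty c' := fun e => q (act_mem.1 e).1
            simp only [px, q, q', dif_neg, not_false_eq_true]; rfl
        · rfl
    · rintro (c | ⟨c, x⟩) q w
      · exact absurd ⟨.inl c, rfl⟩ q
      · exact if_neg fun e => q ⟨.inr (⟨c.1, act_mem.2 ⟨c.2, (dk _ _).1 e⟩⟩, x), rfl⟩
  have s3 : (U.cl j (fun _ => false) a).Ex G =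
      (U.cl j (fun _ => false) a).Ex fun w => k (w ∘ .inl) := by
    rw [oU.cl_Ex gW.ok_sm.1 fun _ => abs_u (fun _ => u _ _) _,
      oU.cl_Ex gW.ok_sm.1 fun _ => abs_u ku _]
    congr 1
    refine tsum_congr fun y => ?_
    have := oU.cm_prob j (fun _ => false) a y
    congr 2
    exact (by simp : k y = ∫ _, k y ∂U.cm j (fun _ => false) a y)
  have cr : #(univ.image (Sum.inr : Fin r → L ⊕ Fin r)) ≤ 8 := card_image_le.trans (by simpa)
  have dl : ∀ c, Disjoint ((U.cl j (fun _ => false) a).ty (.inl c)) (univ.image .inr) := fun c => by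
    simp [disjoint_left]
  have s4 := ex_dls mg (g := 0) (f := fun w => k (w ∘ .inl)) (univ.image .inr) (c4 U) (by omega)
    (mono _ _ _ _ _ _ _ le_rfl (by omega) gW) (fun _ => ku _) fun w w' e =>
      congrArg k (funext fun c => e _ (dl c))
  have s5 : (((U.cl j (fun _ => false) a).dls (univ.image .inr)).Ex fun w => k (w ∘ .inl)) =
      U.Ex k := by
    refine ex_noise (Good.dls (g := 0) _ (mono _ _ _ _ _ _ _ le_rfl (by omega) gW)).ok_sm.1 _
      Sum.inl_injective (fun w c => (dls_Φ (dl c) _).trans (by rw [cl_Φ_l, p0_cf]; rfl)) ?_ (abs_u ku)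
    rintro (c | ⟨c, x⟩) q w
    · exact absurd ⟨c, rfl⟩ q
    · exact if_neg (by simp)
  have s6 : U.Ex k = U.Ex h := (oU.Ex_res j (abs_u ku)).trans (congrArg _ (funext hk).symm)
  have s7 := ex_dls mg (g := 0) (f := h) Zᶜ cC (by omega) (mono _ _ _ _ _ _ _ le_rfl (by omega) hG) hu
    fun y y' e => by
      have e1 : ∀ c, T.ty c ⊆ Z → y c = y' c := fun c s => e c (dj_compl.2 s)
      have e2 : ∀ (c : U.Bl j) n t, U.Φ (U.jr j (cf y) n t) c.1 = U.Φ (U.jr j (cf y') n t) c.1 :=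
        fun c n t => (oU.dat c.1 ⟨j, c.2⟩).1 _ _ (by
          rintro (c' | ℓ) _ q
          · by_cases s : T.ty c' ⊆ Z
            · simp only [jr, cf, Sum.elim_inl, e1 c' s]
            · simp [hU, act, s] at q
          · rfl)
      have e3 : U.Nm j (cf y) = U.Nm j (cf y') := Matrix.ext fun c c' => e2 c _ _
      have e4 : U.of j (cf y) = U.of j (cf y') := funext fun c => e2 c _ _
      simp only [h, Mm, ce, e3, e4, gy y y' fun c s _ => e1 c s]
  rw [← act_dls, ← hU, ← s6, ← s5] at s7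
  rw [s2, s3] at s1
  have n1 : (#(Zᶜ.image (Sum.inl : L → L ⊕ Fin r)) : ℝ) ≤ n := by exact_mod_cast card_image_le.trans zc
  have n2 : (#Zᶜ : ℝ) ≤ n := by exact_mod_cast zc
  have n3 : (#(univ.image (Sum.inr : Fin r → L ⊕ Fin r)) : ℝ) ≤ 8 := by exact_mod_cast cr
  have n4 : (n : ℝ) ≤ 2 ^ n := by exact_mod_cast n.lt_two_pow_self.le
  have p0 : (0 : ℝ) < (1 / 2) ^ b := by positivity
  have p1 : (1 : ℝ) ≤ 2 ^ n := one_le_pow₀ one_le_two
  have p2 : (1 / 2 : ℝ) ^ b * 2 ^ n * 1024 ≤ (1 / 2) ^ m :=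
    (mul_le_mul_of_nonneg_right (mul_le_mul_of_nonneg_right (half_anti (show n + m + 10 ≤ b by omega))
      (by positivity)) (by norm_num)).trans_eq (by rw [pow_add, pow_add, one_div, inv_pow]; field_simp; norm_num)
  change |((T.cl j (fun _ => false) a).Ex fun w => G (w ∘ ι)) - T.Ex h| ≤ _
  rw [abs_le] at s1 s4 s7 ⊢
  constructor <;> nlinarith

end Crest.Agent.N49.On
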