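import Crest.Agent.N49.Rm.St
import Crest.Agent.N49.Rm.Ops
import Crest.Agent.N49.Rm.Trf
import Crest.Agent.N49.Rm.Fs

/-! # Row 49 (helper82): the algebra at the end of the gauge step of `ONE` -/

set_option autoImplicit false
set_option linter.unusedSectionVars false
noncomputable section
open Finset

namespace Crest.Agent.N49.On
open Rm TT

variable {L C : Type} [Fintype L] [DecidableEq L] [Fintype C] [DecidableEq C]

namespace En
variable {ty : C → Finset L} {A M : Finset L} {j ℓ : L} {D E : (C → ℝ) → ℝ}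

variable (ty A M) in
/-- `D` reads the words inside `A` that meet `M` -/
def Cg (D : (C → ℝ) → ℝ) : Prop :=
  ∀ t t', (∀ c, ¬ Disjoint (ty c) M → ty c ⊆ A → t c = t' c) → D t = D t'

variable (ty) in
/-- `D` is linear in the block of `ℓ` -/
def ML (ℓ : L) (D : (C → ℝ) → ℝ) : Prop := ∀ (a b : ℝ) t t' s, (∀ c, ℓ ∉ ty c → t c = t' c) →
  (∀ c, ℓ ∉ ty c → s c = t c) → (∀ c, ℓ ∈ ty c → s c = a * t c + b * t' c) →
    D s = a * D t + b * D t'

variable (ty) in
/-- kill the words containing `j` -/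
def z0 (j : L) (t : C → ℝ) : C → ℝ := fun c => if j ∈ ty c then 0 else t c

variable (ty) in
/-- the part that is linear in the words containing `j` -/
def lin (j : L) (D : (C → ℝ) → ℝ) (t : C → ℝ) : ℝ :=
  ∑ c with j ∈ ty c, t c * (D (z0 ty j t + Pi.single c 1) - D (z0 ty j t))

theorem ML.sub (h : ML ty ℓ D) (k : ML ty ℓ E) : ML ty ℓ fun t => D t - E t :=
  fun a b t t' s e1 e2 e3 => by
    beta_reduce
    rw [h a b t t' s e1 e2 e3, k a b t t' s e1 e2 e3]; ring

theorem Cg.z0 (h : Cg ty A M D) : Cg ty (A.erase j) M fun t => D (z0 ty j t) :=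
  fun t t' e => h _ _ fun c d s => by
    unfold En.z0
    split_ifs with k
    exacts [rfl, e c d (subset_erase.2 ⟨s, k⟩)]

theorem Cg.mono {A' : Finset L} (h : Cg ty A M D) (s : A ⊆ A') : Cg ty A' M D :=
  fun t t' e => h t t' fun c d k => e c d (k.trans s)

theorem ML.z0 (h : ML ty ℓ D) (u : C → ℝ) (hu : ∀ c, ℓ ∈ ty c → u c = 0) :
    ML ty ℓ fun t => D (z0 ty j t + u) := fun a b t t' s e1 e2 e3 =>
  h a b _ _ _ (fun c k => by simp [En.z0, e1 c k]) (fun c k => by simp [En.z0, e2 c k])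
    fun c k => by by_cases x : j ∈ ty c <;> simp [En.z0, e3 c k, hu c k, x]

theorem ML.z0' (h : ML ty ℓ D) : ML ty ℓ fun t => D (En.z0 ty j t) := by
  simpa using h.z0 (j := j) 0 fun _ _ => rfl

theorem ML.single (h : ML ty ℓ D) {c : C} (k : ℓ ∈ ty c) (s : C → ℝ) (r : ℝ) :
    D (s + Pi.single c r) - D s =
      r * D fun c' => if ℓ ∈ ty c' then (Pi.single c 1 : C → ℝ) c' else s c' := by
  have := h 1 r s (fun c' => if ℓ ∈ ty c' then (Pi.single c 1 : C → ℝ) c' else s c')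
    (s + (Pi.single c r : C → ℝ)) (fun c' x => (if_neg x).symm)
    (fun c' x => by
      have y : c' ≠ c := fun y => x (y ▸ k)
      simp [y])
    fun c' x => by by_cases y : c' = c <;> simp [x, y, k]
  rw [this]
  ring

theorem single (h : Cg ty A M D) (k : ∀ ℓ ∈ M, ML ty ℓ D) (c : C) (s : C → ℝ) (r : ℝ) :
    D (s + Pi.single c r) - D s = r * (D (s + Pi.single c 1) - D s) := by
  by_cases d : Disjoint (ty c) M
  · have : ∀ r : ℝ, D (s + Pi.single c r) = D s := fun r => h _ _ fun c' x _ => by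
      simp [Pi.single_eq_of_ne fun y : c' = c => x (y ▸ d)]
    simp [this]
  · obtain ⟨ℓ, a, b⟩ := not_disjoint_iff.1 d
    rw [(k ℓ b).single a, (k ℓ b).single a, one_mul]

theorem Cg.lin (h : Cg ty A M D) : Cg ty A M (lin ty j D) := fun t t' e => by
  have e0 : ∀ c, ¬ Disjoint (ty c) M → ty c ⊆ A → En.z0 ty j t c = En.z0 ty j t' c :=
    fun c d s => by simp [En.z0, e c d s]
  refine sum_congr rfl fun c _ => ?_
  rw [h _ _ e0, h (En.z0 ty j t + Pi.single c 1) (En.z0 ty j t' + Pi.single c 1)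
    fun c' d s => by simp [e0 c' d s]]
  by_cases x : ¬ Disjoint (ty c) M ∧ ty c ⊆ A
  · rw [e c x.1 x.2]
  · rw [h (En.z0 ty j t' + Pi.single c 1) (En.z0 ty j t') fun c' d s => by
      simp [Pi.single_eq_of_ne fun y : c' = c => x (y ▸ ⟨d, s⟩)]]
    simp

theorem ml_lin (D : (C → ℝ) → ℝ) : ML ty j (lin ty j D) := fun a b t t' s e1 e2 e3 => by
  have z1 : z0 ty j t' = z0 ty j t := funext fun c => by
    by_cases k : j ∈ ty c <;> simp [z0, k, e1 c]
  have z2 : z0 ty j s = z0 ty j t := funext fun c => by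
    by_cases k : j ∈ ty c <;> simp [z0, k, e2 c]
  simp only [lin, z1, z2, mul_sum, ← sum_add_distrib]
  exact sum_congr rfl fun c k => by rw [e3 c (mem_filter.1 k).2]; ring

theorem ML.lin (h : ML ty ℓ D) : ML ty ℓ (lin ty j D) := fun a b t t' s e1 e2 e3 => by
  simp only [En.lin, mul_sum, ← sum_add_distrib]
  refine sum_congr rfl fun c _ => ?_
  by_cases k : ℓ ∈ ty c
  · have z : ∀ u u' : C → ℝ, (∀ c, ℓ ∉ ty c → u c = u' c) →
        (fun c' => if ℓ ∈ ty c' then (Pi.single c 1 : C → ℝ) c' else En.z0 ty j u c') =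
          fun c' => if ℓ ∈ ty c' then (Pi.single c 1 : C → ℝ) c' else En.z0 ty j u' c' :=
      fun u u' e => funext fun c' => by by_cases x : ℓ ∈ ty c' <;> simp [En.z0, x, e c']
    rw [h.single k, h.single k, h.single k, z s t e2, ← z t t' e1, e3 c k]
    ring
  · have a1 := h.z0 (j := j) (Pi.single c 1)
      (fun c' x => Pi.single_eq_of_ne (fun y : c' = c => k (y ▸ x)) _) a b t t' s e1 e2 e3
    have a2 := h.z0' (j := j) a b t t' s e1 e2 e3
    beta_reduce at a1 a2
    rw [a1, a2, e2 c k, ← e1 c k]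
    ring

theorem scale (k : ∀ ℓ ∈ M, ML ty ℓ D) (r : ℝ) (t : C → ℝ) (N : Finset L) (hN : N ⊆ M) :
    D (fun c => r ^ #(ty c ∩ N) * t c) = r ^ #N * D t := by
  induction N using Finset.induction_on with
  | empty => simp
  | insert ℓ N x ih =>
    rw [k ℓ (hN (mem_insert_self _ _)) r 0 (fun c => r ^ #(ty c ∩ N) * t c)
      (fun c => r ^ #(ty c ∩ N) * t c) _ (fun _ _ => rfl)
      (fun c y => by rw [inter_insert_of_notMem y]) fun c y => by
        rw [inter_insert_of_mem y, card_insert_of_notMem fun z => x (mem_inter.1 z).2]; ring,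
      ih ((subset_insert _ _).trans hN), card_insert_of_notMem x]
    ring

theorem box (h : Cg ty A M D) (k : ∀ ℓ ∈ M, ML ty ℓ D) {R β : ℝ} (hR : 1 ≤ R)
    (b : ∀ t : C → ℝ, (∀ c, |t c| ≤ R⁻¹) → |D t| ≤ β) (t : C → ℝ)
    (ht : ∀ c, ty c ⊆ A → ¬ Disjoint (ty c) M → |t c| ≤ 1) : |D t| ≤ R ^ #M * β := by
  have R0 : 0 < R := by linarith
  have r1 : R⁻¹ ≤ 1 := inv_le_one_of_one_le₀ hR
  have := b (fun c => if ty c ⊆ A ∧ ¬ Disjoint (ty c) M then R⁻¹ ^ #(ty c ∩ M) * t c else 0)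
    fun c => by
      split_ifs with x
      · rw [abs_mul, abs_of_nonneg (by positivity)]
        refine (mul_le_of_le_one_right (by positivity) (ht c x.1 x.2)).trans ?_
        exact pow_le_of_le_one (by positivity) r1
          (card_ne_zero.2 (not_disjoint_iff_nonempty_inter.1 x.2))
      · simpa using R0.le
  rw [h _ (fun c => R⁻¹ ^ #(ty c ∩ M) * t c) fun c d s => if_pos ⟨s, d⟩,
    scale k _ _ _ (Subset.refl _), abs_mul, abs_of_nonneg (by positivity), inv_pow,
    inv_mul_le_iff₀ (by positivity)] at this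
  exact this

theorem tele {D' : (C → ℝ) → ℝ} {r B : ℝ} (h : Cg ty A M E) (k : ∀ ℓ ∈ M, ML ty ℓ E) (t : C → ℝ)
    (ht : ∀ c, |t c| ≤ r)
    (b : ∀ s u : C → ℝ, (∀ c, |s c| ≤ r) → (∀ c, |u c| ≤ r) → (∀ c, j ∉ ty c → s c = 0) →
      (∀ c, j ∉ ty c → u c = 0) → |D (z0 ty j t + s + u) - E (z0 ty j t + s) - D' u| ≤ B) :
    |D t - D (z0 ty j t) - lin ty j E t| ≤ 2 * Fintype.card C * B := by
  have r0 : ∀ c : C, |(0 : ℝ)| ≤ r := fun c => by simpa using (abs_nonneg _).trans (ht c)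
  have B0 : 0 ≤ B := (abs_nonneg _).trans (b 0 0 r0 r0 (fun _ _ => rfl) fun _ _ => rfl)
  have key : ∀ S : Finset C, (∀ c ∈ S, j ∈ ty c) →
      |D (z0 ty j t + fun c => if c ∈ S then t c else 0) - D (z0 ty j t) -
        ∑ c ∈ S, t c * (E (z0 ty j t + Pi.single c 1) - E (z0 ty j t))| ≤ 2 * #S * B := by
    intro S
    induction S using Finset.induction_on with
    | empty =>
      intro _
      rw [show (z0 ty j t + fun c => if c ∈ (∅ : Finset C) then t c else 0) = z0 ty j t from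
        funext fun c => by simp]
      simp
    | insert c S x ih =>
      intro hS
      have u1 : ∀ c', |if c' ∈ S then t c' else 0| ≤ r := fun c' => by
        split_ifs
        exacts [ht c', r0 c']
      have u2 : ∀ c', j ∉ ty c' → (if c' ∈ S then t c' else 0) = 0 := fun c' y =>
        if_neg fun z => y (hS c' (mem_insert_of_mem z))
      have a1 := b (Pi.single c (t c)) _ (fun c' => by
        by_cases y : c' = c
        · simpa [y] using ht c
        · simpa [y] using r0 c) u1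
        (fun c' y => Pi.single_eq_of_ne (fun z : c' = c => y (z ▸ hS c (mem_insert_self _ _))) _) u2
      have a2 := b 0 _ r0 u1 (fun _ _ => rfl) u2
      have a3 := ih fun c' y => hS c' (mem_insert_of_mem y)
      rw [show (z0 ty j t + fun c' => if c' ∈ insert c S then t c' else 0) =
        z0 ty j t + Pi.single c (t c) + fun c' => if c' ∈ S then t c' else 0 from
        funext fun c' => by by_cases y : c' = c <;> simp [y, x], sum_insert x,
        ← single h k, card_insert_of_notMem x]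
      rw [add_zero] at a2
      push_cast
      rw [abs_le] at a1 a2 a3 ⊢
      constructor <;> linarith [a1.1, a1.2, a2.1, a2.2, a3.1, a3.2]
  have := key {c | j ∈ ty c} fun c x => (mem_filter.1 x).2
  rw [show (z0 ty j t + fun c => if c ∈ ({c | j ∈ ty c} : Finset C) then t c else 0) = t from
    funext fun c => by by_cases x : j ∈ ty c <;> simp [z0, x]] at this
  refine this.trans ?_
  gcongr
  exact card_le_univ _

end En

open En

variable {T : TT L C} (h : T.Ok) {A M : Finset L} {j : L} {G : Fm L C}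

variable (M) in
/-- a form on the fibre over `a`, in the error coordinates -/
def Dv (a : C → ℤ) (G : Fm L C) (t : C → ℝ) : ℝ := G (h.fp M a t)

variable (M j) in
/-- the projection of the form at `a` along the mixed words -/
def Pf (a : C → ℤ) (G : Fm L C) : Fm L C := fun p => Dv h M a G (z0 T.ty j (T.Φ p))

variable (M j) in
/-- the part of the form at `a` that is linear in the errors of the mixed words -/
def Cf (a : C → ℤ) (G : Fm L C) : Fm L C := fun p => lin T.ty j (Dv h M a G) (T.Φ p)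

theorem dv_cg (a : C → ℤ) (hG : T.Ty A G) : Cg T.ty A M (Dv h M a G) := fun t t' e =>
  hG _ _ (h.fib_uniq A (h.fp_fib M a t) (h.fp_fib M a t') fun c d s => by
    rw [h.fp_phi M a t d, h.fp_phi M a t' d, e c d s])

theorem dv_ml (a : C → ℤ) (hG : T.Dat A M G) {ℓ : L} (l : ℓ ∈ M) : ML T.ty ℓ (Dv h M a G) :=
  fun x y t t' s e1 e2 e3 => by
    have k := h.fp_lin a hG l t
    have := (k.map_add (x • t) (y • t')).trans (by rw [k.map_smul, k.map_smul])
    rw [show (fun c => if ℓ ∈ T.ty c then t c else t c) = t from funext fun c => ite_self _,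
      show (fun c => if ℓ ∈ T.ty c then t' c else t c) = t' from funext fun c => by
        by_cases z : ℓ ∈ T.ty c <;> simp [z, e1 c],
      show (fun c => if ℓ ∈ T.ty c then (x • t + y • t') c else t c) = s from funext fun c => by
        by_cases z : ℓ ∈ T.ty c <;> simp [z, e2 c, e3 c]] at this
    exact this

theorem dv_eq (hG : T.Ty A G) {a y : C → ℤ} (e : T.Agr A M a y) {p : C ⊕ L → ℝ}
    (hp : p ∈ T.Fib M y) : G p = Dv h M a G (T.Φ p) := by
  rw [← e.ty hG hp]
  refine hG _ _ (h.fib_uniq A (mvf_fib hp) (h.fp_fib M a _) fun c d s => ?_)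
  rw [h.fp_phi M a _ d]
  exact e.ty (F := fun p => T.Φ p c)
    ((h.dat c ((not_disjoint_iff_nonempty_inter.1 d).mono inter_subset_left)).1.mono s) hp

theorem dv_agr (hG : T.Ty A G) {a y : C → ℤ} (e : T.Agr A M a y) : Dv h M a G = Dv h M y G :=
  funext fun t => ((dv_eq h hG e (h.fp_fib M y t)).trans
    (dv_cg h a hG _ _ fun _ d _ => h.fp_phi M y t d)).symm

theorem pf_agr (hG : T.Ty A G) {a y : C → ℤ} (e : T.Agr A M a y) :
    Pf h M j a G = Pf h M j y G := by unfold Pf; rw [dv_agr h hG e]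

theorem cf_agr (hG : T.Ty A G) {a y : C → ℤ} (e : T.Agr A M a y) :
    Cf h M j a G = Cf h M j y G := by unfold Cf; rw [dv_agr h hG e]

include h in
theorem dat_phi {D : (C → ℝ) → ℝ} {N : Finset L} (c : Cg T.ty A M D) (k : ∀ ℓ ∈ N, ML T.ty ℓ D) :
    T.Dat A N fun p => D (T.Φ p) :=
  ⟨fun _ _ e => c _ _ fun _ d s => h.phi_congr
    ((not_disjoint_iff_nonempty_inter.1 d).mono inter_subset_left) fun v b => e v (b.trans s),
    fun ℓ l a b p p' e => k ℓ l a b _ _ _ (fun _ x => h.ind x p p' e)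
      (fun _ x => h.phi_cmb' x a b p p') fun _ x => h.phi_cmb x a b e⟩

theorem pf_dat (a : C → ℤ) (hG : T.Dat A M G) : T.Dat (A.erase j) M (Pf h M j a G) :=
  dat_phi h (dv_cg h a hG.1).z0 fun _ l => (dv_ml h a hG l).z0'

theorem cf_dat (a : C → ℤ) (hG : T.Dat A M G) : T.Dat A (insert j M) (Cf h M j a G) :=
  dat_phi h (dv_cg h a hG.1).lin fun ℓ l => by
    rcases mem_insert.1 l with rfl | l
    exacts [ml_lin _, (dv_ml h a hG l).lin]

/-- the relation on the rectangle in the error coordinates -/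
theorem rect_dv (hM : j ∉ M) {a1 a2 : ℕ} (ha : a1 ≤ a2) {G : Fin 4 → Fm L C}
    (hG : ∀ l, T.Ty A (G l)) {K : Fm L C} (hK : T.Ty (A.erase j) K) {w : T.CC j (Fin 4) → ℤ} {B : ℝ}
    (k : (T.rect j a1 a2).Sm (upA A (Fin 4)) (M.image Sum.inl) w B fun P =>
      G 0 (T.pos j (fun _ => false) 1 (cv 0) P) - G 1 (T.pos j (fun _ => false) 1 (cv 1) P) -
        G 2 (T.pos j (fun _ => false) 1 (cv 2) P) + G 3 (T.pos j (fun _ => false) 1 (cv 3) P) -
        K (T.p0 j P))
    (t s u : C → ℝ) (ht : ∀ c, |t c| ≤ 1) (hs : ∀ c, |s c| ≤ (2 ^ a2)⁻¹)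
    (hu : ∀ c, |u c| ≤ (2 ^ a2)⁻¹) (s0 : ∀ c, j ∉ T.ty c → s c = 0)
    (u0 : ∀ c, j ∉ T.ty c → u c = 0) :
    |Dv h M (T.cor j 0 w) (G 0) (t + s + u) - Dv h M (T.cor j 1 w) (G 1) (t + s) -
      Dv h M (T.cor j 2 w) (G 2) (t + u) + Dv h M (T.cor j 3 w) (G 3) t -
      Dv h M (fun c => w (.inl c)) K t| ≤ B := by
  have hR := h.cl j (fun _ : Fin 4 => false) ![a1, a1, a2, a2]
  obtain ⟨τ, hτ⟩ : ∃ τ : T.CC j (Fin 4) → ℝ, τ = Sum.elim t
    fun cx => 2 ^ (![a1, a1, a2, a2] cx.2) * ![s, 0, u, 0] cx.2 cx.1.1 := ⟨_, rfl⟩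
  have pf := hR.fp_fib (M.image Sum.inl) w τ
  have p1 : ∀ c, ¬ Disjoint (T.ty c) M →
      (T.rect j a1 a2).Φ (hR.fp (M.image Sum.inl) w τ) (.inl c) = t c := fun c d =>
    (hR.fp_phi _ w τ (c := .inl c) fun x => d ((disjoint_image Sum.inl_injective).1 x)).trans
      (by rw [hτ]; rfl)
  have p2 : ∀ (c : T.Bl j) x, ¬ Disjoint (T.ty c.1) M →
      (T.rect j a1 a2).Φ (hR.fp (M.image Sum.inl) w τ) (.inr (c, x)) =
        2 ^ (![a1, a1, a2, a2] x) * ![s, 0, u, 0] x c.1 := fun c x d =>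
    (hR.fp_phi _ w τ (c := .inr (c, x)) fun y => d (by
      have := (disjoint_image Sum.inl_injective).1 (y.mono_left (subset_insert _ _))
      exact disjoint_left.2 fun ℓ l m =>
        disjoint_left.1 this (mem_erase.2 ⟨fun e => hM (e ▸ m), l⟩) m)).trans (by rw [hτ]; rfl)
  have e : ∀ (l : Fin 4) (v : C → ℝ), (∀ c, v c = t c + cv l 0 * s c + cv l 2 * u c) →
      G l (T.pos j (fun _ => false) 1 (cv l) (hR.fp (M.image Sum.inl) w τ)) =
        Dv h M (T.cor j l w) (G l) v := fun l v hv => by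
    rw [dv_eq h (hG l) (a := T.cor j l w) (fun _ _ _ _ => rfl)
      (T.fib_pos j _ _ 1 (cv l) hM (by simp) w _ pf)]
    refine dv_cg h _ (hG l) _ _ fun c d _ => ?_
    by_cases x : j ∈ T.ty c
    · rw [h.phi_pos_in (a := ![a1, a1, a2, a2]) 1 (cv l) _ x, p1 c d, hv]
      simp only [p2 ⟨c, x⟩ _ d, Fin.sum_univ_four]
      simp
      field_simp
      ring
    · rw [h.phi_pos_out (a := ![a1, a1, a2, a2]) 1 (cv l) _ x, p1 c d, hv, s0 c x, u0 c x]
      simp
  have := k _ pf fun c _ d => by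
    rw [hR.fp_phi _ w τ d, hτ]
    rcases c with c | ⟨c, x⟩
    · exact ht c
    · have q : ∀ (a : ℕ) (r : ℝ), a ≤ a2 → |r| ≤ (2 ^ a2)⁻¹ → |2 ^ a * r| ≤ 1 := fun a r y z => by
        rw [abs_mul, abs_of_nonneg (by positivity)]
        calc (2 : ℝ) ^ a * |r| ≤ 2 ^ a2 * (2 ^ a2)⁻¹ := by gcongr; norm_num
          _ = 1 := by field_simp
      fin_cases x
      exacts [q _ _ ha (hs _), by simp, q _ _ le_rfl (hu _), by simp]
  beta_reduce at this
  rwa [e 0 (t + s + u) fun c => by simp [cv], e 1 (t + s) fun c => by simp [cv],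
    e 2 (t + u) fun c => by simp [cv], e 3 t fun c => by simp [cv],
    dv_eq h hK (a := fun c => w (.inl c)) (fun _ _ _ _ => rfl) (T.fib_p0 j _ _ w _ pf),
    dv_cg h _ hK (T.Φ (T.p0 j (hR.fp (M.image Sum.inl) w τ))) t fun c d _ => p1 c d] at this

/-- **the end of the gauge step** -/
theorem endb (hM : j ∉ M) {a1 a2 : ℕ} (ha : a1 ≤ a2) {G : Fin 4 → Fm L C}
    (hG : ∀ l, T.Dat A M (G l)) {K : Fm L C} (hK : T.Ty (A.erase j) K) {w : T.CC j (Fin 4) → ℤ}
    {B : ℝ} (k : (T.rect j a1 a2).Sm (upA A (Fin 4)) (M.image Sum.inl) w B fun P =>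
      G 0 (T.pos j (fun _ => false) 1 (cv 0) P) - G 1 (T.pos j (fun _ => false) 1 (cv 1) P) -
        G 2 (T.pos j (fun _ => false) 1 (cv 2) P) + G 3 (T.pos j (fun _ => false) 1 (cv 3) P) -
        K (T.p0 j P)) :
    (∀ y, T.Agr (A.erase j) M (fun c => w (.inl c)) y → T.Sm (A.erase j) M y B fun p =>
      Pf h M j (T.cor j 0 w) (G 0) p - Pf h M j (T.cor j 1 w) (G 1) p -
        Pf h M j (T.cor j 2 w) (G 2) p + Pf h M j (T.cor j 3 w) (G 3) p - K p) ∧
    T.Sm A M (T.cor j 0 w) ((2 ^ a2) ^ #M * (2 * Fintype.card C * B)) fun p =>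
      G 0 p - Pf h M j (T.cor j 0 w) (G 0) p - Cf h M j (T.cor j 1 w) (G 1) p := by
  have b := rect_dv h hM ha (fun l => (hG l).1) hK k
  have r0 : ∀ c : C, |(0 : C → ℝ) c| ≤ (2 ^ a2)⁻¹ := fun _ => by simp
  have r1 : ((2 : ℝ) ^ a2)⁻¹ ≤ 1 := inv_le_one_of_one_le₀ (one_le_pow₀ one_le_two)
  refine ⟨fun y e p hp hc => ?_, fun p hp hc => ?_⟩
  · have := b (fun c => if T.ty c ⊆ A.erase j ∧ ¬ Disjoint (T.ty c) M then T.Φ p c else 0) 0 0
      (fun c => by
        split_ifs with x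
        exacts [hc c x.1 x.2, by simp]) r0 r0 (fun _ _ => rfl) fun _ _ => rfl
    have e1 : ∀ l, Dv h M (T.cor j l w) (G l)
        (fun c => if T.ty c ⊆ A.erase j ∧ ¬ Disjoint (T.ty c) M then T.Φ p c else 0) =
        Pf h M j (T.cor j l w) (G l) p := fun l => dv_cg h _ (hG l).1 _ _ fun c d s => by
      by_cases x : j ∈ T.ty c <;> simp [z0, subset_erase, x, d, s]
    simp only [add_zero, e1] at this
    rwa [dv_cg h _ hK _ (T.Φ p) fun c d s => if_pos ⟨s, d⟩, ← dv_eq h hK e hp] at this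
  · beta_reduce
    rw [dv_eq h (hG 0).1 (a := T.cor j 0 w) (fun _ _ _ _ => rfl) hp]
    have c0 := dv_cg h (M := M) (T.cor j 0 w) (hG 0).1
    have c1 := dv_cg h (M := M) (T.cor j 1 w) (hG 1).1
    refine box (A := A) (D := fun t => Dv h M (T.cor j 0 w) (G 0) t -
      Dv h M (T.cor j 0 w) (G 0) (z0 T.ty j t) - lin T.ty j (Dv h M (T.cor j 1 w) (G 1)) t)
      (fun t t' e => by
        beta_reduce
        rw [c0 t t' e, c1.lin t t' e]
        exact congrArg (fun x => _ - x - _) ((c0.z0.mono (erase_subset j A)) t t' e))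
      (fun ℓ l => ((dv_ml h _ (hG 0) l).sub (dv_ml h _ (hG 0) l).z0').sub (dv_ml h _ (hG 1) l).lin)
      (one_le_pow₀ one_le_two) (fun t ht => ?_) _ hc
    refine tele (D' := fun u => Dv h M (T.cor j 2 w) (G 2) (z0 T.ty j t + u) -
      Dv h M (T.cor j 3 w) (G 3) (z0 T.ty j t) + Dv h M (fun c => w (.inl c)) K (z0 T.ty j t))
      c1 (fun ℓ l => dv_ml h _ (hG 1) l) t ht fun s u hs hu s0 u0 => ?_
    have := b (z0 T.ty j t) s u (fun c => by
      unfold z0
      split_ifs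
      exacts [by simp, (ht c).trans r1]) hs hu s0 u0
    refine le_of_eq_of_le (congrArg _ ?_) this
    ring

end Crest.Agent.N49.On
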