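import Crest.Agent.N49.Po.Sb
import Mathlib.MeasureTheory.Integral.Bochner.SumMeasure

/-!
# Row 49 (helper73): first moment of the centred discrete Gaussian
-/

set_option autoImplicit false
set_option linter.unusedSectionVars false

open Matrix MeasureTheory

noncomputable section

namespace Crest.Agent.N49.Po

variable {d : Type} [Fintype d] [DecidableEq d] {M : Matrix d d ℝ}

theorem integral_gm_any (hM : M.PosDef) (θ : d → ℝ) (f : (d → ℤ) → ℝ) :
    ∫ n, f n ∂gm M θ = ∑' n : d → ℤ, gs M (zc n - θ) / th M θ * f n := by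
  rw [gm, integral_sum_dirac (fun _ => ENNReal.ofReal_ne_top)]
  refine tsum_congr fun n => ?_
  rw [ENNReal.toReal_ofReal (div_nonneg (gs_pos _ _).le (th_pos hM θ).le), smul_eq_mul]

theorem integrable_gm (hM : M.PosDef) (θ : d → ℝ) {f : (d → ℤ) → ℝ}
    (h : Summable fun n => gs M (zc n - θ) * |f n|) : Integrable f (gm M θ) := by
  refine integrable_sum_dirac (fun _ => ENNReal.ofReal_ne_top) ((h.div_const (th M θ)).congr
    fun n => ?_)
  rw [ENNReal.toReal_ofReal (div_nonneg (gs_pos _ _).le (th_pos hM θ).le), Real.norm_eq_abs]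
  ring

theorem mom_pt (M : Matrix d d ℝ) (x : d → ℝ) (h : 0 ≤ qf M x) (c : ℝ) :
    gs M x * √(qf M x) ≤ (c - 1 / 2) * gs M x + Real.exp (-c) * gs ((2⁻¹ : ℝ) • M) x := by
  have e : Real.exp (-c) * gs ((2⁻¹ : ℝ) • M) x =
      gs M x * Real.exp (Real.pi * qf M x / 2 - c) := by
    simp only [gs, qf_smul, ← Real.exp_add]
    congr 1; ring
  have h1 := Real.add_one_le_exp (Real.pi * qf M x / 2 - c)
  have h2 : √(qf M x) ≤ (1 + qf M x) / 2 := by
    nlinarith [Real.sq_sqrt h, sq_nonneg (√(qf M x) - 1)]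
  have h3 : qf M x ≤ Real.pi * qf M x := le_mul_of_one_le_left h (by linarith [Real.pi_gt_three])
  rw [e, mul_comm (c - 1 / 2), ← mul_add]
  exact mul_le_mul_of_nonneg_left (by linarith) (gs_pos _ _).le

theorem summable_mom (hM : M.PosDef) (θ : d → ℝ) :
    Summable fun n : d → ℤ => gs M (zc n - θ) * √(qf M (zc n - θ)) :=
  Summable.of_nonneg_of_le (fun _ => mul_nonneg (gs_pos _ _).le (Real.sqrt_nonneg _))
    (fun _ => mom_pt M _ (qf_nonneg hM _) 1) (((summable_gs hM θ).mul_left _).add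
      ((summable_gs (hM.smul (show (0 : ℝ) < 2⁻¹ by norm_num)) θ).mul_left _))

theorem tsum_mom (hM : M.PosDef) :
    ∑' n : d → ℤ, gs M (zc n - 0) * √(qf M (zc n - 0)) ≤ (Fintype.card d + 1) / 2 * th M 0 := by
  have hM' := hM.smul (show (0 : ℝ) < 2⁻¹ by norm_num)
  have h2 := th_scale hM (show (0 : ℝ) < 2⁻¹ by norm_num) (by norm_num) 0
  rw [Real.sqrt_inv, inv_inv] at h2
  have h1 := hasSum_le (fun n => mom_pt M _ (qf_nonneg hM _) (Fintype.card d / 2))
    (summable_mom hM 0).hasSum (((summable_gs hM 0).hasSum.mul_left _).add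
      ((summable_gs hM' 0).hasSum.mul_left _))
  change _ ≤ _ * th M 0 + _ * th _ 0 at h1
  have h3 : Real.exp (-(Fintype.card d / 2 : ℝ)) * √2 ^ Fintype.card d ≤ 1 := by
    rw [show -(Fintype.card d / 2 : ℝ) = (Fintype.card d : ℕ) * (-(1 / 2)) by ring,
      Real.exp_nat_mul, ← mul_pow]
    refine pow_le_one₀ (by positivity) ?_
    rw [Real.exp_neg, inv_mul_le_iff₀ (Real.exp_pos _), mul_one]
    refine Real.sqrt_le_iff.2 ⟨(Real.exp_pos _).le, ?_⟩
    rw [sq, ← Real.exp_add]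
    linarith [Real.add_one_le_exp (1 / 2 + 1 / 2 : ℝ)]
  have p := th_pos hM 0
  have h4 := mul_le_mul_of_nonneg_left h2 (Real.exp_pos (-(Fintype.card d / 2 : ℝ))).le
  nlinarith [mul_le_mul_of_nonneg_right h3 p.le]

theorem sqrt_qf_smul (M : Matrix d d ℝ) (a : ℕ) (x : d → ℝ) :
    √(qf ((4 ^ a : ℝ) • M) x) = 2 ^ a * √(qf M x) := by
  rw [qf_smul, show (4 : ℝ) ^ a = (2 ^ a) ^ 2 by rw [← pow_mul, mul_comm, pow_mul]; norm_num,
    Real.sqrt_mul (by positivity), Real.sqrt_sq (by positivity)]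

theorem nq_eq (hM : M.PosDef) (a : ℕ) (x : d → ℤ) :
    nq hM (La.ci x) = √(qf ((4 ^ a : ℝ) • M) (zc x - 0)) / 2 ^ a := by
  rw [sqrt_qf_smul, sub_zero, nq_apply, zc_eq_ci]
  field_simp

theorem integrable_nq4 (hM : M.PosDef) (a : ℕ) :
    Integrable (fun x => nq hM (La.ci x)) (gm ((4 ^ a : ℝ) • M) 0) := by
  have hN := hM.smul (show (0 : ℝ) < 4 ^ a by positivity)
  refine integrable_gm hN 0 (((summable_mom hN 0).div_const (2 ^ a)).congr fun n => ?_)
  rw [abs_of_nonneg (apply_nonneg _ _), nq_eq hM a, mul_div_assoc]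

/-- first moment of the centred discrete Gaussian -/
theorem int_nq' (hM : M.PosDef) (a : ℕ) :
    ∫ x, nq hM (La.ci x) ∂gm ((4 ^ a : ℝ) • M) 0 ≤ (Fintype.card d + 1) / 2 / 2 ^ a := by
  have hN := hM.smul (show (0 : ℝ) < 4 ^ a by positivity)
  have p := th_pos hN 0
  have h := tsum_mom hN
  rw [integral_gm_any hN, show (fun n : d → ℤ => gs ((4 ^ a : ℝ) • M) (zc n - 0) /
      th ((4 ^ a : ℝ) • M) 0 * nq hM (La.ci n)) = fun n => gs ((4 ^ a : ℝ) • M) (zc n - 0) *
      √(qf ((4 ^ a : ℝ) • M) (zc n - 0)) / (th ((4 ^ a : ℝ) • M) 0 * 2 ^ a) from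
    funext fun n => by rw [nq_eq hM a]; ring, tsum_div_const, ← div_div]
  exact div_le_div_of_nonneg_right ((div_le_iff₀ p).2 h) (by positivity)

theorem int_nq (hM : M.PosDef) (a : ℕ) :
    ∫ x, nq hM (La.ci x) ∂gm ((4 ^ a : ℝ) • M) 0 ≤ (Fintype.card d + 2) / 2 ^ a :=
  (int_nq' hM a).trans (by
    gcongr
    have : (0 : ℝ) ≤ Fintype.card d := Nat.cast_nonneg _
    linarith)

end Crest.Agent.N49.Po
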