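import Crest.Agent.N49.On.Defs
import Crest.Agent.N49.On.Mom
import Crest.Agent.N49.Rm.Fs
import Crest.Agent.N49.Rm.Trf
import Crest.Agent.N49.Lo.Amhw

/-! # Row 49 (helper67): the second half of `FIB` -/

set_option autoImplicit false
set_option linter.unusedSectionVars false
noncomputable section
open Finset MeasureTheory Matrix

namespace Crest.Agent.N49.On
open Rm Po Rm.TT La

section
variable {L C : Type} [Fintype L] [DecidableEq L] [Fintype C] [DecidableEq C] {T : TT L C}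

theorem hom_expand {ι V : Type} [Fintype ι] [DecidableEq ι] [AddCommGroup V] [Module ℝ V]
    (f : (ι → ℤ) →+ V) (v : ι → ℤ) : f v = ∑ i, (v i : ℝ) • f (Pi.single i 1) := by
  conv_lhs => rw [pi_eq_sum_univ' v]
  simp only [map_sum, map_zsmul, Int.cast_smul_eq_zsmul]

/-- the output of the fibre theorem at one centre -/
theorem fb_out (h : T.Ok) {A M : Finset L} {j : L} (jA : j ∈ A) (jM : j ∉ M) (y : C → ℤ) {q : ℕ}
    {D E : Type} [Fintype D] [Fintype E] [DecidableEq E] (F C0 : D → Fm L C)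
    (hC : ∀ d, T.Dat A (insert j M) (C0 d)) (c : Lt T (A \ M) j)
    (g : E → (act T (A \ M)).Bl j → ℝ) (θ : E → ℝ)
    (Lm : ((act T (A \ M)).Bl j ⊕ E → ℤ) →+ (D → FV h (A.erase j) M y))
    (c0 : D → FV h (A.erase j) M y) (f : Lt T (A \ M) j → D → FV h (A.erase j) M y)
    (A' : Set (Lt T (A \ M) j)) {B1 B2 : ℝ} (h2 : 0 ≤ B2)
    (hA : ∀ x ∈ A', (∀ d, T.Rel A M ((act T (A \ M)).jn j y (c + x)) q B1
        fun u => F d u - C0 d u - (h.sec _ _ _ (f x d)).1 u) ∧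
      (∀ l, |g l ⬝ᵥ ci x - θ l - round (g l ⬝ᵥ ci x - θ l)| ≤ 1 / 8) ∧
      Lo.Nr (h.ZD (A.erase j) M y D q) B2
        (f x - c0 - Lm (Sum.elim x fun l => round (g l ⬝ᵥ ci x - θ l)))) :
    ∃ (γ : E → Fm L C) (X' : D → Fm L C) (Λ : D → E → Fm L C),
      T.Rep A M j ((fun x => (act T (A \ M)).jn j y (c + x)) '' A') q (B1 + B2) F γ X' Λ := by
  let dl : (act T (A \ M)).Bl j → Fm L C := fun b p => p (.inl b.1) - c b * p (.inr j)
  let s : (D → FV h (A.erase j) M y) → D → Fm L C := fun v d => (h.sec _ _ _ (v d)).1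
  have e0 : T.Dat (A \ M) {j} fun p => p (.inr j) :=
    Dat.coord (v := .inr j) (by simp [jA, jM]) (by simp) (by simp)
  have e1 : ∀ b, T.Dat (A \ M) {j} (dl b) := fun b =>
    (Dat.coord (v := .inl b.1) (act_mem.1 b.2).2 ⟨j, (act_mem.1 b.2).1⟩
      (singleton_subset_iff.2 (act_mem.1 b.2).1)).sub (e0.smul _)
  have e2 : ∀ {G : Fm L C}, T.Dat (A \ M) {j} G → ∀ v d,
      T.Dat A (insert j M) fun p => G p * s v d p := fun k v d =>
    (k.mul (h.sec _ _ _ (v d)).2 (by simp) disjoint_sdiff).mono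
      (union_subset sdiff_subset (erase_subset _ _)) (by rw [insert_eq])
  have e3 : ∀ x (N : Finset L), N ⊆ M → ∀ p ∈ T.Fib N ((act T (A \ M)).jn j y (c + x)),
      p (.inr j) = 1 ∧ ∀ b, dl b p = x b := fun x N hN p k => by
    have a : p (.inr j) = 1 := (k.2 j).trans (if_neg fun z => jM (hN z))
    refine ⟨a, fun b => ?_⟩
    simp only [dl]
    rw [a, k.1 b.1 ((disjoint_sdiff.mono hN (act_mem.1 b.2).2).symm), jn, dif_pos b.2]
    simp
  refine ⟨fun l p => ∑ b, g l b * dl b p - θ l * p (.inr j), fun d p => C0 d p +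
    p (.inr j) * s c0 d p + ∑ b, dl b p * s (Lm (Pi.single (.inl b) 1)) d p,
    fun d l => s (Lm (Pi.single (.inr l) 1)) d,
    fun l => (Dat.sum _ fun b _ => (e1 b).smul _).sub (e0.smul _),
    fun d => ((hC d).add (e2 e0 _ d)).add (Dat.sum _ fun b _ => e2 (e1 b) _ d),
    fun d l => (h.sec _ _ _ _).2, ?_⟩
  rintro _ ⟨x, hx, rfl⟩
  obtain ⟨a1, a2, a3⟩ := hA x hx
  obtain ⟨b1, b2⟩ := e3 x ∅ (empty_subset _) _ (cf_mem_fib _)
  have e4 : ∀ l, ∑ b, g l b * dl b (cf ((act T (A \ M)).jn j y (c + x))) -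
      θ l * cf (L := L) ((act T (A \ M)).jn j y (c + x)) (.inr j) = g l ⬝ᵥ ci x - θ l := fun l => by
    simp only [b1, b2, mul_one]; rfl
  simp only [e4]
  refine ⟨a2, fun d => ?_⟩
  have a4 := (h.nr_sec _ _ _ _ _ _).1 ((h.nr_zd _ _ _ _ h2 _).1 a3 d)
  have ag : T.Agr (A.erase j) M y ((act T (A \ M)).jn j y (c + x)) := fun c' k _ _ =>
    (jn_out _ _ fun z => by simpa using k (act_mem.1 z).1).symm
  refine ((a1 d).add ((ag.rel h (h.sec _ _ _ _).2.1 a4).monoA (erase_subset _ _))).congr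
    fun p k => ?_
  obtain ⟨b3, b4⟩ := e3 x M Subset.rfl p k
  rw [hom_expand Lm]
  simp only [b3, b4, s, Pi.sub_apply, Finset.sum_apply, Pi.smul_apply, map_sub, map_sum, map_smul,
    Fintype.sum_sum_type, Sum.elim_inl, Sum.elim_inr, Pi.add_apply, map_add, Submodule.coe_sub,
    Submodule.coe_add, Submodule.coe_sum, Submodule.coe_smul, smul_eq_mul]
  ring
end

/-- from many good references to many good centres -/
theorem fb_avg {d : Type} [Fintype d] {N : Seminorm ℝ (d → ℝ)} {μ β γ : Measure (d → ℤ)}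
    [IsProbabilityMeasure μ] [IsProbabilityMeasure β] [IsProbabilityMeasure γ] (h : To.QI N μ)
    (hβ : Integrable (fun x => N (ci x)) β) (hγ : Integrable (fun x => N (ci x)) γ)
    (Θ : Set ((d → ℤ) × (d → ℤ) × (d → ℤ))) (S : Set (d → ℤ)) {δ : ℝ}
    (k : ∀ z ∈ Θ, δ ≤ γ.real {t | z.1 + z.2.1 + t ∈ S}) :
    (μ.prod (β.prod γ)).real Θ * δ ≤ μ.real S + (∫ x, N (ci x) ∂β + ∫ x, N (ci x) ∂γ) := by
  have u : ∀ x, 0 ≤ γ.real {t | x + t ∈ S} ∧ γ.real {t | x + t ∈ S} ≤ 1 := fun _ =>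
    ⟨measureReal_nonneg, measureReal_le_one⟩
  have a1 := (abs_le.1 (Lo.mix h hγ S)).2
  have a2 := (abs_le.1 (Lo.mixw h hβ (F := fun a _ => γ.real {t | a + t ∈ S}) fun a _ => u a)).2
  have a3 := integral_mono (μ := μ.prod (β.prod γ)) ((integrable_const δ).indicator
    (s := Θ) .of_discrete) (Lo.int_u fun z => u (z.1 + z.2.1)) fun z => by
      by_cases c : z ∈ Θ
      · rw [Set.indicator_of_mem c]; exact k z c
      · rw [Set.indicator_of_notMem c]; exact (u _).1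
  rw [integral_indicator_const _ .of_discrete, integral_prod _ (Lo.int_u fun z => u _)] at a3
  simp only [integral_prod (fun z : (d → ℤ) × (d → ℤ) => γ.real {t | _ + z.1 + t ∈ S})
    (Lo.int_u fun z => u _), integral_const, probReal_univ, smul_eq_mul, one_mul] at a2 a3
  linarith

theorem poly_pow {W : ℕ → ℕ} (h : Iv.Poly W) : ∃ K, ∀ n, 2 ≤ n → W n ≤ n ^ K :=
  let ⟨K, k⟩ := h
  ⟨2 * K, fun n hn => (k n).trans (by
    rw [pow_mul]; exact Nat.pow_le_pow_left (by nlinarith) K)⟩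

theorem qi_pow {d : Type} [Fintype d] [DecidableEq d] {Q : Matrix d d ℝ} (hQ : Q.PosDef) {a a' : ℕ}
    (h : a + 2 ≤ a') (h1 : (((4 : ℝ) ^ a') • Q).PosDef) (θ : d → ℝ) :
    To.QI (nq h1) (gm (((4 : ℝ) ^ a) • Q) θ) := fun S z => by
  have h0 : (((4 : ℝ) ^ a) • Q).PosDef := hQ.smul (by positivity)
  refine (gm_qi h0 θ S z).trans (add_le_add_right ?_ _)
  change ((4 : NNReal) : ℝ) * nq h0 _ ≤ _
  rw [nq_apply, nq_apply, qf_smul, qf_smul, show ((4 : NNReal) : ℝ) = √16 by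
    rw [show (16 : ℝ) = 4 ^ 2 by norm_num, Real.sqrt_sq (by norm_num)]; rfl,
    ← Real.sqrt_mul (by norm_num), ← mul_assoc]
  refine Real.sqrt_le_sqrt (mul_le_mul_of_nonneg_right ?_ (qf_nonneg hQ _))
  rw [show (16 : ℝ) * 4 ^ a = 4 ^ (a + 2) by ring]
  exact pow_le_pow_right₀ (by norm_num) h

theorem nq_pow {d : Type} [Fintype d] [DecidableEq d] {Q : Matrix d d ℝ} (hQ : Q.PosDef) {a : ℕ}
    (h1 : (((4 : ℝ) ^ a) • Q).PosDef) (x : d → ℝ) : nq h1 x = 2 ^ a * nq hQ x := by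
  rw [nq_apply, nq_apply, qf_smul, Real.sqrt_mul (by positivity),
    show (4 : ℝ) ^ a = (2 ^ a) ^ 2 by rw [← pow_mul, mul_comm, pow_mul]; norm_num,
    Real.sqrt_sq (by positivity)]

/-- **second half of the fibre theorem** -/
theorem fb2 (K1 : ℕ) : ∃ (K : ℕ) (Dn : ℕ → ℕ), (∀ n, 2 ≤ n → Dn n ≤ n ^ K) ∧ ∀ (L C : Type)
    [Fintype L] [DecidableEq L] [Fintype C] [DecidableEq C] (T : TT L C) (D : Type) [Fintype D]
    (n : ℕ) (A M : Finset L) (j : L) (q : ℕ) (F : D → Fm L C) (y : C → ℤ)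
    (Q : Matrix ((act T (A \ M)).Bl j) ((act T (A \ M)).Bl j) ℝ) (θ : (act T (A \ M)).Bl j → ℝ)
    (a1 a2 a3 b : ℕ) (X : Set (Lt T (A \ M) j)) (w : Lt T (A \ M) j → Lt T (A \ M) j → ℝ)
    (h : T.Ok) (Θ : Set (Lt T (A \ M) j × Lt T (A \ M) j × Lt T (A \ M) j)),
    Q.PosDef → 2 ≤ n → Fintype.card C ≤ 2 ^ n → Fintype.card L ≤ n → Fintype.card D ≤ n →
    j ∈ A → j ∉ M → 1 ≤ q → q ≤ 2 ^ n →
    n ^ K ≤ a1 → a1 ≤ a2 → a2 + n ^ K ≤ a3 → n ^ K ≤ b → (∀ c x, 0 ≤ w c x ∧ w c x ≤ 1) →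
    (∀ t ∈ X, (1 / 2) ^ n ≤ ∫ x, w (t - x) x ∂gm (((4 : ℝ) ^ a3) • Q) 0) →
    T.UQ (A.erase j) M y (2 ^ b) →
    (1 / 2) ^ n ^ K1 ≤ ((gm Q θ).prod ((gm (((4 : ℝ) ^ a1) • Q) 0).prod
      (gm (((4 : ℝ) ^ a2) • Q) 0))).real Θ →
    (∀ z ∈ Θ, ∃ (ψ f g : Lt T (A \ M) j → D → FV h (A.erase j) M y) (C0 : D → Fm L C),
      (∀ d, T.Dat A (insert j M) (C0 d)) ∧ (1 / 2) ^ n ^ K1 ≤
        ((gm (((4 : ℝ) ^ a2) • Q) 0).prod (gm (((4 : ℝ) ^ a1) • Q) 0)).real
        {p | z.1 + z.2.1 + p.1 ∈ X ∧ (∀ d, T.Rel A M ((act T (A \ M)).jn j y (z.1 + z.2.1 + p.1)) q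
          (2 ^ (n + a3) ^ K1) fun u => F d u - C0 d u - (h.sec _ _ _ (f p.1 d)).1 u) ∧
          Lo.Nr (h.ZD (A.erase j) M y D q) (2 ^ n ^ K1) (ψ (p.1 + p.2) - f p.1 - g p.2)}) →
    ∃ Tc : Set (Lt T (A \ M) j), (1 / 2) ^ n ^ K ≤ (gm Q θ).real Tc ∧ ∀ c ∈ Tc,
      ∃ (A' : Set (Lt T (A \ M) j)) (γ : Fin (Dn n) → Fm L C) (X' : D → Fm L C)
        (Λ : D → Fin (Dn n) → Fm L C),
        (1 / 2) ^ n ^ K ≤ ∫ x in A', w c x ∂gm (((4 : ℝ) ^ a3) • Q) 0 ∧
        T.Rep A M j ((fun x => (act T (A \ M)).jn j y (c + x)) '' A') q (2 ^ (n + a3) ^ K) F γ X' Λ := by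
  obtain ⟨Cc, Dm, P, hD, hP, H⟩ := Lo.amhw
  have pm : Iv.Poly fun n => n ^ K1 + n := (Iv.Poly.id.pow K1).add .id
  obtain ⟨K0, hK⟩ := poly_pow (W := fun n => Dm (n ^ K1 + n) + (n + 3) * P (n ^ K1 + n) +
    (n ^ K1 + n) + 3 * (n * n) + 13 * n + (Cc + 40))
    (((((hD.comp pm).add ((Iv.Poly.id.add (.const 3)).mul (hP.comp pm))).add pm).add
      ((Iv.Poly.const 3).mul (Iv.Poly.id.mul .id))).add ((Iv.Poly.const 13).mul .id) |>.add (.const _))
  have hK' : ∀ n, 2 ≤ n → n ^ K0 ≤ n ^ (K0 + K1 + 1) := fun n hn =>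
    Nat.pow_le_pow_right (by omega) (by omega)
  refine ⟨K0 + K1 + 1, fun n => Dm (n ^ K1 + n), fun n hn => le_trans ?_ ((hK n hn).trans (hK' n hn)),
    ?_⟩
  · beta_reduce; omega
  intro L C _ _ _ _ T D _ n A M j q F y Q θ a1 a2 a3 b X w h Θ hQ hn hC hL hDn jA jM q1 q2 h1 h12
    h23 hb hw hX hU hΘ hz
  beta_reduce
  have kK := (hK n hn).trans (hK' n hn)
  have k0 := hK n hn
  have m1 : 1 ≤ n ^ K1 := Nat.one_le_pow _ _ (by omega)
  generalize hm : n ^ K1 + n = m at kK k0 ⊢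
  generalize n ^ (K0 + K1 + 1) = R at kK h1 h23 hb ⊢
  rw [add_mul] at kK k0
  have pd : ∀ a : ℕ, (((4 : ℝ) ^ a) • Q).PosDef := fun a => hQ.smul (by positivity)
  have p : ∀ {i k : ℕ}, i ≤ k → (2 : ℝ) ^ i ≤ 2 ^ k := pow_le_pow_right₀ one_le_two
  have p' : ∀ {i k : ℕ}, i ≤ k → (1 / 2 : ℝ) ^ k ≤ (1 / 2) ^ i :=
    pow_le_pow_of_le_one (by norm_num) (by norm_num)
  have := gm_prob hQ θ
  have := gm_prob (pd a1) 0
  have := gm_prob (pd a2) 0
  have := gm_prob (pd a3) 0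
  have cC : (Fintype.card C : ℝ) ≤ 2 ^ n := by exact_mod_cast hC
  have n1 : (1 : ℝ) ≤ 2 ^ n := one_le_pow₀ one_le_two
  have cd : (Fintype.card ((act T (A \ M)).Bl j) : ℝ) ≤ 2 ^ n :=
    le_trans (by exact_mod_cast Fintype.card_subtype_le _) cC
  have cd2 : (Fintype.card ((act T (A \ M)).Bl j) : ℝ) + 2 ≤ 2 ^ (n + 2) := by
    rw [pow_add]; linarith
  have lt2 : ∀ k : ℕ, (k : ℝ) ≤ 2 ^ k := fun k => by exact_mod_cast Nat.lt_two_pow_self.le
  obtain ⟨u, hu⟩ : ∃ u, u = n + (n + 1) * n := ⟨_, rfl⟩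
  have u1 : (1 : ℝ) ≤ 2 ^ u := one_le_pow₀ one_le_two
  have c1 : (Fintype.card C + 1 : ℝ) ^ Fintype.card L ≤ 2 ^ ((n + 1) * n) := by
    rw [pow_mul]
    exact (pow_le_pow_left₀ (by positivity) (by rw [pow_succ]; linarith) _).trans
      (pow_le_pow_right₀ (one_le_pow₀ one_le_two) hL)
  have ts := h.ts_fv (D := D) hU (by positivity) q1 (r := Cc * 2 ^ m)
    (r' := 2 ^ (3 * u + Cc + m + 14)) (by positivity) (by positivity) (N := 2 ^ u)
    (by rw [hu, pow_add]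
        exact mul_le_mul (le_trans (by exact_mod_cast hDn) (lt2 n)) c1 (by positivity)
          (by positivity))
    (((pow_le_pow_left₀ (by positivity) (le_add_of_nonneg_right zero_le_one) _).trans
      (pow_le_pow_right₀ (by simp) (card_le_univ M))).trans (c1.trans (p (by omega))))
    (by rw [show 3 * u + Cc + m + 14 = 5 + (u + 3) * 3 + (Cc + m) by ring, pow_add, pow_add,
          pow_mul, pow_add 2 Cc]
        have := lt2 Cc
        gcongr
        · norm_num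
        · rw [pow_add]; linarith)
  have e1 : (2 : ℝ) ^ (3 * u + Cc + m + 14) + Cc * 2 ^ m ≤ 2 ^ (3 * u + Cc + m + 15) := by
    have a : (Cc : ℝ) * 2 ^ m ≤ 2 ^ (Cc + m) := by rw [pow_add]; have := lt2 Cc; gcongr
    have b := p (show Cc + m ≤ 3 * u + Cc + m + 14 by omega)
    rw [pow_succ _ (3 * u + Cc + m + 14)]; linarith
  have e2 : (Fintype.card ((act T (A \ M)).Bl j) : ℝ) + Dm m + 1 ≤ 2 ^ (n + Dm m + 2) := by
    have a := p (show n ≤ n + Dm m by omega)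
    have b := (lt2 (Dm m)).trans (p (show Dm m ≤ n + Dm m by omega))
    rw [pow_add _ _ 2]; linarith
  have e3 : ((Fintype.card ((act T (A \ M)).Bl j) : ℝ) + Dm m + 1) *
      (2 ^ (3 * u + Cc + m + 14) + Cc * 2 ^ m) ≤ 2 ^ (n + Dm m + 2 + (3 * u + Cc + m + 15)) := by
    rw [pow_add _ (n + Dm m + 2)]; gcongr
  have hu' : u = n * n + 2 * n := by rw [hu]; ring
  have q0 : (0 : ℝ) < q := by positivity
  let S : Set (Lt T (A \ M) j) := {c | ∃ (A' : Set (Lt T (A \ M) j)) (γ : Fin (Dm m) → Fm L C)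
    (X' : D → Fm L C) (Λ : D → Fin (Dm m) → Fm L C),
      (1 / 2) ^ R ≤ ∫ x in A', w c x ∂gm (((4 : ℝ) ^ a3) • Q) 0 ∧
      T.Rep A M j ((fun x => (act T (A \ M)).jn j y (c + x)) '' A') q
        (2 ^ (n + a3) ^ (K0 + K1 + 1)) F γ X' Λ}
  refine ⟨S, ?_, fun c k => k⟩
  have key : ∀ z ∈ Θ, 1 / 2 ^ P m ≤ (gm (((4 : ℝ) ^ a2) • Q) 0).real {t | z.1 + z.2.1 + t ∈ S} := by
    intro z zz
    obtain ⟨ψ, f, g, C0, hC0, hd⟩ := hz z zz
    obtain ⟨T0, t1, t2⟩ := H _ _ (pd (a2 + 2)) (gm (((4 : ℝ) ^ a2) • Q) 0)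
      (gm (((4 : ℝ) ^ a1) • Q) 0) (gm (((4 : ℝ) ^ a3) • Q) 0) _ (h.ZD (A.erase j) M y D q)
      {t | z.1 + z.2.1 + t ∈ X ∧ ∀ d, T.Rel A M ((act T (A \ M)).jn j y (z.1 + z.2.1 + t)) q
          (2 ^ (n + a3) ^ K1) fun u => F d u - C0 d u - (h.sec _ _ _ (f t d)).1 u}
      ψ f g (2 ^ m) (2 ^ (3 * u + Cc + m + 14)) (2 ^ b / q) m (fun c x => w (z.1 + z.2.1 + c) x)
      (fun _ _ => hw _ _) (fun t k => by
        have := hX _ k.1
        simp only [add_sub_assoc] at this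
        rw [← _root_.one_div_pow]
        exact (p' (by omega)).trans this) (by positivity) (by positivity)
      (qi_pow hQ le_rfl _ 0) (qi_pow hQ (by omega) _ 0)
      (by simpa only [nq_pow hQ] using (integrable_nq4 hQ a3).const_mul _)
      (by simp only [nq_pow hQ]
          rw [integral_const_mul]
          refine (mul_le_mul_of_nonneg_left (int_nq hQ a3) (by positivity)).trans ?_
          rw [mul_div_assoc', div_le_div_iff₀ (by positivity) (by positivity), one_mul]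
          refine le_trans ?_ (p (show a2 + 2 + (n + 2) + (P m + (n + 2) * 4) ≤ a3 by omega))
          rw [pow_add _ (a2 + 2 + (n + 2)), pow_add _ (a2 + 2), pow_add _ (P m), pow_mul]
          gcongr)
      ts (h.zd_sep hU q1)
      (by rw [lt_div_iff₀ q0, mul_assoc 24]
          have a : (q : ℝ) ≤ 2 ^ n := by exact_mod_cast q2
          refine lt_of_lt_of_le ?_ (p (show 5 + (n + Dm m + 2 + (3 * u + Cc + m + 15)) + n ≤ b by
            omega))
          rw [pow_add _ _ n, pow_add 2 5]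
          refine mul_lt_mul_of_lt_of_le_of_pos_of_nonneg ?_ a q0 (by positivity)
          refine lt_of_le_of_lt (mul_le_mul_of_nonneg_left e3 (by norm_num)) ?_
          exact mul_lt_mul_of_pos_right (by norm_num) (by positivity))
      (by rw [← _root_.one_div_pow]
          exact ((p' (by omega)).trans hd).trans (measureReal_mono fun x k =>
            ⟨⟨k.1, k.2.1⟩, k.2.2.mono (p (by omega))⟩))
    refine t1.trans (measureReal_mono fun c k => ?_)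
    obtain ⟨g', θ', Lm, c0, A', d1, d2⟩ := t2 c k
    obtain ⟨γ, X', Λ, r⟩ := fb_out h jA jM y F C0 hC0 (z.1 + z.2.1 + c) g' θ' Lm c0
      (fun x => f (c + x)) A' (B1 := 2 ^ (n + a3) ^ K1) (by positivity) fun x k =>
        ⟨by simpa only [add_assoc] using (d2 x k).1.2, fun l => ((d2 x k).2.1 l).trans (by
          rw [show (8 : ℝ) = 2 ^ 3 by norm_num]
          exact one_div_le_one_div_of_le (by positivity) (p (by omega))), (d2 x k).2.2⟩
    refine ⟨A', γ, X', Λ, le_trans ?_ d1, r.1, r.2.1, r.2.2.1, fun y' k =>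
      ⟨(r.2.2.2 y' k).1, fun d => ((r.2.2.2 y' k).2 d).mono ?_⟩⟩
    · rw [_root_.one_div_pow]
      refine one_div_le_one_div_of_le (by positivity) ((pow_le_pow_left₀ (by positivity) cd2 _).trans ?_)
      rw [← pow_mul, add_mul]
      exact p (by omega)
    · have a : (n + a3) ^ K1 ≤ (n + a3) ^ (K0 + K1) := Nat.pow_le_pow_right (by omega) (by omega)
      have a' : n ^ K0 ≤ (n + a3) ^ (K0 + K1) := (Nat.pow_le_pow_left (by omega) _).trans
        (Nat.pow_le_pow_right (by omega) (by omega))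
      have a'' : (n + a3) ^ (K0 + K1) + 1 ≤ (n + a3) ^ (K0 + K1 + 1) := by
        rw [pow_succ]; nlinarith [Nat.one_le_pow (K0 + K1) (n + a3) (by omega)]
      refine le_trans ?_ (p a'')
      have b1 := p a
      have b2 := p (show 4 + (n + Dm m + 2 + (3 * u + Cc + m + 15)) ≤ (n + a3) ^ (K0 + K1) by omega)
      rw [pow_add 2 4] at b2
      rw [pow_succ _ ((n + a3) ^ (K0 + K1)), mul_assoc]
      linarith [pow_pos (two_pos (α := ℝ)) (n + Dm m + 2 + (3 * u + Cc + m + 15))]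
  have i4 : ∀ a : ℕ, a1 ≤ a → Integrable (fun x => ((4 : NNReal) • nq hQ) (ci x))
      (gm (((4 : ℝ) ^ a) • Q) 0) ∧ ∫ x, ((4 : NNReal) • nq hQ) (ci x) ∂gm (((4 : ℝ) ^ a) • Q) 0 ≤
        (1 / 2) ^ (m + P m + 2) := fun a ha => by
    refine ⟨(integrable_nq4 hQ a).const_mul ((4 : NNReal) : ℝ), ?_⟩
    refine ((integral_const_mul ((4 : NNReal) : ℝ) _).trans_le
      (mul_le_mul_of_nonneg_left (int_nq hQ a) (by positivity))).trans ?_
    rw [_root_.one_div_pow, mul_div_assoc', div_le_div_iff₀ (by positivity) (by positivity), one_mul]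
    refine le_trans ?_ (p (show 2 + (n + 2) + (m + P m + 2) ≤ a by omega))
    rw [pow_add _ (2 + (n + 2)), pow_add 2 2 (n + 2)]
    gcongr
    norm_num
  have a := fb_avg (gm_qi hQ θ) (i4 a1 le_rfl).1 (i4 a2 h12).1 Θ S key
  have a0 := mul_le_mul_of_nonneg_right ((p' (show n ^ K1 ≤ m by omega)).trans hΘ)
    (by positivity : (0 : ℝ) ≤ 1 / 2 ^ P m)
  rw [← _root_.one_div_pow, ← pow_add] at a0
  rw [← _root_.one_div_pow] at a
  have b1 := (i4 a1 le_rfl).2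
  have b2 := (i4 a2 h12).2
  have b3 := p' (show m + P m + 1 ≤ R by omega)
  rw [pow_add _ _ 2] at b1 b2
  rw [pow_succ] at b3
  linarith

end Crest.Agent.N49.On
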