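import Crest.Agent.N49.On.Out

/-! # Row 49 (helper82): transfer lemmas for the glue of `ONE` -/

set_option autoImplicit false
set_option linter.unusedSectionVars false
noncomputable section
open Finset

namespace Crest.Agent.N49.On
open Rm TT Po

variable {L C : Type} [Fintype L] [DecidableEq L] [Fintype C] [DecidableEq C]
  {T : TT L C} {A M Z : Finset L} {j : L}

theorem rs_of (y : C → ℤ) {c : C} (h : T.ty c ⊆ Z.erase j) (n : (T.ty c).Nonempty) :
    rs T Z j y c = y c := if_pos ⟨h, n⟩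

theorem sub_sd {S : Finset L} (h : S ⊆ A) (d : Disjoint S M) : S ⊆ A \ M := subset_sdiff.2 ⟨h, d⟩

theorem sub_er {S : Finset L} (h : S ⊆ Z) (k : j ∉ S) : S ⊆ Z.erase j := subset_erase.2 ⟨h, k⟩

theorem agr_of {y y' : C → ℤ}
    (h : ∀ c, T.ty c ⊆ (A \ M).erase j → (T.ty c).Nonempty → y c = y' c) :
    T.Agr (A.erase j) M y y' := fun c a n d =>
  h c (sub_er (sub_sd (a.trans (erase_subset _ _)) d) (subset_erase.1 a).2) n

theorem agr_rs (y : C → ℤ) : T.Agr (A.erase j) M y (rs T (A \ M) j y) :=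
  agr_of fun _ a n => (rs_of y a n).symm

theorem jn_act (y : C → ℤ) (t : Lt T Z j) {c : C} (k : j ∈ T.ty c) (h : T.ty c ⊆ Z) :
    (act T Z).jn j y t c = t ⟨c, act_mem.2 ⟨k, h⟩⟩ := dif_pos _

theorem jn_act' (y : C → ℤ) (t : Lt T Z j) {c : C} (k : j ∉ T.ty c) :
    (act T Z).jn j y t c = y c := dif_neg fun a => k (act_mem.1 a).1

/-- configurations that agree off `j` give the same active configurations -/
theorem agr_jn {y y' : C → ℤ} (h : T.Agr (A.erase j) M y y') (t : Lt T (A \ M) j) :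
    T.Agr A M ((act T (A \ M)).jn j y t) ((act T (A \ M)).jn j y' t) := fun c a n d => by
  by_cases k : j ∈ T.ty c
  · rw [jn_act _ _ k (sub_sd a d), jn_act _ _ k (sub_sd a d)]
  · rw [jn_act' _ _ k, jn_act' _ _ k, h c (sub_er a k) n d]

theorem im_sub {ρ : Type} [Fintype ρ] [DecidableEq ρ] {S : Finset L}
    (h : S.image Sum.inl ⊆ upA A ρ) : S ⊆ A := fun _ a => inl_upA.1 (h (mem_image_of_mem _ a))

theorem im_dj {ρ : Type} [DecidableEq ρ] {S : Finset L}
    (h : Disjoint (S.image (Sum.inl : L → L ⊕ ρ)) (M.image Sum.inl)) : Disjoint S M :=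
  (disjoint_image Sum.inl_injective).1 h

theorem cl_sub {ρ : Type} [Fintype ρ] [DecidableEq ρ] {pt : ρ → Bool} {a : ρ → ℕ} (hj : j ∈ A)
    (hM : j ∉ M) {c : T.Bl j} {x : ρ} (s : (T.cl j pt a).ty (.inr (c, x)) ⊆ upA A ρ)
    (d : Disjoint ((T.cl j pt a).ty (.inr (c, x))) (M.image Sum.inl)) : T.ty c.1 ⊆ A \ M := by
  have s' : (T.ty c.1).erase j ⊆ A := im_sub ((subset_insert _ _).trans s)
  have d' : Disjoint ((T.ty c.1).erase j) M := im_dj (d.mono_left (subset_insert _ _))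
  intro ℓ l
  by_cases e : ℓ = j
  · exact e ▸ mem_sdiff.2 ⟨hj, hM⟩
  · exact sub_sd s' d' (mem_erase.2 ⟨e, l⟩)

/-- a configuration of a clone shape agrees with the one rebuilt from its active blocks -/
theorem agr_aw (hj : j ∈ A) (hM : j ∉ M) {r : ℕ} (pt : Fin r → Bool) (a : Fin r → ℕ)
    (w : T.CC j (Fin r) → ℤ) {y : C → ℤ} (h : T.Agr (A.erase j) M (fun c => w (.inl c)) y) :
    (T.cl j pt a).Agr (upA A (Fin r)) (M.image Sum.inl) w
      (cw T (A \ M) j y (aw T (A \ M) j w)) := by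
  rintro (c | ⟨c, x⟩) s n d
  · have s' : T.ty c ⊆ A := im_sub s
    have d' : Disjoint (T.ty c) M := im_dj d
    by_cases k : j ∈ T.ty c
    · exact (jn_act y (aw T (A \ M) j w 0) k (sub_sd s' d')).symm
    · exact (h c (sub_er s' k) (image_nonempty.1 n) d').trans
        (jn_act' y (aw T (A \ M) j w 0) k).symm
  · exact (jn_act y (aw T (A \ M) j w x.succ) c.2 (cl_sub hj hM s d)).symm

theorem agr_cw (hj : j ∈ A) (hM : j ∉ M) {r : ℕ} (pt : Fin r → Bool) (a : Fin r → ℕ)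
    {y y' : C → ℤ} (h : T.Agr (A.erase j) M y y') (ω : Fin (r + 1) → Lt T (A \ M) j) :
    (T.cl j pt a).Agr (upA A (Fin r)) (M.image Sum.inl) (cw T (A \ M) j y ω)
      (cw T (A \ M) j y' ω) := by
  rintro (c | ⟨c, x⟩) s n d
  · exact agr_jn h (ω 0) c (im_sub s) (image_nonempty.1 n) (im_dj d)
  · exact (jn_act y (ω x.succ) c.2 (cl_sub hj hM s d)).trans
      (jn_act y' (ω x.succ) c.2 (cl_sub hj hM s d)).symm

theorem aw_cw {r : ℕ} (y : C → ℤ) (ω : Fin (r + 1) → Lt T Z j) : aw T Z j (cw T Z j y ω) = ω := by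
  funext x c
  refine Fin.cases ?_ (fun x => ?_) x
  · exact jn_act y (ω 0) (act_mem.1 c.2).1 (act_mem.1 c.2).2
  · exact jn_act y (ω x.succ) (act_mem.1 c.2).1 (act_mem.1 c.2).2

theorem rs_cw {r : ℕ} (y : C → ℤ) (ω : Fin (r + 1) → Lt T Z j) :
    (rs T Z j fun c => cw T Z j y ω (.inl c)) = rs T Z j y :=
  rs_congr fun _ s _ => jn_act' y (ω 0) (subset_erase.1 s).2

/-- `RR` only sees the live words inside `A` that miss `M` -/
theorem rr_agr (hT : T.Ok) (hM : j ∉ M) {a1 a2 q : ℕ} {B : ℝ} {F : Fin 4 → Fm L C}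
    (hF : ∀ l, T.Dat A M (F l)) {w w' : T.CC j (Fin 4) → ℤ}
    (h : (T.rect j a1 a2).Agr (upA A (Fin 4)) (M.image Sum.inl) w w')
    (k : T.RR A M j a1 a2 w q B F) : T.RR A M j a1 a2 w' q B F :=
  h.rel (hT.cl j _ _) (((((hF 0).pos j _ _ _ _ hM).sub ((hF 1).pos j _ _ _ _ hM)).sub
    ((hF 2).pos j _ _ _ _ hM)).add ((hF 3).pos j _ _ _ _ hM)).1 k

/-- `RR` of a configuration, read from the rest and the active blocks -/
theorem rr_aw (hT : T.Ok) (hj : j ∈ A) (hM : j ∉ M) {a1 a2 q : ℕ} {B : ℝ} {F : Fin 4 → Fm L C}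
    (hF : ∀ l, T.Dat A M (F l)) (w : T.CC j (Fin 4) → ℤ) : T.RR A M j a1 a2 w q B F ↔
      T.RR A M j a1 a2 (cw T (A \ M) j (fun c => w (.inl c)) (aw T (A \ M) j w)) q B F :=
  have a := agr_aw hj hM _ _ w (y := fun c => w (.inl c)) fun _ _ _ _ => rfl
  ⟨rr_agr hT hM hF a, rr_agr hT hM hF a.symm⟩

theorem rr_cw (hT : T.Ok) (hj : j ∈ A) (hM : j ∉ M) {a1 a2 q : ℕ} {B : ℝ} {F : Fin 4 → Fm L C}
    (hF : ∀ l, T.Dat A M (F l)) {y y' : C → ℤ} (h : T.Agr (A.erase j) M y y')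
    (ω : Fin 5 → Lt T (A \ M) j) : T.RR A M j a1 a2 (cw T (A \ M) j y ω) q B F ↔
      T.RR A M j a1 a2 (cw T (A \ M) j y' ω) q B F :=
  have a := agr_cw hj hM _ _ h ω
  ⟨rr_agr hT hM hF a, rr_agr hT hM hF a.symm⟩

theorem uq_aw (hT : T.Ok) (hj : j ∈ A) (hM : j ∉ M) {r : ℕ} (pt : Fin r → Bool) (a : Fin r → ℕ)
    (w : T.CC j (Fin r) → ℤ) (R : ℝ) : (T.cl j pt a).UQ (upA A (Fin r)) (M.image Sum.inl) w R ↔
      (T.cl j pt a).UQ (upA A (Fin r)) (M.image Sum.inl)
        (cw T (A \ M) j (fun c => w (.inl c)) (aw T (A \ M) j w)) R :=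
  (agr_aw hj hM pt a w (y := fun c => w (.inl c)) fun _ _ _ _ => rfl).uq_iff (hT.cl j _ _)

theorem uq_cw (hT : T.Ok) (hj : j ∈ A) (hM : j ∉ M) {r : ℕ} (pt : Fin r → Bool) (a : Fin r → ℕ)
    {y y' : C → ℤ} (h : T.Agr (A.erase j) M y y') (ω : Fin (r + 1) → Lt T (A \ M) j) (R : ℝ) :
    (T.cl j pt a).UQ (upA A (Fin r)) (M.image Sum.inl) (cw T (A \ M) j y ω) R ↔
      (T.cl j pt a).UQ (upA A (Fin r)) (M.image Sum.inl) (cw T (A \ M) j y' ω) R :=
  (agr_cw hj hM pt a h ω).uq_iff (hT.cl j _ _)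

theorem ng_agr (hT : T.Ok) (hj : j ∈ A) (hM : j ∉ M) {y y' : C → ℤ}
    (h : T.Agr (A.erase j) M y y') (Q θ) {r : ℕ} (a : Fin r → ℕ) (b m : ℕ) :
    NG T A M j y Q θ a b m ↔ NG T A M j y' Q θ a b m := by
  simp only [NG, uq_cw hT hj hM _ a h]

theorem uq_rs (hT : T.Ok) (y : C → ℤ) (R : ℝ) :
    T.UQ (A.erase j) M y R ↔ T.UQ (A.erase j) M (rs T (A \ M) j y) R := (agr_rs y).uq_iff hT

theorem aw_posZ {r : ℕ} (α0 : ℤ) (α : Fin r → ℤ) (w : T.CC j (Fin r) → ℤ) :
    (act T Z).bl j (T.posZ j α0 α w) = α0 • aw T Z j w 0 + ∑ x, α x • aw T Z j w x.succ := by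
  funext c
  simp [bl, posZ, (act_mem.1 c.2).1, aw]

theorem rs_posZ {ρ : Type} [Fintype ρ] (α0 : ℤ) (α : ρ → ℤ) (w : T.CC j ρ → ℤ) :
    rs T Z j (T.posZ j α0 α w) = rs T Z j fun c => w (.inl c) :=
  rs_congr fun _ s _ => dif_neg (subset_erase.1 s).2

theorem aw_cor0 (w : T.CC j (Fin 4) → ℤ) :
    (act T Z).bl j (T.cor j 0 w) = aw T Z j w 0 + aw T Z j w 1 + aw T Z j w 3 := by
  rw [cor, aw_posZ]
  simp [Fin.sum_univ_four, add_assoc]

theorem aw_pos1 (w : T.CC j (Fin 1) → ℤ) :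
    (act T Z).bl j (T.posZ j 1 ![1] w) = aw T Z j w 0 + aw T Z j w 1 := by
  rw [aw_posZ]
  simp

/-- the moved point agrees with the active configuration -/
theorem agr_posZ {r : ℕ} (α0 : ℤ) (α : Fin r → ℤ) (w : T.CC j (Fin r) → ℤ) {y : C → ℤ}
    (h : T.Agr (A.erase j) M (fun c => w (.inl c)) y) :
    T.Agr A M (T.posZ j α0 α w) ((act T (A \ M)).jn j y
      (α0 • aw T (A \ M) j w 0 + ∑ x, α x • aw T (A \ M) j w x.succ)) := fun c s n d => by
  rw [← aw_posZ]
  by_cases k : j ∈ T.ty c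
  · rw [jn_act _ _ k (sub_sd s d)]; rfl
  · rw [jn_act' _ _ k, ← h c (sub_er s k) n d]
    exact dif_neg k

theorem rci_rcw (z : C → ℤ) (y' : T.CR j → ℤ) :
    T.rci j 1 z (cf y') = cf (T.posZ j 1 ![1] (T.rcw j z y')) := by rw [rci_cf, rcZ_pos]

theorem ov_rcw (z : C → ℤ) {H : Set (C → ℤ)} {H1 : Set (T.CC j (Fin 1) → ℤ)}
    (h : ∀ w ∈ H1, T.posZ j 1 ![1] w ∈ H) : Ov (T.rci j 1 z) {y' | T.rcw j z y' ∈ H1} H :=
  fun y' k => ⟨_, h _ k, rci_rcw z y'⟩

/-! ### the active tower -/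

theorem act_ty {c : C} (h : T.ty c ⊆ Z) : (act T Z).ty c = T.ty c := if_pos h

theorem act_ty' {c : C} (h : ¬ T.ty c ⊆ Z) : (act T Z).ty c = ∅ := if_neg h

theorem act_tv {c : C} (h : T.ty c ⊆ Z) {v : C ⊕ L} (b : T.tv v ⊆ T.ty c) :
    (act T Z).tv v = T.tv v := by
  cases v with
  | inl d => exact act_ty (b.trans h)
  | inr m => rfl

theorem act_sub (v : C ⊕ L) : (act T Z).tv v ⊆ T.tv v := by
  cases v with
  | inl d =>
    by_cases k : T.ty d ⊆ Z
    · exact (act_ty k).le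
    · exact (act_ty' k).le.trans (empty_subset _)
  | inr m => exact Subset.refl _

theorem act_ok (h : T.Ok) (Z : Finset L) : (act T Z).Ok := by
  refine ⟨fun c ne => ?_, fun c p e => ?_, fun S p p' e a b => ?_⟩
  · have k : T.ty c ⊆ Z := by_contra fun k => by rw [act_ty' k] at ne; exact not_nonempty_empty ne
    rw [act_ty k] at ne ⊢
    have e : (fun p => (act T Z).Φ p c) = fun p => T.Φ p c := funext fun p => if_pos k
    rw [e]
    refine ⟨fun p p' a => (h.dat c ne).1 _ _ fun v b n => a v ?_ ?_, fun j hj a b p p' m => ?_⟩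
    · rwa [act_tv k b]
    · rwa [act_tv k b]
    · rw [← (h.dat c ne).2 j hj a b p p' fun v n => m v fun x => n (act_sub v x)]
      refine (h.dat c ne).1 _ _ fun v b _ => ?_
      simp only [TT.cmb, act_tv k b]
  · by_cases k : T.ty c ⊆ Z
    · rw [act_ty k] at e
      exact (if_pos k).trans (h.dead c p e)
    · exact if_neg k
  · rcases S.eq_empty_or_nonempty with rfl | ne
    · funext v
      cases v with
      | inr m => exact e m
      | inl c =>
        by_cases x : (act T Z).ty c = ∅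
        · have := b c x
          by_cases k : T.ty c ⊆ Z
          · rw [act_ty k] at x
            rw [← h.dead c p x, ← h.dead c p' x]
            exact ((if_pos k).symm.trans this).trans (if_pos k)
          · exact ((if_neg k).symm.trans this).trans (if_neg k)
        · exact a c x
    by_cases l : S ⊆ Z
    · refine h.inj S p p' e (fun c x => a c fun y => ?_) fun c x => ?_
      · by_cases k : T.ty c ⊆ Z
        · exact x ((act_ty k).symm.trans y)
        · exact ne.ne_empty (y.symm.trans (act_ty' k))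
      · have k : T.ty c ⊆ Z := x ▸ l
        exact ((if_pos k).symm.trans (b c ((act_ty k).trans x))).trans (if_pos k)
    · funext v
      cases v with
      | inr m => exact e m
      | inl c =>
        refine a c fun x => ?_
        by_cases k : T.ty c ⊆ Z
        · exact l (by rw [← x, act_ty k]; exact k)
        · exact ne.ne_empty (x.symm.trans (act_ty' k))

theorem act_Nm (h : T.Ok) {y y' : C → ℤ}
    (e : ∀ c, T.ty c ⊆ Z.erase j → (T.ty c).Nonempty → y c = y' c) (n : (act T Z).Bl j → ℝ)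
    (s : ℝ) (c : (act T Z).Bl j) : (act T Z).Φ ((act T Z).jr j (cf y) n s) c.1 =
      (act T Z).Φ ((act T Z).jr j (cf y') n s) c.1 := by
  refine ((act_ok h Z).dat c.1 ⟨j, c.2⟩).1 _ _ fun v b ne => ?_
  by_cases k : j ∈ (act T Z).tv v
  · exact jr_in _ _ _ _ k
  · rw [jr_out _ _ _ k, jr_out _ _ _ k]
    cases v with
    | inr m => rfl
    | inl d =>
      have ne' : ((act T Z).ty d).Nonempty := ne
      have x : T.ty d ⊆ Z := by_contra fun x => by
        rw [act_ty' x] at ne'; exact not_nonempty_empty ne'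
      rw [act_ty x] at ne'
      exact congrArg Int.cast (e d (sub_er x fun m => k (act_mem.2 ⟨m, x⟩)) ne')

/-- the active Gaussian only depends on the active `j`-free words -/
theorem act_Mm (h : T.Ok) {y y' : C → ℤ}
    (e : ∀ c, T.ty c ⊆ Z.erase j → (T.ty c).Nonempty → y c = y' c) :
    (act T Z).Mm j y = (act T Z).Mm j y' ∧ (act T Z).ce j y = (act T Z).ce j y' := by
  have e1 : (act T Z).Nm j (cf y) = (act T Z).Nm j (cf y') :=
    Matrix.ext fun c _ => act_Nm h e _ _ c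
  have e2 : (act T Z).of j (cf y) = (act T Z).of j (cf y') := funext fun c => act_Nm h e _ _ c
  simp only [Mm, ce, e1, e2, and_self]

theorem Mm_rs (h : T.Ok) (y : C → ℤ) : (act T Z).Mm j (rs T Z j y) = (act T Z).Mm j y :=
  (act_Mm h fun _ a b => rs_of y a b).1

theorem ce_rs (h : T.Ok) (y : C → ℤ) : (act T Z).ce j (rs T Z j y) = (act T Z).ce j y :=
  (act_Mm h fun _ a b => rs_of y a b).2

end Crest.Agent.N49.On
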