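import Crest.Agent.N49.On.Cy
import Crest.Agent.N49.On.End
import Crest.Agent.N49.On.Fb2
import Crest.Agent.N49.On.Trn
import Crest.Agent.N49.On.Mom

/-! # Row 49 (helper53): the fibre theorem -/

set_option autoImplicit false
set_option linter.unusedSectionVars false
noncomputable section
open Finset MeasureTheory

namespace Crest.Agent.N49.On
open Rm Rm.TT Po

section
variable {L C : Type} [Fintype L] [DecidableEq L] [Fintype C] [DecidableEq C]
  {T : TT L C} {A M : Finset L} {j : L} {y : C → ℤ} {ρ D : Type}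

variable (T M j) in
/-- the slot of a mixed word -/
def slt (c : C) : Option L :=
  if h : j ∈ T.ty c ∧ ∃ m ∈ T.ty c, m ∈ M then some h.2.choose else none

variable (T M j) in
/-- the projection to a slot -/
def pjs (i : Option L) : (C → ℝ) →+ C → ℝ where
  toFun x c := if slt T M j c = i then x c else 0
  map_zero' := by funext c; simp
  map_add' x x' := by funext c; simp only [Pi.add_apply]; split_ifs <;> simp

theorem pjs_apply (i : Option L) (x : C → ℝ) (c : C) :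
    pjs T M j i x c = if slt T M j c = i then x c else 0 := rfl

theorem pjs_pj : Pj (pjs T M j) univ.toList where
  nd := nodup_toList _
  orth i i' h x := by
    funext c
    simp only [pjs_apply, Pi.zero_apply]
    split_ifs with a b
    exacts [absurd (a.symm.trans b) h, rfl, rfl]
  sum x := by
    funext c
    rw [sp, sum_map_toList, Finset.sum_apply]
    simp [pjs_apply]

theorem pjs_dg (i : Option L) : Dg (pjs T M j i) :=
  ⟨fun c => if slt T M j c = i then 1 else 0, fun x c => by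
    by_cases a : slt T M j c = i <;> simp [pjs_apply, a]⟩

theorem BL.slot {k : (C → ℝ) → (ρ → C → ℝ) → ℝ} (h : BL T A M j k) (i : Option L) (n)
    {ξ ξ' : ρ → C → ℝ} (e : ∀ o c, slt T M j c ≠ i → ξ o c = 0)
    (e' : ∀ o c, slt T M j c ≠ i → ξ' o c = 0) : k n (ξ + ξ') - k n ξ - k n ξ' + k n 0 = 0 := by
  rcases i with _ | m
  · have z : ∀ c, Xc T A M j c → slt T M j c ≠ none := fun c a => by
      rw [slt, dif_pos ⟨a.2.2, not_disjoint_iff.1 a.2.1⟩]; simp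
    rw [h.dep n n (ξ + ξ') 0 (fun _ _ => rfl) fun o c a => by simp [e o c (z c a), e' o c (z c a)],
      h.dep n n ξ 0 (fun _ _ => rfl) fun o c a => e o c (z c a),
      h.dep n n ξ' 0 (fun _ _ => rfl) fun o c a => e' o c (z c a)]
    ring
  have z : ∀ c, slt T M j c = some m → m ∈ T.ty c ∧ m ∈ M := fun c a => by
    unfold slt at a
    split_ifs at a with b
    exact Option.some.inj a ▸ b.2.choose_spec
  by_cases hm : m ∈ M
  swap
  · have f : ∀ {ζ : ρ → C → ℝ}, (∀ o c, slt T M j c ≠ some m → ζ o c = 0) → ζ = 0 := fun g =>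
      funext fun o => funext fun c => g o c fun a => hm (z c a).2
    simp [f e, f e']
  have f : ∀ ζ : ρ → C → ℝ, (∀ o c, m ∉ T.ty c → ζ o c = 0) →
      k n (ζ + ξ') = k n ζ + k (cm T m 0 0 n n) ξ' := fun ζ g => by
    have := h.lin m hm 1 1 n (cm T m 0 0 n n) ζ ξ' (fun c a => by simp [cm, a]) fun o c a => by
      rw [g o c a, e' o c fun b => a (z c b).1]
    rw [one_mul, one_mul] at this
    rw [← this]
    refine congrArg₂ k ?_ ?_
    · funext c; by_cases a : m ∈ T.ty c <;> simp [cm, a]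
    · funext o c
      by_cases a : m ∈ T.ty c
      · simp [cm, a]
      · simp [cm, a, e' o c fun b => a (z c b).1]
  have f0 := f 0 fun _ _ _ => rfl
  rw [zero_add] at f0
  rw [f ξ fun o c a => e o c fun b => a (z c b).1, f0]
  ring

theorem sl_of {K : (Fin 5 → C → ℝ) → D → (C → ℝ) → ℝ} (h : ∀ d, JF T A M j fun n ξ => K ξ d n) :
    Sl (pjs T M j) K := fun i a b => by
  funext d n
  have := (h d).toBL.slot i n (ξ := ![pjs T M j i a, 0, 0 - pjs T M j i a, 0,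
    pjs T M j i a - pjs T M j i a]) (ξ' := ![0, 0, pjs T M j i b - pjs T M j i b, 0,
    pjs T M j i b - 0]) (fun o c z => by fin_cases o <;> simp [pjs_apply, z])
    fun o c z => by fin_cases o <;> simp [pjs_apply, z]
  simp only [cc, kp, Pi.add_apply, Pi.sub_apply, Pi.zero_apply]
  convert this using 5 <;> funext o <;> fin_cases o <;> simp

theorem sm_of_bd (hT : T.Ok) (hA : j ∈ A) (hj : j ∉ M) {r : ℕ} {ω : Fin (r + 1) → Lt T (A \ M) j}
    {a : Fin r → ℕ} {F : Fm (L ⊕ Fin r) (T.CC j (Fin r))} {B : ℝ}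
    (b : Bd T A M j y ω a 1 B fun n ξ => F (fc T A M j y ω n ξ)) :
    (T.cl j (fun _ => false) a).Sm (upA A (Fin r)) (M.image .inl) (cw T (A \ M) j y ω) B F :=
  fun p hp hc => by
    rw [eq_fc hj hp] at hc ⊢
    refine b _ _ (fun c k => ?_) (fun c k => ?_) fun x c k => ?_
    · have := hc (.inl c) (sub_l.2 k.1) (mt dj_l.1 k.2.1)
      rwa [cl_Φ_l, p0_fc, phi_out hT k.2.2 1 0 _ 0 _ _ 0] at this
    · have := hc (.inl c) (sub_l.2 k.1) (mt dj_l.1 k.2.1)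
      rwa [cl_Φ_l, p0_fc] at this
    · have := hc (.inr (⟨c, k.2.2⟩, x)) ((sub_r hA x).2 k.1) (mt (dj_r hj x).1 k.2.1)
      rwa [cl_Φ_r, px_fc] at this

theorem agr_c0 {r : ℕ} (ω : Fin (r + 1) → Lt T (A \ M) j) :
    T.Agr (A.erase j) M (fun c => cw T (A \ M) j y ω (.inl c)) y :=
  fun _ a _ _ => jn_act' y (ω 0) (subset_erase.1 a).2

theorem agr_cr (ω : Fin 5 → Lt T (A \ M) j) (l : Fin 4) :
    T.Agr A M (T.cor j l (cw T (A \ M) j y ω)) ((act T (A \ M)).jn j y (cr l ω)) := by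
  have := agr_posZ 1 (cv l) (cw T (A \ M) j y ω) (agr_c0 ω)
  rwa [aw_cw, one_smul] at this

/-- a datum with its label removed -/
def gf (F : D → Fm L C) (s : ℝ) (q : ℕ) (κ : (C → ℝ) → D → (C → ℝ) → ℝ) (d : D) : Fm L C :=
  fun p => F d p + s * fl κ d p / q

theorem gf_dat {F : D → Fm L C} (hF : ∀ d, T.Dat A M (F d)) (s : ℝ) (q : ℕ)
    {κ : (C → ℝ) → D → (C → ℝ) → ℝ} (h : Jl T A M j κ) (d : D) : T.Dat A M (gf F s q κ d) :=
  (hF d).add (((h.intF d 0).1.smul s).div q)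

/-- one labelled rectangle -/
theorem one_rect (h : T.Ok) (hA : j ∈ A) (hj : j ∉ M) {a1 a2 q : ℕ} (ha : a1 ≤ a2) {B : ℝ}
    {F : Fin 4 → D → Fm L C} (hF : ∀ l d, T.Dat A M (F l d)) {ω : Fin 5 → Lt T (A \ M) j}
    {K : (Fin 5 → C → ℝ) → D → (C → ℝ) → ℝ} (hK : ∀ d, JF T A M j fun n ξ => K ξ d n)
    {κ : Fin 4 → (C → ℝ) → D → (C → ℝ) → ℝ} (hκ : ∀ l, Jl T A M j (κ l))
    (e : ∀ ξ, K ξ = K 0 + κ 0 (cr 0 ξ) + κ 1 (cr 1 ξ) + κ 2 (cr 2 ξ) + κ 3 (cr 3 ξ)) (d : D)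
    (b : Bd T A M j y ω ![a1, a1, a2, a2] 1 B fun n ξ =>
      alt T A M j y (fun l => F l d) ω n ξ - K ξ d n / q) :
    (T.Rel (A.erase j) M y q B fun p =>
      Pf h M j ((act T (A \ M)).jn j y (cr 0 ω)) (gf (F 0) (-1) q (κ 0) d) p -
      Pf h M j ((act T (A \ M)).jn j y (cr 1 ω)) (gf (F 1) 1 q (κ 1) d) p -
      Pf h M j ((act T (A \ M)).jn j y (cr 2 ω)) (gf (F 2) 1 q (κ 2) d) p +
      Pf h M j ((act T (A \ M)).jn j y (cr 3 ω)) (gf (F 3) (-1) q (κ 3) d) p) ∧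
    T.Sm A M ((act T (A \ M)).jn j y (cr 0 ω)) ((2 ^ a2) ^ #M * (2 * Fintype.card C * B)) fun p =>
      gf (F 0) (-1) q (κ 0) d p -
      Pf h M j ((act T (A \ M)).jn j y (cr 0 ω)) (gf (F 0) (-1) q (κ 0) d) p -
      Cf h M j ((act T (A \ M)).jn j y (cr 1 ω)) (gf (F 1) 1 q (κ 1) d) p := by
  have hG : ∀ l, T.Dat A M (gf (F l) (![-1, 1, 1, -1] l) q (κ l) d) := fun l =>
    gf_dat (hF l) _ q (hκ l) d
  have i0 := (hK d).intF0 y
  obtain ⟨k1, k2⟩ := endb h hj ha hG (i0.1.div q).1 (w := cw T (A \ M) j y ω) (B := B)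
    (sm_of_bd h hA hj fun n ξ b1 b2 b3 => (le_of_eq (congrArg _ (by
      have z : K 0 d (fun c => pt T A M j y 1 (ω 0) n (ξ 0) (.inl c)) = K 0 d n :=
        (hK d).dep _ _ _ _ (fun c a => by simp only [pt, if_neg a.2.1, if_neg a.2.2]) fun _ _ _ => rfl
      simp only [pos_fc hj (hG _).1, p0_fc, z]
      simp only [gf, (hκ _).pt, alt, e ξ, Pi.add_apply, Matrix.cons_val]
      ring))).trans (b n ξ b1 b2 b3))
  simp only [pf_agr h (hG _).1 (agr_cr ω _), cf_agr h (hG _).1 (agr_cr ω _)] at k1 k2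
  refine ⟨⟨_, i0, k1 y (agr_c0 ω)⟩, (agr_cr ω 0).sm h ?_ k2⟩
  exact (((hG 0).sub ((pf_dat h _ (hG 0)).mono (erase_subset _ _) Subset.rfl)).sub
    ((cf_dat h _ (hG 1)).mono Subset.rfl (subset_insert _ _))).1

open Classical in
/-- the class of the projected datum -/
def vv (h : T.Ok) (y : C → ℤ) {F : D → Fm L C} (hF : ∀ d, T.Dat A M (F d)) (s : ℝ) (q : ℕ)
    (κ : (C → ℝ) → D → (C → ℝ) → ℝ) (lam : Lt T (A \ M) j) (d : D) : T.dat (A.erase j) M :=
  if k : Jl T A M j κ then ⟨_, pf_dat h ((act T (A \ M)).jn j y lam) (gf_dat hF s q k d)⟩ else 0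

theorem vv_eq (h : T.Ok) {F : D → Fm L C} (hF : ∀ d, T.Dat A M (F d)) (s : ℝ) (q : ℕ)
    {κ : (C → ℝ) → D → (C → ℝ) → ℝ} (k : Jl T A M j κ) (lam : Lt T (A \ M) j) (d : D) :
    (vv h y hF s q κ lam d).1 = Pf h M j ((act T (A \ M)).jn j y lam) (gf F s q κ d) := by
  rw [vv, dif_pos k]
end

theorem int_sc {d : Type} [Fintype d] [DecidableEq d] {Q : Matrix d d ℝ} (hQ : Q.PosDef)
    {a a' n m : ℕ} (h1 : (((4 : ℝ) ^ a) • Q).PosDef) (hd : Fintype.card d ≤ 2 ^ n) (hn : 1 ≤ n)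
    (h : a + (n + 1) + m ≤ a') :
    Integrable (fun x => nq h1 (La.ci x)) (gm (((4 : ℝ) ^ a') • Q) 0) ∧
      ∫ x, nq h1 (La.ci x) ∂gm (((4 : ℝ) ^ a') • Q) 0 ≤ (1 / 2) ^ m := by
  simp only [nq_pow hQ h1]
  refine ⟨(integrable_nq4 hQ a').const_mul _, ?_⟩
  rw [integral_const_mul]
  refine (mul_le_mul_of_nonneg_left (int_nq hQ a') (by positivity)).trans ?_
  have e : (Fintype.card d : ℝ) + 2 ≤ 2 ^ (n + 1) := by
    have : (Fintype.card d : ℝ) ≤ 2 ^ n := by exact_mod_cast hd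
    have : (2 : ℝ) ^ 1 ≤ 2 ^ n := pow_le_pow_right₀ one_le_two hn
    rw [pow_succ]; linarith
  rw [one_div_pow, ← mul_div_assoc, div_le_div_iff₀ (by positivity) (by positivity), one_mul]
  calc _ ≤ (2 : ℝ) ^ a * 2 ^ (n + 1) * 2 ^ m := by gcongr
    _ ≤ _ := by rw [← pow_add, ← pow_add]; exact pow_le_pow_right₀ one_le_two h

theorem fib (hc : CYC) : FIB := by
  obtain ⟨Kc, hc⟩ := hc
  obtain ⟨K0, hK0⟩ := poly_pow (W := fun n => Kc * (n + 1) + (4 * n + 3))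
    (((Iv.Poly.const Kc).mul (Iv.Poly.id.add (.const 1))).add
      (((Iv.Poly.const 4).mul .id).add (.const 3)))
  obtain ⟨K2, Dn, hD, H⟩ := fb2 (K0 + 2)
  refine ⟨K0 + 2 + K2, Dn, fun n hn => (hD n hn).trans (Nat.pow_le_pow_right (by omega) (by omega)),
    fun L C _ _ _ _ T D _ n A M j q F y Q θ a1 a2 a3 b X w h hQ hn cC cL cD _ hM hA hj hF q1 q2
      s1 s2 s3 s4 w1 w2 hS u g1 g2 g3 => ?_⟩
  have p0 := hK0 n hn
  have p1 : n ^ K0 ≤ n ^ (K0 + 2) := Nat.pow_le_pow_right (by omega) (by omega)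
  have p2 : n ^ (K0 + 2) ≤ n ^ (K0 + 2 + K2) := Nat.pow_le_pow_right (by omega) (by omega)
  have p3 : n ^ K2 ≤ n ^ (K0 + 2 + K2) := Nat.pow_le_pow_right (by omega) (by omega)
  have hf : ∀ {a b : ℕ}, a ≤ b → (1 / 2 : ℝ) ^ b ≤ (1 / 2) ^ a := fun e =>
    pow_le_pow_of_le_one (by norm_num) (by norm_num) e
  have cM : #M ≤ n := (card_le_univ M).trans cL
  have cd : Fintype.card ((act T (A \ M)).Bl j) ≤ 2 ^ n := (Fintype.card_subtype_le _).trans cC
  have pd : ∀ a : ℕ, (((4 : ℝ) ^ a) • Q).PosDef := fun a => hQ.smul (by positivity)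
  have := gm_prob hQ θ
  have := fun a => gm_prob (pd a) 0
  have ex : ∀ (ω : Fin 5 → Lt T (A \ M) j) d, ∃ k : (C → ℝ) → (Fin 5 → C → ℝ) → ℝ, JF T A M j k ∧
      (T.RR A M j a1 a2 (cw T (A \ M) j y ω) q (2 ^ n) (fun l => F l d) → ∀ R, 1 ≤ R →
        Bd T A M j y ω ![a1, a1, a2, a2] R (R ^ #M * 2 ^ n) fun n ξ =>
          alt T A M j y (fun l => F l d) ω n ξ - k n ξ / q) := fun ω d => by
    by_cases r : T.RR A M j a1 a2 (cw T (A \ M) j y ω) q (2 ^ n) fun l => F l d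
    · obtain ⟨k, a, b⟩ := rr_jf h hA hj (fun l => hF l d) r
      exact ⟨k, a, fun _ => b⟩
    · exact ⟨_, .zero, fun a => absurd a r⟩
  choose k k1 k2 using ex
  obtain ⟨K, hK⟩ : ∃ K : (Fin 5 → Lt T (A \ M) j) → (Fin 5 → C → ℝ) → D → (C → ℝ) → ℝ,
    K = fun ω ξ d n => k ω d n ξ := ⟨_, rfl⟩
  have j1 : ∀ ω d, JF T A M j fun n ξ => K ω ξ d n := by rw [hK]; exact k1
  have hR : 4 * q * (3 ^ #M * 2 ^ n : ℝ) ≤ 2 ^ b := by
    have : (q : ℝ) ≤ 2 ^ n := by exact_mod_cast q2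
    calc _ ≤ 2 ^ 2 * 2 ^ n * ((2 ^ 2) ^ n * 2 ^ n : ℝ) := by
          gcongr
          · norm_num
          · exact (pow_le_pow_left₀ (by norm_num) (by norm_num) _).trans
              (pow_le_pow_right₀ (by norm_num) cM)
      _ ≤ _ := by
          rw [← pow_mul, ← pow_add, ← pow_add, ← pow_add]
          exact pow_le_pow_right₀ one_le_two (by omega)
  have a12 : a1 ≤ a2 := by omega
  have a23 : a2 ≤ a3 := by omega
  set S := {ω : Fin 5 → Lt T (A \ M) j | ω 0 + ω 1 + ω 3 ∈ X ∧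
    ∀ d, T.RR A M j a1 a2 (cw T (A \ M) j y ω) q (2 ^ n) fun l => F l d} with hS'
  have cy : ∀ {g : Fin 2 → Fin 2 → Fin 5 → Fin 7 → ℤ} {a' : Fin 6 → ℕ},
      (∀ i k, Mo (g i k) ![a1, a1, a2, a2] a') → (∀ d, Cn T A M j y (fun l => F l d) g) →
      ∀ ω, (T.cl j (fun _ => false) a').UQ (upA A (Fin 6)) (M.image .inl) (cw T (A \ M) j y ω)
        (2 ^ b) → (∀ i k, ap (g i k) ω ∈ S) → Cy g fun i k => K (ap (g i k) ω) :=
    fun m c ω u s ζ => by
      funext d n'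
      rw [hK]
      exact cy_of h hA hj m (c d) q1 hR (k := fun i l => k (ap _ ω) d) (fun _ _ => k1 _ d)
        (fun i l => k2 _ d ((s i l).2 d) 3 (by norm_num)) u n' ζ
  have i1 := int_sc hQ (pd (a2 + 2)) cd (by omega) (a' := a3) (m := Kc * (n + 1)) (by omega)
  have i2 := int_sc hQ (pd (a1 + 2)) cd (by omega) (a' := a2) (m := Kc * (n + 1)) (by omega)
  have q0 : To.QI (nq (pd (a2 + 2))) (gm Q θ) := by
    simpa using qi_pow hQ (a := 0) (by omega) (pd (a2 + 2)) θ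
  have e5 : lw Q θ ![a1, a1, a2, a2] = Measure.pi ![gm Q θ, gm ((4 : ℝ) ^ a1 • Q) 0,
      gm ((4 : ℝ) ^ a1 • Q) 0, gm ((4 : ℝ) ^ a2 • Q) 0, gm ((4 : ℝ) ^ a2 • Q) 0] := by
    unfold lw; congr 1; funext o; fin_cases o <;> rfl
  have eA : lw Q θ ![a1, a1, a1, a1, a2, a2] = Measure.pi ![gm Q θ, gm ((4 : ℝ) ^ a1 • Q) 0,
      gm ((4 : ℝ) ^ a1 • Q) 0, gm ((4 : ℝ) ^ a1 • Q) 0, gm ((4 : ℝ) ^ a1 • Q) 0,
      gm ((4 : ℝ) ^ a2 • Q) 0, gm ((4 : ℝ) ^ a2 • Q) 0] := by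
    unfold lw; congr 1; funext o; fin_cases o <;> rfl
  have eB : lw Q θ ![a1, a1, a2, a2, a2, a2] = Measure.pi ![gm Q θ, gm ((4 : ℝ) ^ a1 • Q) 0,
      gm ((4 : ℝ) ^ a1 • Q) 0, gm ((4 : ℝ) ^ a2 • Q) 0, gm ((4 : ℝ) ^ a2 • Q) 0,
      gm ((4 : ℝ) ^ a2 • Q) 0, gm ((4 : ℝ) ^ a2 • Q) 0] := by
    unfold lw; congr 1; funext o; fin_cases o <;> rfl
  have eI : lw Q θ ![a1, a1, a2, a2, a3, a3, a3, a3] = Measure.pi ![gm Q θ,
      gm ((4 : ℝ) ^ a1 • Q) 0, gm ((4 : ℝ) ^ a1 • Q) 0, gm ((4 : ℝ) ^ a2 • Q) 0,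
      gm ((4 : ℝ) ^ a2 • Q) 0, gm ((4 : ℝ) ^ a3 • Q) 0, gm ((4 : ℝ) ^ a3 • Q) 0,
      gm ((4 : ℝ) ^ a3 • Q) 0, gm ((4 : ℝ) ^ a3 • Q) 0] := by
    unfold lw; congr 1; funext o; fin_cases o <;> rfl
  have gd : ∀ {ω}, ω ∈ {z ∈ S | NI (K z) ∧ NA (K z) ∧ NB (K z) ∧ NC (K z)} → Gd (K ω) :=
    fun a => ⟨a.2.1, a.2.2.1, a.2.2.2.1, a.2.2.2.2⟩
  obtain ⟨Θ, t1, t2⟩ := hc _ _ _ _ _ _ _ _ n S (fun ω => NI (K ω)) (fun ω => NA (K ω))
    (fun ω => NB (K ω)) (fun ω => NC (K ω)) (fun i ω => nl (pjs T M j) univ.toList (K ω) i)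
    {ω | (T.cl j (fun _ => false) ![a1, a1, a1, a1, a2, a2]).UQ (upA A (Fin 6)) (M.image .inl)
      (cw T (A \ M) j y ω) (2 ^ b)}
    {ω | (T.cl j (fun _ => false) ![a1, a1, a2, a2, a2, a2]).UQ (upA A (Fin 6)) (M.image .inl)
      (cw T (A \ M) j y ω) (2 ^ b)}
    {ω | (T.cl j (fun _ => false) ![a1, a1, a2, a2, a3, a3, a3, a3]).UQ (upA A (Fin 8))
      (M.image .inl) (cw T (A \ M) j y ω) (2 ^ b)}
    q0 (qi_pow hQ (by omega) _ 0) (qi_pow hQ le_rfl _ 0) (qi_pow hQ le_rfl (pd (a1 + 2)) 0)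
    i1.1 i2.1 i1.2 i2.2 (eA ▸ g1.trans (hf (by omega))) (eB ▸ g2.trans (hf (by omega)))
    (eI ▸ g3.trans (hf (by omega)))
    (fun ω u s => ni_of (K' := K (ap (gI 1) ω)) fun ζ => by
      funext d n'
      rw [hK]
      exact ci_of h hA hj (mo_I a12 a23) q1 hR (k := fun i => k (ap _ ω) d) (fun _ => k1 _ d)
        (fun i => k2 _ d ((s i).2 d) 3 (by norm_num)) u n' ζ)
    (fun ω u s => na_of (cy mo_A (fun _ => cn_A) ω u s))
    (fun ω u s => nb_of (cy mo_B (fun _ => cn_B) ω u s))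
    (fun ω u s => nc_of (cy (mo_C a12) (fun _ => cn_C) ω u s))
    (fun ω u s => lab_A pjs_pj (cy mo_A (fun _ => cn_A) ω u fun i k => (s i k).1)
      (fun i k => gd (s i k)) fun _ _ => sl_of (j1 _))
    (fun ω u s => lab_B pjs_pj (cy mo_B (fun _ => cn_B) ω u fun i k => (s i k).1)
      (fun i k => gd (s i k)) fun _ _ => sl_of (j1 _))
    (fun ω u s => lab_C pjs_pj (cy (mo_C a12) (fun _ => cn_C) ω u fun i k => (s i k).1)
      (fun i k => gd (s i k)) fun _ _ => sl_of (j1 _))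
    (e5 ▸ hS)
  obtain ⟨Tc, r1, r2⟩ := H L C T D n A M j q (F 0) y Q θ a1 a2 a3 b X w h Θ hQ hn cC cL cD hA hj
    q1 q2 (by omega) a12 (by omega) (by omega) w1 w2 u ((hf (by omega)).trans t1) fun z hz => by
      classical
      obtain ⟨κ₀, κ₂, κ₃, ℓ, t3⟩ := t2 z hz
      refine ⟨fun u d => h.mf _ _ _ (vv h y (hF 2) 1 q (κ₂ u) (z.1 + u) d),
        fun t d => h.mf _ _ _ (vv h y (hF 0) (-1) q (κ₀ t) (z.1 + z.2.1 + t) d),
        fun s d => h.mf _ _ _ (vv h y (hF 3) (-1) q (κ₃ s) (z.1 + s + z.2.2) d -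
          vv h y (hF 1) 1 q ℓ (z.1 + z.2.1 + z.2.2) d),
        fun d => if Jl T A M j ℓ then Cf h M j ((act T (A \ M)).jn j y (z.1 + z.2.1 + z.2.2))
          (gf (F 1) 1 q ℓ d) else fun _ => 0, fun d => ?_,
        ((hf (by omega)).trans t3).trans (measureReal_mono ?_)⟩
      · split_ifs with a
        exacts [cf_dat h _ (gf_dat (hF 1) 1 q a d), Dat.zero]
      rintro ⟨t, s⟩ ⟨ω, hω, rfl, b1, b2, b3, b4, c0, c1, c2, c3⟩
      have jl := jl_nl (j1 ![z.1, z.2.1, s, t, z.2.2]) (pjs_dg (T := T) (M := M) (j := j))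
        univ.toList
      have o := fun d => one_rect h hA hj a12 hF (j1 _) jl
        (Gd.eq' ⟨b1, b2, b3, b4⟩ pjs_pj (sl_of (j1 _))) d (B := 2 ^ n) (y := y)
        (by simpa only [hK, one_pow, one_mul] using k2 _ d (hω.2 d) 1 le_rfl)
      have l0 := jl 0
      have l1 := jl 1
      have l2 := jl 2
      have l3 := jl 3
      simp only [c0, c1, c2, c3, cr0, cr1, cr2, cr3, Matrix.cons_val] at o l0 l1 l2 l3
      refine ⟨hω.1, fun d => ⟨_, l0.intF d _, ((o d).2.congr fun p hp => ?_).mono ?_⟩, ?_⟩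
      · have ag : T.Agr (A.erase j) M y ((act T (A \ M)).jn j y (z.1 + z.2.1 + t)) :=
          fun _ a _ _ => (jn_act' y _ (subset_erase.1 a).2).symm
        beta_reduce
        rw [if_pos l1, ← ag.ty (h.sec _ _ _ _).2.1 hp, h.sec_mf _ _ _ _ _ (mvf_fib hp),
          ag.ty (vv h y (hF 0) (-1) q (κ₀ t) (z.1 + z.2.1 + t) d).2.1 hp, vv_eq h _ _ _ l0]
        simp only [gf]; ring
      · have : (Fintype.card C : ℝ) ≤ 2 ^ n := by exact_mod_cast cC
        calc _ ≤ (2 ^ a3) ^ n * (2 ^ 1 * 2 ^ n * 2 ^ n : ℝ) := by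
              gcongr
              · exact (pow_le_pow_left₀ (by positivity) (pow_le_pow_right₀ one_le_two a23) _).trans
                  (pow_le_pow_right₀ (one_le_pow₀ one_le_two) cM)
              · norm_num
          _ ≤ _ := by
              rw [← pow_mul, ← pow_add, ← pow_add, ← pow_add]
              refine pow_le_pow_right₀ one_le_two (le_trans ?_
                (Nat.pow_le_pow_right (by omega) (Nat.le_add_left 2 K0)))
              have : 1 ≤ a3 := by omega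
              nlinarith
      · refine (((h.nr_fam _ _ _ q (by positivity) fun d =>
          vv h y (hF 2) 1 q (κ₂ (t + s)) (z.1 + (t + s)) d -
          vv h y (hF 0) (-1) q (κ₀ t) (z.1 + z.2.1 + t) d -
          (vv h y (hF 3) (-1) q (κ₃ s) (z.1 + s + z.2.2) d -
            vv h y (hF 1) 1 q ℓ (z.1 + z.2.1 + z.2.2) d)).2 fun d => (o d).1.neg.congr
              fun p _ => ?_).mono (pow_le_pow_right₀ one_le_two (by omega))).of_eq ?_
        · simp only [Submodule.coe_sub, Pi.sub_apply, vv_eq h _ _ _ l0, vv_eq h _ _ _ l1,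
            vv_eq h _ _ _ l2, vv_eq h _ _ _ l3, show z.1 + (t + s) = z.1 + s + t by abel]
          ring
        · funext d; simp only [map_sub, Pi.sub_apply]
  refine ⟨Tc, (hf p3).trans r1, fun c hc => ?_⟩
  obtain ⟨A', γ, X', Λ, r3, r4, r5, r6, r7⟩ := r2 c hc
  exact ⟨A', γ, X', Λ, (hf p3).trans r3, r4, r5, r6, fun y' hy => ⟨(r7 y' hy).1, fun d =>
    ((r7 y' hy).2 d).mono (pow_le_pow_right₀ one_le_two
      (Nat.pow_le_pow_right (by omega) (by omega)))⟩⟩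

end Crest.Agent.N49.On
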