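import Crest.Agent.N49.On.Ms
import Crest.Agent.N49.Rm.Ar

/-! # Row 49 (helper11): `ONEX` from the mass part -/

set_option autoImplicit false
set_option linter.unusedSectionVars false
noncomputable section
open Finset

namespace Crest.Agent.N49.On
open Rm Rm.TT

theorem rep_sub {L C : Type} [Fintype L] [DecidableEq L] [Fintype C] [DecidableEq C] {T : TT L C}
    {D E : Type} [Fintype E] {A M : Finset L} {i : L} {H H' : Set (C → ℤ)} {q : ℕ} {B B' : ℝ}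
    {F X : D → Fm L C} {γ : E → Fm L C} {Λ : D → E → Fm L C} (h : T.Rep A M i H q B F γ X Λ)
    (e : H' ⊆ H) (b : B ≤ B') : T.Rep A M i H' q B' F γ X Λ :=
  ⟨h.1, h.2.1, h.2.2.1, fun y hy =>
    ⟨(h.2.2.2 y (e hy)).1, fun d => ((h.2.2.2 y (e hy)).2 d).mono b⟩⟩

theorem one_of {l0 : ℕ} (hM : MASS l0) (hC : CTRX) : ONEX l0 := by
  obtain ⟨K0, K1, h0, h1, hM⟩ := hM
  refine ⟨K0, 1, h0, fun K' => ⟨(K1 + l0) * (l0 + 60) * (K' + 2), ?_⟩⟩
  intro L C _ _ _ _ T X D _ n H A M j q F hl hz hG hd m1 m2 j1 j2 hF p1 p2 hr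
  have hT : T.Ok := hG.ok
  have h2 := hz.1
  simp only [pow_mul] at hG ⊢
  obtain ⟨n1, e1⟩ : ∃ x, x = n ^ (K1 + l0) := ⟨_, rfl⟩
  obtain ⟨n2, e2⟩ : ∃ x, x = n1 ^ (l0 + 60) := ⟨_, rfl⟩
  rw [← e1, ← e2] at hG ⊢
  have b0 : n ^ K1 ≤ n1 := e1 ▸ pow_mono' h2 (by omega)
  have b1 : n ≤ n ^ K1 := le_pow_self' h2 (by omega)
  have b2 : l0 ≤ n1 := e1 ▸ (Nat.lt_two_pow_self.le.trans (Nat.pow_le_pow_left h2 _)).trans
    (pow_mono' h2 (by omega))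
  have b3 : 4 * n ^ K0 ≤ n ^ K1 := by
    refine le_trans ?_ (pow_mono' h2 h1)
    rw [pow_add, mul_comm]; exact Nat.mul_le_mul_left _ (Nat.pow_le_pow_left h2 2)
  have b4 : 8 * n1 + (l0 + 51) ≤ n2 := by
    have := lin_le_pow (n := n1) (by omega) 8 (l0 + 51)
    rwa [show 8 + (l0 + 51) + 1 = l0 + 60 by ring, ← e2] at this
  have b5 : n2 ^ K' + n2 ≤ n2 ^ (K' + 2) := by
    have a1 : 1 ≤ n2 ^ K' := Nat.one_le_pow _ _ (by omega)
    have a2 : 2 * n2 ≤ n2 ^ 2 := sq n2 ▸ Nat.mul_le_mul_right _ (by omega)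
    rw [pow_add]
    nlinarith
  have b6 : 1 ≤ n2 ^ K' := Nat.one_le_pow _ _ (by omega)
  clear e1 e2
  obtain ⟨e, S, s1, s2, s3⟩ := hM L C T D n H A M j q F hl hz (hG.g (by omega)) hd m1 m2 j1 j2 hF
    p1 p2 hr
  obtain ⟨g, eg⟩ : ∃ g, n2 ^ (K' + 2) = g + 1 := ⟨n2 ^ (K' + 2) - 1, by omega⟩
  have hG' : GX (g + 1) (g + 1) C T X := eg ▸ hG
  obtain ⟨z, z1, z2⟩ := hC L C T n1 (g + 1) j (3 * n ^ K0) _ _
    (hz.2.1.trans (Nat.pow_le_pow_right two_pos (by omega))) (by omega) (by omega) (by omega)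
    (mono _ _ _ _ _ _ T le_rfl (by omega) hG'.good)
    (hG'.2.2 j (3 * n ^ K0) 1 (by omega) le_rfl le_rfl) ((half_anti b0).trans s3)
  obtain ⟨γ, Y, Λ, r⟩ := out hT (hF 0) S s2 (3 * n ^ K0) z
  have rf : Ref (n2 ^ (K' + 2)) T (0 + 1) _ (T.rc j (3 * n ^ K0) z) (id ∘ T.rci j 1 z) :=
    .rc .refl j _ 1 z le_rfl Nat.one_le_two_pow (by omega)
  refine ⟨_, _, _, _, _, _, n2, _, by omega, by omega, le_rfl, rf,
    GX.mono (by omega) _ g _ _ _ (by omega) (not_not.1 z1),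
    ⟨by omega, rf.card.trans ?_, (half_anti (by omega)).trans z2⟩, fun y hy => ⟨_, hy.1, ?_⟩,
    Fin e, inferInstance, q, γ, Y, Λ, by rw [Fintype.card_fin]; omega, p1,
    p2.trans (Nat.pow_le_pow_right two_pos (by omega)), rep_sub r (fun _ h => h.2) ?_⟩
  · refine (Nat.mul_le_mul_left _ hz.2.1).trans ?_
    rw [← pow_add]; exact Nat.pow_le_pow_right two_pos (by omega)
  · rw [← rcZ_pos]; exact T.rci_cf j 1 z y
  · have := card_le_univ M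
    rw [← pow_add]; exact two_pow_mono (by omega)

end Crest.Agent.N49.On
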