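import Crest.Agent.N49.On.Mk
import Crest.Agent.N49.On.Trn

/-! # Row 49 (helper12): the mass part of `ONE` -/

set_option autoImplicit false
set_option linter.unusedSectionVars false
noncomputable section
open Finset MeasureTheory

namespace Crest.Agent.N49.On
namespace Ma
open Rm Rm.TT Po

variable {L C : Type} [Fintype L] [DecidableEq L] [Fintype C] [DecidableEq C] {T : TT L C}
  {Z A M : Finset L} {j : L}

theorem dis' (hD : DIS) {n b m r : ℕ} (a : Fin r → ℕ) (hc : Fintype.card C ≤ 2 ^ n)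
    (hl : Fintype.card L ≤ n) (hj : j ∈ Z) (hr : r ≤ 8) (ha : ∀ x, a x ≤ b)
    (hb : 4 * n + m + 40 ≤ b) (hG : Good b (n + 20) L C T)
    (φ : (C → ℤ) → (Fin (r + 1) → Lt T Z j) → ℝ) (h : ∀ y ω, 0 ≤ φ y ω ∧ φ y ω ≤ 1) :
    |((T.cl j (fun _ => false) a).Ex fun w => φ (rs T Z j fun c => w (.inl c)) (aw T Z j w)) -
      T.Ex fun y => ∫ ω, φ (rs T Z j y) ω ∂lw ((act T Z).Mm j (rs T Z j y))
        ((act T Z).ce j (rs T Z j y)) a| ≤ (1 / 2) ^ m := by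
  simp only [Mm_rs hG.1, ce_rs hG.1]
  exact hD L C T n b m j Z r a (fun y => φ (rs T Z j y)) hc hl hj hr ha hb hG (fun y => h _)
    fun y y' e => by rw [rs_congr e]

/-- the weight -/
theorem weight (hD : DIS) {n b m a : ℕ} (hc : Fintype.card C ≤ 2 ^ n)
    (hl : Fintype.card L ≤ n) (hj : j ∈ Z) (ha : a ≤ b)
    (hb : 4 * n + m + 40 ≤ b) (hG : Good b (n + 20) L C T) (H : Set (C → ℤ)) :
    ∃ h : (C → ℤ) × Lt T Z j × Lt T Z j → ℝ, (∀ k, 0 ≤ h k ∧ h k ≤ 1) ∧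
      ∀ B : Set ((C → ℤ) × Lt T Z j × Lt T Z j),
      |(T.cl j (fun _ : Fin 1 => false) fun _ => a).pr {w | T.posZ j 1 ![1] w ∈ H ∧
          (rs T Z j fun c => w (.inl c), aw T Z j w 0, aw T Z j w 1) ∈ B} -
        T.Ex fun y => ∫ c, ∫ x, B.indicator h (rs T Z j y, c, x)
          ∂gm (((4 : ℝ) ^ a) • (act T Z).Mm j (rs T Z j y)) 0
          ∂gm ((act T Z).Mm j (rs T Z j y)) ((act T Z).ce j (rs T Z j y))| ≤ (1 / 2) ^ m := by
  have o := hG.1.cl j (fun _ : Fin 1 => false) fun _ => a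
  have := o.prob
  obtain ⟨h, h1, h2⟩ := cond (T.cl j (fun _ : Fin 1 => false) fun _ => a).μ
    (fun w => (rs T Z j fun c => w (.inl c), aw T Z j w 0, aw T Z j w 1))
    {w | T.posZ j 1 ![1] w ∈ H}
  refine ⟨h, h1, fun B => ?_⟩
  have i : ∀ k, 0 ≤ B.indicator h k ∧ B.indicator h k ≤ 1 := fun k => by
    by_cases e : k ∈ B <;> simp [e, h1]
  have d := dis' hD (fun _ : Fin 1 => a) hc hl hj (by norm_num) (fun _ => ha) hb hG
    (fun y ω => B.indicator h (y, ω 0, ω 1)) fun _ _ => i _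
  have e := h2 B
  rw [o.μ_real, o.integral_eq (Lo.int_u fun _ => i _)] at e
  rw [← e] at d
  refine le_of_eq_of_le (congrArg (fun t => |_ - T.Ex t|) (funext fun y => ?_)) d
  exact (lw_two ((act_ok hG.1 Z).Mm_pd j _) _ a (f := fun c x => B.indicator h (rs T Z j y, c, x))
    fun _ _ => i _).symm

theorem ii {d : Type} [Fintype d] [DecidableEq d] {Q : Matrix d d ℝ} (hQ : Q.PosDef) (θ : d → ℝ)
    (a : ℕ) {f : (d → ℤ) → (d → ℤ) → ℝ} (hf : ∀ c x, 0 ≤ f c x ∧ f c x ≤ 1) :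
    0 ≤ ∫ c, ∫ x, f c x ∂gm (((4 : ℝ) ^ a) • Q) 0 ∂gm Q θ ∧
      ∫ c, ∫ x, f c x ∂gm (((4 : ℝ) ^ a) • Q) 0 ∂gm Q θ ≤ 1 :=
  have := gm_prob hQ θ
  have := gm_prob (hQ.smul (show (0 : ℝ) < 4 ^ a by positivity)) 0
  Lo.int_u' fun c => Lo.int_u' (hf c)

theorem core (hD : DIS) (hC : CLM) {D E : Type} [Fintype D] [Fintype E] {n0 n b m P q a1 a2 a3 : ℕ}
    {B : ℝ} {H : Set (C → ℤ)} {F : Fin 4 → D → Fm L C} (hc : Fintype.card C ≤ 2 ^ n)
    (hl : Fintype.card L ≤ n) (hj : j ∈ A) (hM : j ∉ M) (hF : ∀ l d, T.Dat A M (F l d))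
    (h0 : n0 + 4 ≤ n) (hm : m = 2 * P + n + 1) (h1 : 2 * n + m + 10 ≤ a1) (h2 : a1 ≤ a2)
    (h3 : a2 ≤ a3) (ha : a3 ≤ b) (hb : 4 * n + m + 40 ≤ b) (hG : Good b (n + 20) L C T)
    (Gy : (C → ℤ) → Prop) (hY : T.pr {y | ¬ Gy (rs T (A \ M) j y)} ≤ 3 * (1 / 2) ^ n)
    (hR : (1 / 2 : ℝ) ^ n0 ≤ T.RM0 A M j H q (2 ^ n0) F a1 a2)
    (fib : ∀ y (X : Set (Lt T (A \ M) j)) (w : Lt T (A \ M) j → Lt T (A \ M) j → ℝ), Gy y →
      (∀ c x, 0 ≤ w c x ∧ w c x ≤ 1) → (∀ t ∈ X, (1 / 2) ^ n ≤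
        ∫ x, w (t - x) x ∂gm (((4 : ℝ) ^ a3) • (act T (A \ M)).Mm j y) 0) →
      (1 / 2) ^ n ≤ (lw ((act T (A \ M)).Mm j y) ((act T (A \ M)).ce j y) ![a1, a1, a2, a2]).real
        {ω | ω 0 + ω 1 + ω 3 ∈ X ∧
          ∀ d, T.RR A M j a1 a2 (cw T (A \ M) j y ω) q (2 ^ n) fun l => F l d} →
      ∃ Tc : Set (Lt T (A \ M) j),
        (1 / 2) ^ P ≤ (gm ((act T (A \ M)).Mm j y) ((act T (A \ M)).ce j y)).real Tc ∧ ∀ c ∈ Tc,
        ∃ (A' : Set (Lt T (A \ M) j)) (γ : E → Fm L C) (X' : D → Fm L C) (Λ : D → E → Fm L C),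
          (1 / 2) ^ P ≤ ∫ x in A', w c x ∂gm (((4 : ℝ) ^ a3) • (act T (A \ M)).Mm j y) 0 ∧
          T.Rep A M j ((fun x => (act T (A \ M)).jn j y (c + x)) '' A') q B (F 0) γ X' Λ) :
    ∃ S : (C → ℤ) → Lt T (A \ M) j → Set (Lt T (A \ M) j),
      (∀ y c, ∃ (γ : E → Fm L C) (X : D → Fm L C) (Λ : D → E → Fm L C),
        T.Rep A M j ((fun x => (act T (A \ M)).jn j y (c + x)) '' S y c) q B (F 0) γ X Λ) ∧
      (1 / 2 : ℝ) ^ m ≤ (T.cl j (fun _ : Fin 1 => false) fun _ => a3).pr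
        {w | T.posZ j 1 ![1] w ∈ H ∧ aw T (A \ M) j w 1 ∈
          S (rs T (A \ M) j fun c => w (.inl c)) (aw T (A \ M) j w 0)} := by
  classical
  have hT := hG.1
  have jz : j ∈ A \ M := mem_sdiff.2 ⟨hj, hM⟩
  have pd := (act_ok hT (A \ M)).Mm_pd j
  have em : (1 / 2 : ℝ) ^ m ≤ (1 / 2) ^ n := half_anti (by omega)
  have e0 : 16 * (1 / 2 : ℝ) ^ n ≤ (1 / 2) ^ n0 :=
    (mul_le_mul_of_nonneg_left (half_anti h0) (by norm_num)).trans_eq (by ring)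
  have τ0 : (0 : ℝ) < (1 / 2) ^ n := by positivity
  have l2 : Fintype.card L ≤ 2 ^ n := hl.trans Nat.lt_two_pow_self.le
  have G9 := mono b b _ 9 L C T le_rfl (by omega) hG
  obtain ⟨h, u1, u2⟩ := weight (Z := A \ M) (m := m) hD hc hl jz ha hb hG H
  have ind : ∀ (B : Set _) k, 0 ≤ B.indicator h k ∧ B.indicator h k ≤ 1 := fun B k => by
    by_cases e : k ∈ B <;> simp [e, u1]
  let X : (C → ℤ) → Set (Lt T (A \ M) j) := fun y => {t | (1 / 2) ^ n ≤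
    ∫ x, h (y, t - x, x) ∂gm (((4 : ℝ) ^ a3) • (act T (A \ M)).Mm j y) 0}
  let H' : Set (C → ℤ) := {y | y ∈ H ∧ (act T (A \ M)).bl j y ∉ X (rs T (A \ M) j y)}
  have pw : ∀ a, a1 ≤ a → (2 : ℤ) ^ (2 * n + m + 10) ≤ 2 ^ a := fun a k =>
    pow_le_pow_right₀ one_le_two (h1.trans k)
  -- step 1
  have s1 : T.pr H' ≤ 4 * (1 / 2) ^ n := by
    have c1 := (abs_le.1 ((hC L C T n b m j 1 (fun _ => false) (fun _ => a3) H' hc l2 (by norm_num)
      (fun _ => ha) (by omega) G9).1 ![1] fun x _ => ⟨rfl, by simpa using pw a3 (h2.trans h3)⟩)).1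
    have c2 := (abs_le.1 (u2 {k | k.2.1 + k.2.2 ∉ X k.1})).2
    have c3 : (T.Ex fun y => ∫ c, ∫ x, Set.indicator {k : _ × _ × _ | k.2.1 + k.2.2 ∉ X k.1} h
        (rs T (A \ M) j y, c, x) ∂gm (((4 : ℝ) ^ a3) • (act T (A \ M)).Mm j (rs T (A \ M) j y)) 0
        ∂gm ((act T (A \ M)).Mm j (rs T (A \ M) j y)) ((act T (A \ M)).ce j (rs T (A \ M) j y))) ≤
        2 * (1 / 2) ^ n := by
      refine hT.Ex_le (B := 1) (fun y => abs_le.2 ⟨?_, (ii (pd _) _ _ fun _ _ => ind _ _).2⟩)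
        fun y => ?_
      · exact le_trans (by norm_num) (ii (pd _) _ _ fun _ _ => ind _ _).1
      refine le_trans (le_of_eq ?_) ((low (pd (rs T (A \ M) j y))
        ((act T (A \ M)).ce j (rs T (A \ M) j y)) a3 (h := fun c x => h (rs T (A \ M) j y, c, x)) (fun _ _ => u1 _) τ0.le).trans ?_)
      · refine integral_congr_ae (.of_forall fun c => integral_congr_ae (.of_forall fun x => ?_))
        simp only [Set.indicator_apply, Set.mem_ofPred_eq, X, ite_not]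
      · have k : (Fintype.card ((act T (A \ M)).Bl j) : ℝ) ≤ 2 ^ n := by
          exact_mod_cast (Fintype.card_subtype_le _).trans hc
        have k2 : (2 : ℝ) ^ (2 * n + 4) ≤ 2 ^ a3 := pow_le_pow_right₀ one_le_two (by omega)
        have k3 : (1 : ℝ) ≤ 2 ^ n := one_le_pow₀ one_le_two
        have : 4 * ((Fintype.card ((act T (A \ M)).Bl j) + 2) / (2 : ℝ) ^ a3) ≤ (1 / 2) ^ n := by
          rw [← mul_div_assoc, one_div_pow, div_le_div_iff₀ (by positivity) (by positivity)]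
          rw [show (2 : ℝ) ^ (2 * n + 4) = 16 * 2 ^ n * 2 ^ n by ring] at k2
          nlinarith
        linarith
    have c4 : {w | T.posZ j 1 ![1] w ∈ H'} = {w | T.posZ j 1 ![1] w ∈ H ∧
        (rs T (A \ M) j fun c => w (.inl c), aw T (A \ M) j w 0, aw T (A \ M) j w 1) ∈
          {k : _ × _ × _ | k.2.1 + k.2.2 ∉ X k.1}} := by
      ext w
      simp only [H', Set.mem_ofPred_eq, aw_pos1, rs_posZ]
    rw [c4] at c1
    linarith
  -- step 2
  let W : (C → ℤ) → Set (Fin 5 → Lt T (A \ M) j) := fun y => {ω | ω 0 + ω 1 + ω 3 ∈ X y ∧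
    ∀ d, T.RR A M j a1 a2 (cw T (A \ M) j y ω) q (2 ^ n) fun l => F l d}
  have lp := fun y => lw_prob (pd y) ((act T (A \ M)).ce j y) ![a1, a1, a2, a2]
  have s2 : 9 * (1 / 2 : ℝ) ^ n ≤ T.pr {y | (1 / 2) ^ n < (lw ((act T (A \ M)).Mm j
      (rs T (A \ M) j y)) ((act T (A \ M)).ce j (rs T (A \ M) j y)) ![a1, a1, a2, a2]).real
        (W (rs T (A \ M) j y))} := by
    have aa : ∀ x : Fin 4, a1 ≤ ![a1, a1, a2, a2] x ∧ ![a1, a1, a2, a2] x ≤ b := fun x => by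
      fin_cases x <;> simp <;> omega
    have o := hT.cl j (fun _ : Fin 4 => false) ![a1, a1, a2, a2]
    have c1 := (abs_le.1 ((hC L C T n b m j 4 (fun _ => false) _ H' hc l2 (by norm_num)
      (fun x => (aa x).2) (by omega) G9).1 ![1, 0, 1, 0] fun x k => ⟨rfl, by
        refine le_trans ?_ (pw _ (aa x).1)
        fin_cases x <;> simp⟩)).2
    have c2 := (abs_le.1 (dis' (m := m) hD _ hc hl jz (by norm_num) (fun x => (aa x).2) hb hG
      (fun y => (W y).indicator 1) fun y ω => by by_cases e : ω ∈ W y <;> simp [e])).2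
    simp only [integral_indicator_one MeasurableSet.of_discrete] at c2
    have c3 := hT.markov' (g := fun y => (lw ((act T (A \ M)).Mm j
      (rs T (A \ M) j y)) ((act T (A \ M)).ce j (rs T (A \ M) j y)) ![a1, a1, a2, a2]).real
        (W (rs T (A \ M) j y))) (fun y => ⟨measureReal_nonneg, have := lp (rs T (A \ M) j y)
          measureReal_le_one⟩) τ0.le
    have c4 := (o.pr_diff _ {w | T.posZ j 1 ![1, 0, 1, 0] w ∈ H'}).trans (o.pr_mono
      (H' := {w | aw T (A \ M) j w ∈ W (rs T (A \ M) j fun c => w (.inl c))})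
      (H := {w | T.cor j 0 w ∈ H ∧ ∀ d, T.RR A M j a1 a2 w q (2 ^ n0) fun l => F l d} \ _)
      fun w k => ⟨by_contra fun x => k.2 ⟨k.1.1, by
        rw [rs_posZ]; exact fun y => x (aw_cor0 w ▸ y)⟩, fun d => rr_agr hT hM (hF · d)
        (agr_cw _ _ hM hj w) (Rel.mono (k.1.2 d) (pow_le_pow_right₀ one_le_two (by omega)))⟩)
    rw [pr_eq {w | aw T (A \ M) j w ∈ W _}] at c4
    have c5 : (T.cl j (fun _ => false) ![a1, a1, a2, a2]).Ex
        (Set.indicator {w | aw T (A \ M) j w ∈ W (rs T (A \ M) j fun c => w (.inl c))} 1) = _ :=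
      congrArg _ (funext fun w => (rfl : _ = (W (rs T (A \ M) j fun c => w (.inl c))).indicator 1
        (aw T (A \ M) j w)))
    rw [c5] at c4
    change _ ≤ (T.cl j _ _).pr _ at hR
    linarith
  -- step 3
  have s3 : ∀ y, ∃ S : Lt T (A \ M) j → Set (Lt T (A \ M) j),
      (∀ c, ∃ (γ : E → Fm L C) (X : D → Fm L C) (Λ : D → E → Fm L C),
        T.Rep A M j ((fun x => (act T (A \ M)).jn j y (c + x)) '' S c) q B (F 0) γ X Λ) ∧
      (Gy y → (1 / 2) ^ n ≤ (lw ((act T (A \ M)).Mm j y) ((act T (A \ M)).ce j y)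
        ![a1, a1, a2, a2]).real (W y) → ((1 / 2 : ℝ) ^ P) ^ 2 ≤ ∫ c, ∫ x, (S c).indicator
          (fun x => h (y, c, x)) x ∂gm (((4 : ℝ) ^ a3) • (act T (A \ M)).Mm j y) 0
          ∂gm ((act T (A \ M)).Mm j y) ((act T (A \ M)).ce j y)) := fun y => by
    have z : ∀ c : Lt T (A \ M) j, ∃ (γ : E → Fm L C) (X : D → Fm L C) (Λ : D → E → Fm L C),
        T.Rep A M j ((fun x => (act T (A \ M)).jn j y (c + x)) '' ∅) q B (F 0) γ X Λ := fun c =>
      ⟨fun _ _ => 0, fun _ _ => 0, fun _ _ _ => 0, fun _ => Dat.zero, fun _ => Dat.zero,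
        fun _ _ => Dat.zero, by simp⟩
    by_cases k : Gy y ∧ (1 / 2) ^ n ≤ (lw ((act T (A \ M)).Mm j y) ((act T (A \ M)).ce j y)
        ![a1, a1, a2, a2]).real (W y)
    swap
    · exact ⟨fun _ => ∅, z, fun a b => absurd ⟨a, b⟩ k⟩
    obtain ⟨Tc, t1, t2⟩ := fib y (X y) (fun c x => h (y, c, x)) k.1 (fun _ _ => u1 _)
      (fun _ t => t) k.2
    choose! A' t2 using t2
    refine ⟨fun c => if c ∈ Tc then A' c else ∅, fun c => ?_, fun _ _ => ?_⟩
    · by_cases e : c ∈ Tc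
      · obtain ⟨γ, X', Λ, -, r⟩ := t2 c e
        exact ⟨γ, X', Λ, by simpa only [if_pos e] using r⟩
      · simpa only [if_neg e] using z c
    · have := gm_prob (pd y) ((act T (A \ M)).ce j y)
      have := gm_prob ((pd y).smul (show (0 : ℝ) < 4 ^ a3 by positivity)) 0
      have i : ∀ c x, 0 ≤ (if c ∈ Tc then A' c else ∅).indicator (fun x => h (y, c, x)) x ∧
          (if c ∈ Tc then A' c else ∅).indicator (fun x => h (y, c, x)) x ≤ 1 := fun c x => by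
        by_cases e : x ∈ (if c ∈ Tc then A' c else ∅) <;> simp only [Set.indicator_apply, e] <;>
          simp [u1]
      refine le_trans ?_ (integral_mono ((integrable_const ((1 / 2 : ℝ) ^ P)).indicator
        (s := Tc) .of_discrete) (Lo.int_u fun c => Lo.int_u' (i c)) fun c => ?_)
      · rw [integral_indicator_const _ .of_discrete, smul_eq_mul, sq]
        exact mul_le_mul_of_nonneg_right t1 (by positivity)
      · by_cases e : c ∈ Tc
        · obtain ⟨_, _, _, r, -⟩ := t2 c e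
          simpa only [Set.indicator_of_mem e, if_pos e, integral_indicator .of_discrete] using r
        · simpa only [Set.indicator_of_notMem e] using (Lo.int_u' (i c)).1
  choose S S1 S2 using s3
  refine ⟨S, S1, ?_⟩
  have c1 := (abs_le.1 (u2 {k | k.2.2 ∈ S k.1 k.2.1})).1
  have c2 := hT.markov (fun y => ii (pd (rs T (A \ M) j y))
    ((act T (A \ M)).ce j (rs T (A \ M) j y)) a3 fun c x =>
      ind {k | k.2.2 ∈ S k.1 k.2.1} (rs T (A \ M) j y, c, x))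
    (t := ((1 / 2 : ℝ) ^ P) ^ 2) (by positivity)
  have c3 := (hT.pr_diff _ {y | ¬ Gy (rs T (A \ M) j y)}).trans (hT.pr_mono
    (H := {y | (1 / 2) ^ n < (lw ((act T (A \ M)).Mm j
      (rs T (A \ M) j y)) ((act T (A \ M)).ce j (rs T (A \ M) j y)) ![a1, a1, a2, a2]).real
        (W (rs T (A \ M) j y))} \ _) fun y k => (S2 _ (not_not.1 k.2) (le_of_lt k.1) :
      y ∈ {y | ((1 / 2 : ℝ) ^ P) ^ 2 ≤ ∫ c, ∫ x, Set.indicator {k : _ × _ × _ | k.2.2 ∈ S k.1 k.2.1} h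
        (rs T (A \ M) j y, c, x) ∂gm (((4 : ℝ) ^ a3) • (act T (A \ M)).Mm j (rs T (A \ M) j y)) 0
        ∂gm ((act T (A \ M)).Mm j (rs T (A \ M) j y)) ((act T (A \ M)).ce j (rs T (A \ M) j y))}))
  have c4 := (mul_le_mul_of_nonneg_left (show (1 / 2 : ℝ) ^ n ≤ _ from le_trans (by linarith) c3)
    (show 0 ≤ ((1 / 2 : ℝ) ^ P) ^ 2 by positivity)).trans c2
  have c5 : ((1 / 2 : ℝ) ^ P) ^ 2 * (1 / 2) ^ n = 2 * (1 / 2) ^ m := by rw [hm]; ring
  change _ ≤ (T.cl j _ _).pr {w | T.posZ j 1 ![1] w ∈ H ∧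
    (rs T (A \ M) j fun c => w (.inl c), aw T (A \ M) j w 0, aw T (A \ M) j w 1) ∈
      {k : _ × _ × _ | k.2.2 ∈ S k.1 k.2.1}}
  linarith

theorem pnum (E K n : ℕ) (hn : 2 ≤ n) : (E * n) ^ K ≤ n ^ ((E + 1) * K) := by
  rw [pow_mul, pow_succ]
  exact Nat.pow_le_pow_left (Nat.mul_le_mul_right n
    (Nat.lt_two_pow_self.le.trans (Nat.pow_le_pow_left hn E))) K

end Ma
open Rm Rm.TT

/-- **MASS** -/
theorem mass (hD : DIS) (hF : FIB) (hC : CLM) {l0 : ℕ} (hN : NGM l0) : MASS l0 := by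
  obtain ⟨Kf, Dn, hDn, hF⟩ := hF
  obtain ⟨Kn, hN⟩ := hN
  refine ⟨(l0 + 3 + 1) * (Kf + 1) + 3, ((l0 + 3 + 1) * (Kf + 1) + 3 + 2) * (Kf + Kn + 1), by omega,
    Nat.le_mul_of_pos_right _ (by omega), ?_⟩
  intro L C _ _ _ _ T D _ n H A M j q F hl hH hG hd m0 hMA hj hM hF' q1 q2 hR
  obtain ⟨n1, hn1⟩ : ∃ n1, n1 = n + l0 + 4 := ⟨_, rfl⟩
  have n2 := hH.1
  have u0 : n1 ^ (Kf + 1) ≤ n ^ ((l0 + 3 + 1) * (Kf + 1)) :=
    (Nat.pow_le_pow_left (by nlinarith) _).trans (Ma.pnum (l0 + 3) (Kf + 1) n n2)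
  have u1 : n1 ≤ n1 ^ (Kf + 1) := Nat.le_self_pow (by omega) _
  have u2 : n1 ^ Kf ≤ n1 ^ (Kf + 1) := Nat.pow_le_pow_right (by omega) (by omega)
  have u3 : n ^ ((l0 + 3 + 1) * (Kf + 1)) * 8 ≤ n ^ ((l0 + 3 + 1) * (Kf + 1) + 3) := by
    rw [pow_add]; exact Nat.mul_le_mul_left _ (Nat.pow_le_pow_left n2 3)
  generalize (l0 + 3 + 1) * (Kf + 1) + 3 = K0 at *
  have r0 : (4 * n ^ K0) ^ (Kf + Kn + 1) ≤ n ^ ((K0 + 2) * (Kf + Kn + 1)) := by
    rw [pow_mul, pow_add n K0 2, mul_comm]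
    exact Nat.pow_le_pow_left (Nat.mul_le_mul_left _ (Nat.pow_le_pow_left n2 2)) _
  generalize n ^ ((K0 + 2) * (Kf + Kn + 1)) = R at *
  generalize n ^ K0 = V at *
  have r1 : 4 * V ≤ R := (Nat.le_self_pow (by omega) _).trans r0
  have r2 : (n1 + 3 * V) ^ Kf ≤ R := (Nat.pow_le_pow_left (by omega) _).trans
    ((Nat.pow_le_pow_right (by omega) (by omega)).trans r0)
  have r3 : (3 * V) ^ Kn ≤ R := (Nat.pow_le_pow_left (by omega) _).trans
    ((Nat.pow_le_pow_right (by omega) (by omega)).trans r0)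
  have hT := hG.ok_sm.1
  have hc : ∀ k, n ≤ k → Fintype.card C ≤ 2 ^ k := fun k e =>
    hH.2.1.trans (Nat.pow_le_pow_right two_pos e)
  have ng := fun r (a : Fin r → ℕ) => hN L C T (3 * V) A M j r a hl (by omega) (by omega)
    (hc _ (by omega)) (mono _ _ _ _ L C T r3 r3 hG) m0 hMA hj hM
  have g1 := ng 6 ![V, V, V, V, 2 * V, 2 * V] (by norm_num) fun x => by
    fin_cases x <;> simp <;> omega
  have g2 := ng 6 ![V, V, 2 * V, 2 * V, 2 * V, 2 * V] (by norm_num) fun x => by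
    fin_cases x <;> simp <;> omega
  have g3 := ng 8 ![V, V, 2 * V, 2 * V, 3 * V, 3 * V, 3 * V, 3 * V] (by norm_num) fun x => by
    fin_cases x <;> simp <;> omega
  have e1 : (1 / 2 : ℝ) ^ (3 * V) ≤ (1 / 2) ^ n1 := half_anti (by omega)
  have e2 : (1 / 2 : ℝ) ^ (3 * V) ≤ (1 / 2) ^ n1 ^ Kf := half_anti (by omega)
  obtain ⟨S, S1, S2⟩ := Ma.core (E := Fin (Dn n1)) (n := n1) (b := 3 * V) (P := n1 ^ Kf)
    (B := 2 ^ (n1 + 3 * V) ^ Kf) (a3 := 3 * V) hD hC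
    (hc _ (by omega)) (by omega) hj hM hF' (by omega) rfl (by omega) (by omega) (by omega) le_rfl
    (by omega) (mono _ _ _ _ L C T (by omega) (by omega) hG)
    (fun y => T.UQ (A.erase j) M y (2 ^ (3 * V)) ∧
      NG T A M j y ((act T (A \ M)).Mm j y) ((act T (A \ M)).ce j y)
        ![V, V, V, V, 2 * V, 2 * V] (3 * V) (3 * V) ∧
      NG T A M j y ((act T (A \ M)).Mm j y) ((act T (A \ M)).ce j y)
        ![V, V, 2 * V, 2 * V, 2 * V, 2 * V] (3 * V) (3 * V) ∧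
      NG T A M j y ((act T (A \ M)).Mm j y) ((act T (A \ M)).ce j y)
        ![V, V, 2 * V, 2 * V, 3 * V, 3 * V, 3 * V, 3 * V] (3 * V) (3 * V))
    (by
      refine le_trans (hT.pr_mono fun y k => ?_) ((hT.pr_union _ _).trans
        ((add_le_add g1 ((hT.pr_union _ _).trans (add_le_add g2 g3))).trans (by linarith)))
      by_contra x
      simp only [Set.mem_union, Set.mem_ofPred_eq, not_or, not_not] at x
      simp only [Set.mem_ofPred_eq, Mm_rs hT, ce_rs hT] at k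
      exact k ⟨x.1.1, x.1.2, x.2.1.2, x.2.2.2⟩) hR
    fun y X w g w1 w2 w3 => hF L C T D n1 A M j q F y _ _ V (2 * V) (3 * V) (3 * V) X w hT
      ((act_ok hT _).Mm_pd j y) (by omega) (hc _ (by omega)) (by omega) (by omega) m0 hMA hj hM hF'
      q1 (q2.trans (Nat.pow_le_pow_right two_pos (by omega))) (by omega) (by omega) (by omega)
      (by omega) w1 w2 w3 g.1 (le_trans g.2.1 e2) (le_trans g.2.2.1 e2) (le_trans g.2.2.2 e2)
  refine ⟨Dn n1, S, (hDn n1 (by omega)).trans (by omega), fun y c => ?_,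
    (half_anti (by omega)).trans S2⟩
  obtain ⟨γ, X, Λ, a1, a2, a3, a4⟩ := S1 y c
  exact ⟨γ, X, Λ, a1, a2, a3, fun z hz => ⟨(a4 z hz).1, fun d => ((a4 z hz).2 d).mono
    (pow_le_pow_right₀ one_le_two r2)⟩⟩

end Crest.Agent.N49.On
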