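import Crest.Agent.N49.On.G1
import Crest.Agent.N49.Rm.St

/-! Row 49 (helper16): the marginal of a clone shape on a sub-family of the clones. -/

set_option autoImplicit false
set_option linter.unusedSectionVars false
noncomputable section
namespace Crest.Agent.N49.On
open Finset Function Rm Gg G1

variable {L C : Type} [Fintype L] [DecidableEq L] [Fintype C] [DecidableEq C]

/-- dead coordinates do not change the law of the others -/
theorem pr_dead {L' C' : Type} [Fintype L'] [DecidableEq L'] [Fintype C'] [DecidableEq C']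
    {T : TT L C} {T' : TT L' C'} (hs : Summable T'.wt) {f : C → C'} (hf : Injective f)
    (h1 : ∀ (w : C' → ℤ) c, T'.Φ (TT.cf w) (f c) = T.Φ (TT.cf (w ∘ f)) c)
    (h2 : ∀ (w : C' → ℤ) c, c ∉ Set.range f → T'.Φ (TT.cf w) c = w c) (H : Set (C → ℤ)) :
    T'.pr {w | w ∘ f ∈ H} = T.pr H := by
  classical
  let e : C ⊕ {c // c ∉ Set.range f} ≃ C' :=
    (Equiv.sumCongr (Equiv.ofInjective f hf) (Equiv.refl _)).trans (Equiv.sumCompl (· ∈ Set.range f))
  have e1 : ∀ c, e (.inl c) = f c := fun _ => rfl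
  have e2 : ∀ c, e (.inr c) = c.1 := fun _ => rfl
  let E : (C → ℤ) × ({c // c ∉ Set.range f} → ℤ) ≃ (C' → ℤ) :=
    (Equiv.sumArrowEquivProdArrow _ _ ℤ).symm.trans (Equiv.arrowCongr e (Equiv.refl ℤ))
  have E0 : ∀ z c, E z (e c) = Sum.elim z.1 z.2 c := fun z c => by
    simp [E, Equiv.sumArrowEquivProdArrow]
  have E1 : ∀ z, E z ∘ f = z.1 := fun z => funext fun c => E0 z (.inl c)
  set g : ({c // c ∉ Set.range f} → ℤ) → ℝ := fun n => Real.exp (-Real.pi * ∑ c, (n c : ℝ) ^ 2)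
  have hw : ∀ z, T'.wt (E z) = T.wt z.1 * g z.2 := fun z => by
    simp only [TT.wt, g, ← Real.exp_add, ← mul_add]
    rw [← e.sum_comp, Fintype.sum_sum_type]
    simp only [e1, h1, E1]
    congr 3
    refine sum_congr rfl fun c _ => ?_
    rw [e2, h2 _ _ c.2, ← e2, E0]; rfl
  have s0 : Summable fun z : (C → ℤ) × ({c // c ∉ Set.range f} → ℤ) => T.wt z.1 * g z.2 :=
    (E.summable_iff.2 hs).congr hw
  have gp : ∀ n, 0 < g n := fun n => Real.exp_pos _
  have sg : Summable g := by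
    have := (s0.prod_factor 0).mul_left (T.wt 0)⁻¹
    simpa only [inv_mul_cancel_left₀ (TT.wt_pos (T := T) 0).ne'] using this
  have sw : Summable T.wt := by
    have := (s0.prod_symm.prod_factor 0).mul_right (g 0)⁻¹
    simpa only [Prod.swap, mul_inv_cancel_right₀ (gp 0).ne'] using this
  have si : Summable fun y => T.wt y * ind (y ∈ H) :=
    sw.of_nonneg_of_le (fun y => mul_nonneg (TT.wt_pos y).le (ind_u1 _).1)
      fun y => mul_le_of_le_one_right (TT.wt_pos y).le (ind_u1 _).2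
  have Zg : ∑' n, g n ≠ 0 := (sg.tsum_pos (fun n => (gp n).le) 0 (gp 0)).ne'
  rw [pr_ind, show T.pr H = T.pr {y | y ∈ H} from rfl, pr_ind, ← E.tsum_eq, ← E.tsum_eq T'.wt,
    ← mul_div_mul_right (∑' y, T.wt y * ind (y ∈ H)) _ Zg, tsum_mul_tsum_of_summable_norm si.norm sg.norm,
    tsum_mul_tsum_of_summable_norm sw.norm sg.norm]
  simp only [hw, E1]
  congr 1
  exact tsum_congr fun z => by ring

/-- delete a list of letters -/
def dels : List L → TT L C → TT L C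
  | [], T => T
  | ℓ :: l, T => dels l (T.del ℓ)

theorem dels_Φ : ∀ (l : List L) (T : TT L C) (p : C ⊕ L → ℝ) (c : C),
    (dels l T).Φ p c = if ∃ ℓ ∈ l, ℓ ∈ T.ty c then p (.inl c) else T.Φ p c
  | [], T, p, c => by simp [dels]
  | ℓ :: l, T, p, c => by
    rw [dels, dels_Φ l]
    by_cases h : ℓ ∈ T.ty c <;> simp [TT.del, h]

theorem good_os {b g : ℕ} {T : TT L C} (h : Good b g L C T) : T.Ok ∧ T.SM b := by
  cases g
  · exact h
  · exact ⟨h.1, h.2.1⟩

theorem dels_pr (hM : MG) {n b : ℕ} (hc : Fintype.card C ≤ 2 ^ n) (hb : 2 * n + 10 ≤ b)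
    (H : Set (C → ℤ)) : ∀ (l : List L) (T : TT L C) (g : ℕ), l.length ≤ g → Good b g L C T →
      (∀ ℓ ∈ l, ∀ y y', (∀ c, ℓ ∉ T.ty c → y c = y' c) → y ∈ H → y' ∈ H) →
      (dels l T).Ok ∧ |T.pr H - (dels l T).pr H| ≤ 8 * l.length * (1 / 2) ^ b
  | [], T, g, _, h, _ => ⟨(good_os h).1, by simp [dels]⟩
  | ℓ :: l, T, 0, hl, _, _ => absurd hl (by simp)
  | ℓ :: l, T, g + 1, hl, h, hH => by
    obtain ⟨o, e⟩ := dels_pr hM hc hb H l (T.del ℓ) g (by simpa using hl) (h.2.2.2.1 ℓ)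
      fun ℓ' hℓ y y' hy => hH ℓ' (List.mem_cons_of_mem _ hℓ) y y' fun c hc => hy c (by
        by_cases k : ℓ ∈ T.ty c <;> simp [TT.del, k, hc])
    refine ⟨o, ?_⟩
    have := hM L C T n b ℓ H hc hb h.1 h.2.1 (hH ℓ List.mem_cons_self)
    refine (abs_sub_le _ _ _).trans ((add_le_add this e).trans_eq ?_)
    simp only [List.length_cons]; push_cast; ring

variable (T : TT L C) (j : L)

/-- keep the clones `ι x` -/
def res {ρ ρ' : Type} (ι : ρ → ρ') (w : T.CC j ρ' → ℤ) : T.CC j ρ → ℤ :=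
  w ∘ Sum.map id (Prod.map id ι)

theorem card_CC {n r : ℕ} (hc : Fintype.card C ≤ 2 ^ n) (hr : r ≤ 8) :
    Fintype.card (T.CC j (Fin r)) ≤ 2 ^ (n + 4) := by
  have : Fintype.card (T.Bl j) ≤ Fintype.card C := Fintype.card_subtype_le _
  rw [Fintype.card_sum, Fintype.card_prod, Fintype.card_fin, pow_add]
  nlinarith

theorem px_res {ρ ρ' : Type} (ι : ρ → ρ') (pt : ρ' → Bool) (x : ρ) (w : T.CC j ρ' → ℤ) :
    T.px j pt (ι x) (TT.cf w) = T.px j (pt ∘ ι) x (TT.cf (res T j ι w)) := by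
  funext v
  rcases v with v | v <;> simp only [TT.px] <;> split_ifs <;> first | rfl | simp_all

/-- relabelling of clones -/
theorem pr_perm (hT : T.Ok) {ρ ρ' : Type} [Fintype ρ] [DecidableEq ρ] [Fintype ρ'] [DecidableEq ρ']
    {ι : ρ → ρ'} (hι : Bijective ι) (pt : ρ' → Bool) (a : ρ' → ℕ) (H : Set (T.CC j ρ → ℤ)) :
    (T.cl j pt a).pr {w | res T j ι w ∈ H} = (T.cl j (pt ∘ ι) (a ∘ ι)).pr H := by
  refine pr_dead (hT.cl j pt a).summable
    (Sum.map_injective.2 ⟨injective_id, injective_id.prodMap hι.1⟩) (fun w c => ?_)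
    (fun w c hc => absurd ((Sum.map_surjective.2 ⟨surjective_id, surjective_id.prodMap hι.2⟩) c) hc) H
  rcases c with c | ⟨c, x⟩
  · rfl
  · show 2 ^ a (ι x) * T.Φ (T.px j pt (ι x) _) _ = 2 ^ a (ι x) * T.Φ (T.px j (pt ∘ ι) x _) _
    rw [px_res]; rfl

/-- **marginal** on the clones `ι x` -/
theorem marg (hM : MG) {n b g r : ℕ} (hc : Fintype.card C ≤ 2 ^ n) (hb : 2 * n + 18 ≤ b) (hr : r ≤ 8)
    (hg : r + 1 ≤ g) (hG : Good b g L C T) {ρ : Type} [Fintype ρ] [DecidableEq ρ] {ι : ρ → Fin r}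
    (hι : Injective ι) (pt : Fin r → Bool) (a : Fin r → ℕ) (ha : ∀ x, a x ≤ b)
    (H : Set (T.CC j ρ → ℤ)) :
    |(T.cl j pt a).pr {w | res T j ι w ∈ H} - (T.cl j (pt ∘ ι) (a ∘ ι)).pr H| ≤ 64 * (1 / 2) ^ b := by
  classical
  obtain ⟨g, rfl⟩ : ∃ g', g = g' + 1 := ⟨g - 1, by omega⟩
  set l : List (L ⊕ Fin r) := ((univ.filter fun x => x ∉ Set.range ι).toList).map .inr with hl
  have ll : l.length ≤ r := by
    rw [hl, List.length_map, length_toList]
    exact (card_le_univ _).trans_eq (Fintype.card_fin r)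
  have ml : ∀ ℓ, ℓ ∈ l ↔ ∃ x, x ∉ Set.range ι ∧ .inr x = ℓ := fun ℓ => by simp [hl]
  obtain ⟨o, e⟩ := dels_pr hM (card_CC T j hc hr) (by omega) {w | res T j ι w ∈ H} l (T.cl j pt a) g
    (by omega) (hG.2.2.1 j r pt a hr ha) fun ℓ hℓ y y' hy hH => by
      obtain ⟨x, hx, rfl⟩ := (ml ℓ).1 hℓ
      have : res T j ι y' = res T j ι y := funext fun c => (hy _ (by
        rcases c with c | ⟨c, u⟩
        · simp
        · have : x ≠ ι u := fun e => hx ⟨u, e.symm⟩
          simp [this])).symm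
      show res T j ι y' ∈ H
      rwa [this]
  have d : (dels l (T.cl j pt a)).pr {w | res T j ι w ∈ H} = (T.cl j (pt ∘ ι) (a ∘ ι)).pr H := by
    refine pr_dead o.summable (Sum.map_injective.2 ⟨injective_id, injective_id.prodMap hι⟩)
      (fun w c => ?_) (fun w c hc => ?_) H
    · rw [dels_Φ, if_neg]
      · rcases c with c | ⟨c, x⟩
        · rfl
        · show 2 ^ a (ι x) * T.Φ (T.px j pt (ι x) _) _ = 2 ^ a (ι x) * T.Φ (T.px j (pt ∘ ι) x _) _
          rw [px_res]; rfl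
      · rintro ⟨ℓ, hℓ, k⟩
        obtain ⟨x, hx, rfl⟩ := (ml ℓ).1 hℓ
        rcases c with c | ⟨c, u⟩
        · simp at k
        · exact hx ⟨u, by simpa [eq_comm] using k⟩
    · rw [dels_Φ, if_pos]
      · rfl
      · rcases c with c | ⟨c, x⟩
        · exact absurd ⟨.inl c, rfl⟩ hc
        · exact ⟨.inr x, (ml _).2 ⟨x, fun ⟨u, hu⟩ => hc ⟨.inr (c, u), by simp [hu]⟩, rfl⟩, by simp⟩
  rw [← d]
  refine e.trans ?_
  have : (l.length : ℝ) ≤ 8 := by exact_mod_cast ll.trans hr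
  gcongr
  linarith

end Crest.Agent.N49.On
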