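import Crest.Agent.N49.On.Ms
import Crest.Agent.N49.On.Mom
import Crest.Agent.N49.Lo.Amhw

/-! # Row 49 (helper12): kit for the mass part of `ONE` -/

set_option autoImplicit false
set_option linter.unusedSectionVars false
noncomputable section
open Finset MeasureTheory

namespace Crest.Agent.N49.On.Ma
open Rm Rm.TT Po

variable {L C : Type} [Fintype L] [DecidableEq L] [Fintype C] [DecidableEq C] {T : TT L C}
  {Z A M : Finset L} {j : L}

theorem act_tv {v : C ⊕ L} (h : T.tv v ⊆ Z) : (act T Z).tv v = T.tv v := by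
  rcases v with c | ℓ
  exacts [if_pos h, rfl]

theorem act_sub (v : C ⊕ L) : (act T Z).tv v ⊆ T.tv v := by
  rcases v with c | ℓ
  · change (if _ then _ else _) ⊆ T.ty c
    split_ifs
    exacts [Subset.rfl, empty_subset _]
  · exact Subset.rfl

theorem act_ok (hT : T.Ok) (Z : Finset L) : (act T Z).Ok := by
  have dead : ∀ c p, (act T Z).ty c = ∅ → (act T Z).Φ p c = p (.inl c) := fun c p e => by
    by_cases k : T.ty c ⊆ Z
    · exact (if_pos k).trans (hT.dead c p ((if_pos k).symm.trans e))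
    · exact if_neg k
  refine ⟨fun c n => ?_, dead, fun S p p' e1 e2 e3 => ?_⟩
  · have k : T.ty c ⊆ Z := by
      by_contra k
      exact n.ne_empty (if_neg k)
    have e : (act T Z).ty c = T.ty c := if_pos k
    have e' : (fun p => (act T Z).Φ p c) = fun p => T.Φ p c := funext fun _ => if_pos k
    rw [e] at n
    rw [e, e']
    refine ⟨fun p p' a => (hT.dat c n).1 p p' fun v s m => a v ((act_sub v).trans s)
      (act_tv (s.trans k) ▸ m), fun ℓ l a b p p' x => ?_⟩
    refine Eq.trans ((hT.dat c n).1 _ _ fun v s _ => ?_)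
      ((hT.dat c n).2 ℓ l a b p p' fun v y => x v fun z => y (act_sub v z))
    simp only [cmb, act_tv (s.trans k)]
  · by_cases s : S.Nonempty ∧ S ⊆ Z
    · refine hT.inj S p p' e1 (fun c n => e2 c fun e => ?_) fun c e => ?_
      · by_cases k : T.ty c ⊆ Z
        exacts [n ((if_pos k).symm.trans e), s.1.ne_empty (e.symm.trans (if_neg k))]
      · have k : T.ty c ⊆ Z := e ▸ s.2
        exact (if_pos k).symm.trans ((e3 c ((if_pos k).trans e)).trans (if_pos k))
    · funext v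
      rcases v with c | ℓ
      · by_cases e : (act T Z).ty c = S
        · have : (act T Z).ty c = ∅ := by
            by_contra n
            have k : T.ty c ⊆ Z := by
              by_contra k
              exact n (if_neg k)
            exact s ⟨e ▸ nonempty_iff_ne_empty.2 n, e ▸ (if_pos k).trans_subset k⟩
          rw [← dead c p this, ← dead c p' this, e3 c e]
        · exact e2 c e
      · exact e1 ℓ

theorem phi_rs (hT : T.Ok) (y : C → ℤ) (n : (act T Z).Bl j → ℝ) (e : ℝ) (c : (act T Z).Bl j) :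
    (act T Z).Φ ((act T Z).jr j (cf (rs T Z j y)) n e) c.1 =
      (act T Z).Φ ((act T Z).jr j (cf y) n e) c.1 := by
  refine ((act_ok hT Z).dat c.1 ⟨j, c.2⟩).1 _ _ fun v s m => ?_
  by_cases k : j ∈ (act T Z).tv v
  · exact jr_in _ _ _ _ k
  · rw [jr_out _ _ _ k, jr_out _ _ _ k]
    rcases v with d | ℓ
    · have z : T.ty d ⊆ Z := by
        by_contra z
        exact m.ne_empty (if_neg z)
      have e : (act T Z).ty d = T.ty d := if_pos z
      exact congrArg Int.cast (if_pos ⟨subset_erase.2 ⟨z, e ▸ k⟩, e ▸ m⟩)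
    · rfl

theorem Nm_rs (hT : T.Ok) (y : C → ℤ) :
    (act T Z).Nm j (cf (rs T Z j y)) = (act T Z).Nm j (cf y) := by
  ext c c'; exact phi_rs hT y _ _ c
theorem Mm_rs (hT : T.Ok) (y : C → ℤ) : (act T Z).Mm j (rs T Z j y) = (act T Z).Mm j y := by
  rw [Mm, Mm, Nm_rs hT]
theorem ce_rs (hT : T.Ok) (y : C → ℤ) : (act T Z).ce j (rs T Z j y) = (act T Z).ce j y := by
  rw [ce, ce, Nm_rs hT]
  congr 2
  exact funext fun c => phi_rs hT y _ _ c

/-- a clone configuration agrees with the configuration rebuilt from its active part -/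
theorem agr_cw {r : ℕ} (pt : Fin r → Bool) (a : Fin r → ℕ) (hj : j ∉ M) (hA : j ∈ A)
    (w : T.CC j (Fin r) → ℤ) : (T.cl j pt a).Agr (upA A (Fin r)) (M.image .inl) w
      (cw T (A \ M) j (rs T (A \ M) j fun c => w (.inl c)) (aw T (A \ M) j w)) := by
  rintro (c | ⟨c, x⟩) s n d
  · have z : T.ty c ⊆ A \ M := fun ℓ l => mem_sdiff.2 ⟨inl_upA.1 (s (mem_image_of_mem _ l)),
      fun m => disjoint_left.1 d (mem_image_of_mem _ l) (mem_image_of_mem _ m)⟩
    by_cases k : j ∈ T.ty c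
    · simp [cw, gl, jn, aw, act_mem.2 ⟨k, z⟩]
    · refine Eq.symm ((jn_out _ _ fun m => k (act_mem.1 m).1).trans ?_)
      exact if_pos ⟨subset_erase.2 ⟨z, k⟩, image_nonempty.1 n⟩
  · have z : T.ty c.1 ⊆ A \ M := fun ℓ l => by
      by_cases e : ℓ = j
      · exact e ▸ mem_sdiff.2 ⟨hA, hj⟩
      · have m : (Sum.inl ℓ : L ⊕ Fin r) ∈ (T.cl j pt a).ty (.inr (c, x)) :=
          mem_insert_of_mem (mem_image_of_mem _ (mem_erase.2 ⟨e, l⟩))
        exact mem_sdiff.2 ⟨inl_upA.1 (s m), fun k => disjoint_left.1 d m (mem_image_of_mem _ k)⟩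
    simp [cw, gl, jn, aw, act_mem.2 ⟨c.2, z⟩]

theorem rs_pos {r : ℕ} (α : Fin r → ℤ) (w : T.CC j (Fin r) → ℤ) :
    rs T Z j (T.posZ j 1 α w) = rs T Z j fun c => w (.inl c) :=
  rs_congr fun _ s _ => dif_neg fun k => notMem_erase j Z (s k)

theorem bl_pos {r : ℕ} (α : Fin r → ℤ) (w : T.CC j (Fin r) → ℤ) :
    (act T Z).bl j (T.posZ j 1 α w) = aw T Z j w 0 + ∑ x, α x • aw T Z j w x.succ := by
  funext c
  simp [bl, posZ, aw, (act_mem.1 c.2).1]

/-- conditional probabilities -/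
theorem cond {Ω K : Type} [Countable Ω] [MeasurableSpace Ω] [DiscreteMeasurableSpace Ω]
    [Countable K] [MeasurableSpace K] [DiscreteMeasurableSpace K] (μ : Measure Ω)
    [IsProbabilityMeasure μ] (κ : Ω → K) (P : Set Ω) :
    ∃ h : K → ℝ, (∀ k, 0 ≤ h k ∧ h k ≤ 1) ∧ ∀ B : Set K,
      μ.real (P ∩ κ ⁻¹' B) = ∫ w, B.indicator h (κ w) ∂μ := by
  have m : Measurable κ := .of_discrete
  let h : K → ℝ := fun k => μ.real (P ∩ κ ⁻¹' {k}) / μ.real (κ ⁻¹' {k})
  have h01 : ∀ k, 0 ≤ h k ∧ h k ≤ 1 := fun k => ⟨div_nonneg measureReal_nonneg measureReal_nonneg,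
    div_le_one_of_le₀ (measureReal_mono Set.inter_subset_right) measureReal_nonneg⟩
  refine ⟨h, h01, fun B => ?_⟩
  have := Measure.isProbabilityMeasure_map (μ := μ) m.aemeasurable
  have i : ∀ k, 0 ≤ B.indicator h k ∧ B.indicator h k ≤ 1 := fun k => by
    by_cases e : k ∈ B <;> simp [e, h01]
  have i2 : Integrable (B.indicator (1 : K → ℝ)) ((μ.restrict P).map κ) :=
    (integrable_const 1).indicator .of_discrete
  rw [← integral_map m.aemeasurable Measurable.of_discrete.aestronglyMeasurable,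
    integral_countable (Lo.int_u i), Set.inter_comm, ← measureReal_restrict_apply .of_discrete,
    ← map_measureReal_apply m .of_discrete, ← integral_indicator_one .of_discrete,
    integral_countable i2]
  refine tsum_congr fun k => ?_
  rw [map_measureReal_apply m .of_discrete, map_measureReal_apply m .of_discrete,
    measureReal_restrict_apply .of_discrete, Set.inter_comm]
  by_cases e : k ∈ B
  · simp only [Set.indicator_of_mem e, Pi.one_apply, smul_eq_mul, mul_one, h]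
    rcases eq_or_ne (μ.real (κ ⁻¹' {k})) 0 with z | z
    · rw [z, zero_mul]
      exact le_antisymm ((measureReal_mono Set.inter_subset_right).trans_eq z) measureReal_nonneg
    · field_simp
  · simp [e]

section
variable {d : Type} [Fintype d] [DecidableEq d] {Q : Matrix d d ℝ}

theorem lw_prob (hQ : Q.PosDef) (θ : d → ℝ) {r : ℕ} (a : Fin r → ℕ) :
    IsProbabilityMeasure (lw Q θ a) := by
  have : ∀ i : Fin (r + 1), IsProbabilityMeasure ((Fin.cons (gm Q θ) fun x =>
      gm (((4 : ℝ) ^ a x) • Q) 0 : Fin (r + 1) → Measure (d → ℤ)) i) := fun i => by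
    refine Fin.cases (gm_prob hQ θ) (fun x => ?_) i
    exact gm_prob (hQ.smul (by positivity)) 0
  unfold lw
  infer_instance

theorem lw_two (hQ : Q.PosDef) (θ : d → ℝ) (a : ℕ) {f : (d → ℤ) → (d → ℤ) → ℝ}
    (hf : ∀ c x, 0 ≤ f c x ∧ f c x ≤ 1) : ∫ ω, f (ω 0) (ω 1) ∂lw Q θ (fun _ : Fin 1 => a) =
      ∫ c, ∫ x, f c x ∂gm (((4 : ℝ) ^ a) • Q) 0 ∂gm Q θ := by
  have p1 := gm_prob hQ θ
  have p2 := gm_prob (hQ.smul (show (0 : ℝ) < 4 ^ a by positivity)) 0
  have : ∀ i : Fin 2, SigmaFinite ((Fin.cons (gm Q θ) fun _ =>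
      gm (((4 : ℝ) ^ a) • Q) 0 : Fin 2 → Measure (d → ℤ)) i) := fun i => by
    fin_cases i <;> simp <;> infer_instance
  have e := (measurePreserving_piFinTwo (α := fun _ => d → ℤ) (Fin.cons (gm Q θ) fun _ =>
    gm (((4 : ℝ) ^ a) • Q) 0)).integral_comp' (fun z => f z.1 z.2)
  exact e.trans (integral_prod _ (Lo.int_u (ν := (gm Q θ).prod (gm (((4 : ℝ) ^ a) • Q) 0))
    fun z => hf z.1 z.2))

/-- the points with small averaged weight carry little mass -/
theorem low (hQ : Q.PosDef) (θ : d → ℝ) (a : ℕ) {h : (d → ℤ) → (d → ℤ) → ℝ}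
    (hh : ∀ c x, 0 ≤ h c x ∧ h c x ≤ 1) {τ : ℝ} (τ0 : 0 ≤ τ) :
    ∫ c, ∫ x, (if τ ≤ ∫ u, h (c + x - u) u ∂gm (((4 : ℝ) ^ a) • Q) 0 then 0 else h c x)
      ∂gm (((4 : ℝ) ^ a) • Q) 0 ∂gm Q θ ≤ τ + 4 * ((Fintype.card d + 2) / 2 ^ a) := by
  have p1 := gm_prob hQ θ
  have p2 := gm_prob (hQ.smul (show (0 : ℝ) < 4 ^ a by positivity)) 0
  have hF : ∀ t x, 0 ≤ (if τ ≤ ∫ u, h (t - u) u ∂gm (((4 : ℝ) ^ a) • Q) 0 then 0 else h (t - x) x) ∧
      (if τ ≤ ∫ u, h (t - u) u ∂gm (((4 : ℝ) ^ a) • Q) 0 then 0 else h (t - x) x) ≤ 1 :=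
    fun t x => by split_ifs; exacts [⟨le_rfl, zero_le_one⟩, hh _ _]
  have e : ∀ x : d → ℤ, ((4 : NNReal) • nq hQ) (La.ci x) = 4 * nq hQ (La.ci x) := fun x => by
    simp [NNReal.smul_def]
  have m := (abs_le.1 (Lo.mixw (ν := gm (((4 : ℝ) ^ a) • Q) 0) (gm_qi hQ θ)
    (by simpa only [e] using (integrable_nq4 hQ a).const_mul 4) hF)).2
  simp only [add_sub_cancel_right, e, integral_const_mul] at m
  have l : ∫ t, ∫ x, (if τ ≤ ∫ u, h (t - u) u ∂gm (((4 : ℝ) ^ a) • Q) 0 then 0 else h (t - x) x)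
      ∂gm (((4 : ℝ) ^ a) • Q) 0 ∂gm Q θ ≤ τ := by
    refine (integral_mono (Lo.int_u fun t => Lo.int_u' (hF t)) (integrable_const τ)
      fun t => ?_).trans_eq (by simp)
    by_cases k : τ ≤ ∫ u, h (t - u) u ∂gm (((4 : ℝ) ^ a) • Q) 0
    · simpa [k] using τ0
    · simpa [k] using (not_le.1 k).le
  linarith [int_nq hQ a]
end

end Crest.Agent.N49.On.Ma
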