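import Crest.Agent.N49.On.Ms
import Crest.Agent.N49.On.Mk
import Crest.Agent.N49.On.Mg
import Crest.Agent.N49.On.Trn
import Crest.Agent.N49.Rm.Mono

/-! # Row 49 (helper82): most rests are generic -/

set_option autoImplicit false
noncomputable section
open Finset MeasureTheory

namespace Crest.Agent.N49.On
open Rm TT Po

theorem ngm (dis : DIS) {l0 : ℕ} (uqs : UQS (l0 + 8)) : NGM l0 := by
  obtain ⟨K, hK⟩ := uqs
  refine ⟨6 + 4 * K, fun L C _ _ _ _ T n A M j r a hl hL hn hC hG hM hMA hj hjM hr ha => ?_⟩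
  obtain ⟨N, hN⟩ : ∃ N, N = (n ^ 4) ^ K := ⟨_, rfl⟩
  have N1 : 1 ≤ N := hN ▸ Nat.one_le_pow _ _ (by positivity)
  have n3 : 8 ≤ n ^ 3 := Nat.pow_le_pow_left hn 3
  have n5 : 32 ≤ n ^ 5 := Nat.pow_le_pow_left hn 5
  have k1 : ∀ x, x ≤ 8 * n → x ^ K ≤ N := fun x e => hN ▸ Nat.pow_le_pow_left
    (e.trans (by rw [pow_succ]; exact Nat.mul_le_mul_right _ n3)) K
  obtain ⟨g, hg⟩ : ∃ g, n ^ (6 + 4 * K) = g + 1 := ⟨_, (Nat.succ_pred_eq_of_pos (by positivity)).symm⟩
  have k2 : 32 * n * N ≤ g + 1 := by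
    rw [← hg, pow_add, pow_mul, ← hN, pow_succ]
    exact Nat.mul_le_mul_right _ (Nat.mul_le_mul_right _ n5)
  have k3 : N ≤ g := by nlinarith
  have k4 : 32 * n ≤ g + 1 := by nlinarith
  rw [hg] at hG
  have hT : T.Ok := hG.1
  have hc := hT.cl j (fun _ : Fin r => false) a
  have a1 := hK L C T n (n + 1) M (by omega) hn hC
    (mono _ _ _ _ _ _ _ ((k1 _ (by omega)).trans (by omega)) ((k1 _ (by omega)).trans (by omega))
      hG) hM
  have a2 := hK _ _ (T.cl j (fun _ : Fin r => false) a) (n + 4) (2 * n + 2) (M.image Sum.inl)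
    (by simp; omega) (by omega) (card_CC T j hC hr)
    (mono _ _ _ _ _ _ _ ((k1 _ (by omega)).trans (by omega)) ((k1 _ (by omega)).trans k3)
      (hG.2.2.1 j r _ a hr fun x => (ha x).trans (by omega))) (hM.image _)
  obtain ⟨S, hS⟩ : ∃ S : (C → ℤ) → Set (Fin (r + 1) → Lt T (A \ M) j), ∀ y, S y =
    {ω | ¬ (T.cl j (fun _ => false) a).UQ (upA A (Fin r)) (M.image Sum.inl)
      (cw T (A \ M) j (rs T (A \ M) j y) ω) (2 ^ n)} := ⟨_, fun _ => rfl⟩
  have i01 : ∀ y ω, (0 : ℝ) ≤ (S y).indicator 1 ω ∧ (S y).indicator 1 ω ≤ (1 : ℝ) :=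
    fun y ω => by by_cases e : ω ∈ S y <;> simp [e]
  have a3 := dis L C T n (g + 1) (2 * n + 2) j (A \ M) r a (fun y => (S y).indicator 1) hC hL
    (mem_sdiff.2 ⟨hj, hjM⟩) hr (fun x => (ha x).trans (by omega)) (by omega)
    (mono _ _ _ _ _ _ _ le_rfl (by omega) hG) i01 fun y y' e => by rw [hS, hS, rs_congr e]
  have a4 : ((T.cl j (fun _ => false) a).Ex fun w => (S fun c => w (.inl c)).indicator 1
      (aw T (A \ M) j w)) ≤ (1 / 2) ^ (2 * n + 2) := by
    refine le_trans ?_ a2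
    rw [pr_eq]
    refine hc.Ex_mono (B := 1) (fun w => (abs_of_nonneg (i01 _ _).1).trans_le (i01 _ _).2)
      (abs_ind _) fun w => ?_
    by_cases e : aw T (A \ M) j w ∈ S fun c => w (.inl c)
    · rw [Set.indicator_of_mem e, Set.indicator_of_mem]
      · rfl
      rw [hS] at e
      exact fun u => e ((agr_aw hj hjM _ a w (agr_rs _)).uq hc
        ((u.monoA (subset_univ _)).mono (pow_le_pow_right₀ one_le_two (by omega))))
    · rw [Set.indicator_of_notMem e]
      exact Set.indicator_nonneg (fun _ _ => zero_le_one) _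
  have pb := fun y => Ma.lw_prob ((act_ok hT (A \ M)).Mm_pd j y) ((act T (A \ M)).ce j y) a
  simp only [integral_indicator_one MeasurableSet.of_discrete] at a3
  have a5 := hT.markov (g := fun y => (lw ((act T (A \ M)).Mm j y) ((act T (A \ M)).ce j y)
    a).real (S y)) (B := 1) (fun y => have := pb y; ⟨measureReal_nonneg, measureReal_le_one⟩)
    (t := (1 / 2) ^ n) (by positivity)
  have a6 : (1 / 2 : ℝ) ^ (2 * n + 2) + (1 / 2) ^ (2 * n + 2) = (1 / 2) ^ n * (1 / 2) ^ (n + 1) := by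
    ring
  have a7 := le_of_mul_le_mul_left (a5.trans (show _ ≤ (1 / 2 : ℝ) ^ n * (1 / 2) ^ (n + 1) by
    linarith [(abs_le.1 a3).1])) (by positivity)
  refine (hT.pr_mono fun y hy => ?_).trans ((hT.pr_union _ _).trans
    ((add_le_add a1 a7).trans_eq (by ring)))
  rcases not_and_or.1 hy with e | e
  · exact .inl fun u => e ((uq_rs hT y _).1
      ((u.monoA (subset_univ _)).mono (pow_le_pow_right₀ one_le_two (by omega))))
  · refine .inr ?_
    rw [Set.mem_setOf_eq, hS]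
    exact (not_le.1 e).le

end Crest.Agent.N49.On
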