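import Crest.Agent.N49.On.Fib
import Crest.Agent.N49.On.Cyc
import Crest.Agent.N49.On.Dis
import Crest.Agent.N49.On.Mass
import Crest.Agent.N49.On.Ngm
import Crest.Agent.N49.On.Glue

/-! # Row 49 (helper53): `ONE` from the laws -/

namespace Crest.Agent.N49.On
open Rm

theorem onex (mg : MG) (cl : CLM) (ct : CTRX) (uq : ∀ l, UQS l) (l0 : ℕ) : ONEX l0 :=
  one_of (mass (dis mg) (fib cyc) cl (ngm (dis mg) (uq _))) ct

end Crest.Agent.N49.On
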