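import Crest.Agent.N49.On.Lb

/-! # Row 49 (helper53): identities along generic cycles, labels are integer forms -/

set_option autoImplicit false
set_option linter.unusedSectionVars false
noncomputable section
open Finset

namespace Crest.Agent.N49.On
open Rm Rm.TT

variable {L C : Type} [Fintype L] [DecidableEq L] [Fintype C] [DecidableEq C]
  {T : TT L C} {A M : Finset L} {j : L} {y : C → ℤ} {ρ σ : Type}
  {k k' : (C → ℝ) → (ρ → C → ℝ) → ℝ}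

theorem JF.zero : JF T A M j fun _ (_ : ρ → C → ℝ) => 0 where
  dep _ _ _ _ _ _ := rfl
  lin _ _ _ _ _ _ _ _ _ _ := by simp
  int _ _ _ _ := ⟨0, by simp⟩

theorem JF.add (h : JF T A M j k) (h' : JF T A M j k') : JF T A M j fun n ξ => k n ξ + k' n ξ where
  dep n n' ξ ξ' a b := by rw [h.dep n n' ξ ξ' a b, h'.dep n n' ξ ξ' a b]
  lin m hm a b n n' ξ ξ' c d := by
    rw [h.lin m hm a b n n' ξ ξ' c d, h'.lin m hm a b n n' ξ ξ' c d]; ring
  int n ξ a b := let ⟨u, hu⟩ := h.int n ξ a b; let ⟨v, hv⟩ := h'.int n ξ a b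
    ⟨u + v, by rw [hu, hv, Int.cast_add]⟩

theorem JF.sub (h : JF T A M j k) (h' : JF T A M j k') : JF T A M j fun n ξ => k n ξ - k' n ξ where
  dep n n' ξ ξ' a b := by rw [h.dep n n' ξ ξ' a b, h'.dep n n' ξ ξ' a b]
  lin m hm a b n n' ξ ξ' c d := by
    rw [h.lin m hm a b n n' ξ ξ' c d, h'.lin m hm a b n n' ξ ξ' c d]; ring
  int n ξ a b := let ⟨u, hu⟩ := h.int n ξ a b; let ⟨v, hv⟩ := h'.int n ξ a b
    ⟨u - v, by rw [hu, hv, Int.cast_sub]⟩

theorem JF.comp [Fintype σ] (h : JF T A M j k) {Ψ : (σ → C → ℝ) → ρ → C → ℝ} (g : ρ → σ → C → ℤ)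
    (e : ∀ ζ o c, Ψ ζ o c = ∑ o', g o o' c * ζ o' c) : JF T A M j fun n ζ => k n (Ψ ζ) where
  dep n n' ξ ξ' a b := h.dep _ _ _ _ a fun o c z => by simp only [e, b _ c z]
  lin m hm a b n n' ξ ξ' c d := by
    rw [← h.lin m hm a b n n' (Ψ ξ) (Ψ ξ') c fun o c z => by simp only [e, d _ c z]]
    congr 1
    funext o c
    simp only [e, cm]
    split_ifs
    · simp only [mul_sum, ← sum_add_distrib]; exact sum_congr rfl fun _ _ => by ring
    · rfl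
  int n ξ a b := h.int _ _ a fun o c => by
    choose z hz using b
    exact ⟨∑ o', g o o' c * z o' c, by simp [e, hz]⟩

theorem JF.ap {r s : ℕ} {k : (C → ℝ) → (Fin r → C → ℝ) → ℝ} (h : JF T A M j k)
    (g : Fin r → Fin s → ℤ) : JF T A M j fun n ζ => k n (ap g ζ) :=
  h.comp (fun o o' _ => g o o') fun ζ o c => by simp [On.ap]

/-- matrices that map one clone shape to another -/
structure Mo {r s : ℕ} (g : Fin (r + 1) → Fin (s + 1) → ℤ) (a : Fin r → ℕ) (a' : Fin s → ℕ) :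
    Prop where
  p0 : g 0 0 = 1
  p1 : ∀ x : Fin r, g x.succ 0 = 0
  sm : ∀ o, ∑ o', |g o o'| ≤ 3
  wd : ∀ (x : Fin r) (x' : Fin s), g x.succ x'.succ ≠ 0 → a x ≤ a' x'

theorem Bd.ap (hT : T.Ok) (hj : j ∉ M) {r s : ℕ} {g : Fin (r + 1) → Fin (s + 1) → ℤ}
    {a : Fin r → ℕ} {a' : Fin s → ℕ} (hg : Mo g a a') {ω : Fin (s + 1) → Lt T (A \ M) j} {B : ℝ}
    {f : (C → ℝ) → (Fin (r + 1) → C → ℝ) → ℝ} (h : Bd T A M j y (ap g ω) a 3 B f) :
    Bd T A M j y ω a' 1 B fun n ζ => f n (ap g ζ) := fun n ζ h1 h2 h3 => by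
  have key : ∀ (o : Fin (r + 1)) (w : ℕ) (e : ℤ) c, Xc T A M j c → g o 0 = e → (g o 0 ≠ 0 → w = 0) →
      (∀ x : Fin s, g o x.succ ≠ 0 → w ≤ a' x) →
      |2 ^ w * T.Φ (pt T A M j y e (On.ap g ω o) n (On.ap g ζ o)) c| ≤ 3 := fun o w e c z e0 e1 e2 => by
    have := phi_sum (y := y) hT hj z (g o) (Fin.cons 1 0) ω n ζ
    rw [Fin.sum_univ_succ] at this
    simp only [Fin.cons_zero, Fin.cons_succ, Pi.zero_apply, mul_zero, sum_const_zero, add_zero,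
      mul_one, e0] at this
    rw [On.ap, On.ap, this, mul_sum]
    refine (abs_sum_le_sum_abs _ _).trans (le_trans (sum_le_sum fun o' _ => ?_)
      (by exact_mod_cast hg.sm o : ∑ o', |(g o o' : ℝ)| ≤ 3))
    rw [mul_left_comm, abs_mul]
    by_cases z0 : g o o' = 0
    · simp [z0]
    refine mul_le_of_le_one_right (abs_nonneg _) ?_
    induction o' using Fin.cases with
    | zero => rw [e1 z0, pow_zero, one_mul]; exact h2 c z
    | succ x =>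
      refine le_trans ?_ (h3 x c z)
      rw [abs_mul, abs_mul, abs_of_pos (by positivity), abs_of_pos (a := (2 : ℝ) ^ a' x) (by positivity)]
      exact mul_le_mul_of_nonneg_right (pow_le_pow_right₀ one_le_two (e2 x z0)) (abs_nonneg _)
  refine h n _ (fun c z => (h1 c z).trans (by norm_num)) (fun c z => ?_) fun x c z =>
    key x.succ (a x) 0 c z (hg.p1 x) (fun e => absurd (hg.p1 x) e) (hg.wd x)
  simpa using key 0 0 1 c z hg.p0 (fun _ => rfl) fun _ _ => Nat.zero_le _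

section mo
variable {a1 a2 a3 : ℕ}

theorem mo_A (i k : Fin 2) : Mo (gA i k) ![a1, a1, a2, a2] ![a1, a1, a1, a1, a2, a2] := by
  refine ⟨by revert i k; decide, by revert i k; decide, by revert i k; decide, fun x x' => ?_⟩
  fin_cases i <;> fin_cases k <;> fin_cases x <;> fin_cases x' <;> simp [gA, er]

theorem mo_B (i k : Fin 2) : Mo (gB i k) ![a1, a1, a2, a2] ![a1, a1, a2, a2, a2, a2] := by
  refine ⟨by revert i k; decide, by revert i k; decide, by revert i k; decide, fun x x' => ?_⟩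
  fin_cases i <;> fin_cases k <;> fin_cases x <;> fin_cases x' <;> simp [gB, er]

theorem mo_C (h : a1 ≤ a2) (i k : Fin 2) :
    Mo (gC i k) ![a1, a1, a2, a2] ![a1, a1, a2, a2, a2, a2] := by
  refine ⟨by revert i k; decide, by revert i k; decide, by revert i k; decide, fun x x' => ?_⟩
  fin_cases i <;> fin_cases k <;> fin_cases x <;> fin_cases x' <;> simp [gC, er, h]

theorem mo_I (h : a1 ≤ a2) (h' : a2 ≤ a3) (i : Fin 2) :
    Mo (gI i) ![a1, a1, a2, a2] ![a1, a1, a2, a2, a3, a3, a3, a3] := by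
  refine ⟨by revert i; decide, by revert i; decide, by revert i; decide, fun x x' => ?_⟩
  fin_cases i <;> fin_cases x <;> fin_cases x' <;> simp [gI, er, h', h.trans h']
end mo

section cr
variable {G : Type*} [AddCommGroup G]
theorem cr_I (i : Fin 2) (ω : Fin 9 → G) (l : Fin 4) : cr l (ap (gI i) ω) =
    ![ω 0 + ω 1 + ω 3, ω 0 + ω 1 + ω 4, ω 0 + ω 2 + ω 3, ω 0 + ω 2 + ω 4] l := by
  fin_cases l <;> simp [cr0, cr1, cr2, cr3, ap_gI] <;> abel
theorem cr_C (i k : Fin 2) (ω : Fin 7 → G) (l : Fin 4) : cr l (ap (gC i k) ω) =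
    ![ω 0 + ω 1 + ω (![3, 4] i), ω 0 + ω 1 + ω (![5, 6] k), ω 0 + ω 2 - ω (![5, 6] k),
      ω 0 + ω 2 - ω (![3, 4] i)] l := by
  fin_cases l <;> simp [cr0, cr1, cr2, cr3, ap_gC] <;> abel
end cr

variable {F : Fin 4 → Fm L C}

/-- the data cancel along the cycle -/
def Cn (T : TT L C) (A M : Finset L) (j : L) (y : C → ℤ) (F : Fin 4 → Fm L C)
    (g : Fin 2 → Fin 2 → Fin 5 → Fin 7 → ℤ) : Prop := ∀ (ω : Fin 7 → Lt T (A \ M) j) n ζ,
  alt T A M j y F (ap (g 0 0) ω) n (ap (g 0 0) ζ) - alt T A M j y F (ap (g 0 1) ω) n (ap (g 0 1) ζ) -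
    alt T A M j y F (ap (g 1 0) ω) n (ap (g 1 0) ζ) +
      alt T A M j y F (ap (g 1 1) ω) n (ap (g 1 1) ζ) = 0

theorem cn_A : Cn T A M j y F gA := fun ω n ζ => by
  simp [alt, cr0, cr1, cr2, cr3, ap_gA]; ring
theorem cn_B : Cn T A M j y F gB := fun ω n ζ => by
  simp [alt, cr0, cr1, cr2, cr3, ap_gB]; ring
theorem cn_C : Cn T A M j y F gC := fun ω n ζ => by
  simp [alt, cr_C]; ring

theorem cy_of (hT : T.Ok) (hA : j ∈ A) (hj : j ∉ M) {g : Fin 2 → Fin 2 → Fin 5 → Fin 7 → ℤ}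
    {a : Fin 4 → ℕ} {a' : Fin 6 → ℕ} (hg : ∀ i k, Mo (g i k) a a') (hc : Cn T A M j y F g)
    {ω : Fin 7 → Lt T (A \ M) j} {q : ℕ} (hq : 1 ≤ q) {B R : ℝ} (hR : 4 * q * B ≤ R)
    {k : Fin 2 → Fin 2 → (C → ℝ) → (Fin 5 → C → ℝ) → ℝ} (h1 : ∀ i l, JF T A M j (k i l))
    (h2 : ∀ i l, Bd T A M j y (ap (g i l) ω) a 3 B fun n ξ =>
      alt T A M j y F (ap (g i l) ω) n ξ - k i l n ξ / q)
    (u : (T.cl j (fun _ => false) a').UQ (upA A (Fin 6)) (M.image .inl) (cw T (A \ M) j y ω) R)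
    (n ζ) : k 0 0 n (ap (g 0 0) ζ) - k 0 1 n (ap (g 0 1) ζ) - k 1 0 n (ap (g 1 0) ζ) +
      k 1 1 n (ap (g 1 1) ζ) = 0 := by
  refine JF.uq hT hA hj (((((h1 0 0).ap _).sub ((h1 0 1).ap _)).sub ((h1 1 0).ap _)).add
    ((h1 1 1).ap _)) (fun n ζ b1 b2 b3 => ?_) u n ζ
  have b := fun i l => abs_le.1 ((h2 i l).ap hT hj (hg i l) n ζ b1 b2 b3)
  have q0 : (0 : ℝ) < q := by exact_mod_cast hq
  have e := hc ω n ζ
  refine le_trans ?_ hR
  rw [mul_right_comm, ← div_le_iff₀ q0, ← abs_of_pos q0, ← abs_div, abs_le, add_div, sub_div, sub_div]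
  constructor <;> linarith [b 0 0, b 0 1, b 1 0, b 1 1]

theorem ci_of (hT : T.Ok) (hA : j ∈ A) (hj : j ∉ M) {a : Fin 4 → ℕ} {a' : Fin 8 → ℕ}
    (hg : ∀ i, Mo (gI i) a a') {ω : Fin 9 → Lt T (A \ M) j} {q : ℕ} (hq : 1 ≤ q) {B R : ℝ}
    (hR : 4 * q * B ≤ R) {k : Fin 2 → (C → ℝ) → (Fin 5 → C → ℝ) → ℝ} (h1 : ∀ i, JF T A M j (k i))
    (h2 : ∀ i, Bd T A M j y (ap (gI i) ω) a 3 B fun n ξ =>
      alt T A M j y F (ap (gI i) ω) n ξ - k i n ξ / q)
    (u : (T.cl j (fun _ => false) a').UQ (upA A (Fin 8)) (M.image .inl) (cw T (A \ M) j y ω) R)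
    (n ζ) : k 0 n (ap (gI 0) ζ) = k 1 n (ap (gI 1) ζ) := by
  refine sub_eq_zero.1 (JF.uq hT hA hj (((h1 0).ap _).sub ((h1 1).ap _))
    (fun n ζ b1 b2 b3 => ?_) u n ζ)
  have b := fun i => abs_le.1 ((h2 i).ap hT hj (hg i) n ζ b1 b2 b3)
  have q0 : (0 : ℝ) < q := by exact_mod_cast hq
  have e : alt T A M j y F (ap (gI 0) ω) n (ap (gI 0) ζ) =
    alt T A M j y F (ap (gI 1) ω) n (ap (gI 1) ζ) := by simp only [alt, cr_I]
  refine le_trans ?_ hR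
  rw [mul_right_comm, ← div_le_iff₀ q0, ← abs_of_pos q0, ← abs_div, abs_le, sub_div]
  constructor <;> linarith [b 0, b 1]

/-! ### labels -/

/-- diagonal integer maps -/
def Dg (f : (C → ℝ) → C → ℝ) : Prop := ∃ g : C → ℤ, ∀ x c, f x c = g c * x c

section dg
variable {f f' : (C → ℝ) → C → ℝ}
theorem Dg.id : Dg fun x : C → ℝ => x := ⟨1, by simp⟩
theorem Dg.zero : Dg fun _ : C → ℝ => 0 := ⟨0, by simp⟩
theorem Dg.add (h : Dg f) (h' : Dg f') : Dg fun x => f x + f' x :=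
  let ⟨g, a⟩ := h; let ⟨g', b⟩ := h'; ⟨g + g', by simp [a, b, add_mul]⟩
theorem Dg.sub (h : Dg f) (h' : Dg f') : Dg fun x => f x - f' x :=
  let ⟨g, a⟩ := h; let ⟨g', b⟩ := h'; ⟨g - g', by simp [a, b, sub_mul]⟩
theorem Dg.neg (h : Dg f) : Dg fun x => -f x := let ⟨g, a⟩ := h; ⟨-g, by simp [a]⟩
theorem Dg.comp (h : Dg f) (h' : Dg f') : Dg fun x => f (f' x) :=
  let ⟨g, a⟩ := h; let ⟨g', b⟩ := h'; ⟨g * g', by simp [a, b, mul_assoc]⟩
theorem Dg.sp {ι : Type} {p : ι → (C → ℝ) →+ C → ℝ} (h : ∀ i, Dg (p i)) : ∀ l, Dg (sp p l)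
  | [] => Dg.zero
  | i :: l => by simpa only [← sp_cons] using (Dg.sp h l).add (h i)
end dg

variable {D : Type}

/-- families of integer forms of one point -/
def Jl (T : TT L C) (A M : Finset L) (j : L) (κ : (C → ℝ) → D → (C → ℝ) → ℝ) : Prop :=
  ∀ d, JF T A M j fun n (ξ : Unit → C → ℝ) => κ (ξ ()) d n

variable {κ κ' : (C → ℝ) → D → (C → ℝ) → ℝ} {K : (Fin 5 → C → ℝ) → D → (C → ℝ) → ℝ}

theorem Jl.add (h : Jl T A M j κ) (h' : Jl T A M j κ') : Jl T A M j fun x => κ x + κ' x :=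
  fun d => (h d).add (h' d)
theorem Jl.sub (h : Jl T A M j κ) (h' : Jl T A M j κ') : Jl T A M j fun x => κ x - κ' x :=
  fun d => (h d).sub (h' d)

theorem jl_kp (h : ∀ d, JF T A M j fun n ξ => K ξ d n) {f₁ f₂ f₃ : (C → ℝ) → C → ℝ} (h₁ : Dg f₁)
    (h₂ : Dg f₂) (h₃ : Dg f₃) : Jl T A M j fun x => kp K (f₁ x) (f₂ x) (f₃ x) := fun d => by
  obtain ⟨g₂, e₂⟩ := h₂
  obtain ⟨g₃, e₃⟩ := h₃.sub h₁
  obtain ⟨g₄, e₄⟩ := h₁.sub ⟨g₂, e₂⟩
  refine (h d).comp (Ψ := fun ζ : Unit → C → ℝ =>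
    ![f₂ (ζ ()), 0, f₃ (ζ ()) - f₁ (ζ ()), 0, f₁ (ζ ()) - f₂ (ζ ())])
    (fun o _ => ![g₂, 0, g₃, 0, g₄] o) fun ζ o c => ?_
  fin_cases o
  exacts [by simpa using e₂ _ c, by simp, by simpa using e₃ _ c, by simp, by simpa using e₄ _ c]

theorem jl_tel (h : ∀ d, JF T A M j fun n ξ => K ξ d n) {ι : Type} {p : ι → (C → ℝ) →+ C → ℝ}
    (hp : ∀ i, Dg (p i)) {f : (C → ℝ) → C → ℝ} (hf : Dg f) :
    ∀ l, Jl T A M j fun x => tel (cc (kp K)) p l (f x)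
  | [] => fun _ => JF.zero
  | i :: l => by
    have a := (Dg.sp hp l).comp hf
    have b := (hp i).comp hf
    exact (jl_tel h hp hf l).add ((((jl_kp h (a.add b) a b).sub (jl_kp h a a .zero)).sub
      (jl_kp h b .zero b)).add (jl_kp h .zero .zero .zero))

theorem jl_nl (h : ∀ d, JF T A M j fun n ξ => K ξ d n) {ι : Type} {p : ι → (C → ℝ) →+ C → ℝ}
    (hp : ∀ i, Dg (p i)) (l : List ι) (i : Fin 4) : Jl T A M j (nl p l K i) := by
  have z := jl_kp h .zero .zero .zero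
  have t := jl_tel h hp .id l
  fin_cases i
  exacts [((jl_kp h .id .id .zero).sub z).sub t, t,
    ((jl_kp h Dg.id.neg .zero .zero).sub z).sub (jl_tel h hp Dg.id.neg l),
    ((jl_kp h .id .zero .id).sub z).sub t]

/-- the form of a label -/
def fl (κ : (C → ℝ) → D → (C → ℝ) → ℝ) (d : D) : Fm L C :=
  fun p => κ (fun c => p (.inl c)) d fun c => p (.inl c)

theorem BL.dat {S : Finset L} (h : BL T A M j k) (Ψ : (C → ℝ) → ρ → C → ℝ) (g : ρ → ℝ)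
    (e : ∀ x o c, Ψ x o c = g o * x c) (hn : ∀ c, Nc T A M j c → T.ty c ⊆ S)
    (hx : ∀ o c, Xc T A M j c → g o ≠ 0 → T.ty c ⊆ S) :
    T.Dat S M fun p => k (fun c => p (.inl c)) (Ψ fun c => p (.inl c)) := by
  refine ⟨fun p p' z => h.dep _ _ _ _ (fun c a => z (.inl c) (hn c a)
    ((not_disjoint_iff.1 a.2.1).imp fun _ => And.left)) fun o c a => ?_, fun m hm a b p p' z => ?_⟩
  · by_cases g0 : g o = 0
    · simp [e, g0]
    · rw [e, e, z (.inl c) (hx o c a g0) ⟨j, a.2.2⟩]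
  · rw [← h.lin m hm a b _ _ _ _ (fun c w => z (.inl c) w) fun o c w => by rw [e, e, z (.inl c) w]]
    refine congrArg₂ k rfl ?_
    funext o c
    simp only [e, cm, cmb, tv_inl]
    split_ifs <;> ring

theorem Jl.intF (h : Jl T A M j κ) (d : D) (y' : C → ℤ) : T.IntF A M y' (fl κ d) :=
  ⟨(h d).toBL.dat (fun x _ => x) 1 (by simp) (fun _ a => a.1) fun _ _ a _ => a.1,
    fun p _ i => (h d).int _ (fun _ c => p (.inl c)) (fun c => i (.inl c)) fun _ c => i (.inl c)⟩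

theorem JF.intF0 (h : JF T A M j k) (y' : C → ℤ) :
    T.IntF (A.erase j) M y' fun p => k (fun c => p (.inl c)) 0 :=
  ⟨h.toBL.dat (fun _ => 0) 0 (by simp) (fun _ a => subset_erase.2 ⟨a.1, a.2.2⟩)
    fun _ _ _ a => absurd rfl a, fun _ _ i => h.int _ _ (fun _ => i _) fun _ _ => ⟨0, by simp⟩⟩

theorem Jl.pt (h : Jl T A M j κ) (d : D) (e lam n ξ) :
    fl κ d (pt T A M j y e lam n ξ) = κ ξ d n :=
  (h d).dep _ _ (fun _ c => On.pt T A M j y e lam n ξ (.inl c)) (fun _ => ξ)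
    (fun c a => by simp only [On.pt, if_neg a.2.1, if_neg a.2.2])
    fun _ c a => by simp only [On.pt, if_neg a.2.1, if_pos a.2.2]

end Crest.Agent.N49.On
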