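import Crest.Agent.N49.On.G1
import Crest.Agent.N49.Lo.Amh1

/-! Row 49 (helper16): 4-cycles, popular labels and shears for discrete product laws. -/

set_option autoImplicit false
set_option linter.unusedSectionVars false
noncomputable section
namespace Crest.Agent.N49.On.Cy
open Finset Function Gg G1 MeasureTheory

theorem c4cr {B U V : Type*} {wb : B → ℝ} {wu : B → U → ℝ} {wv : B → V → ℝ} (hb : ∀ b, 0 ≤ wb b)
    (hu : ∀ b u, 0 ≤ wu b u) (hv : ∀ b v, 0 ≤ wv b v) (hs : Summable (wc wb wu wv))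
    (S : B → U → V → Prop) :
    (∑' z, wc wb wu wv z * ind (S z.1 z.2.1.1 z.2.2.1)) ^ 4 ≤ (∑' z, wc wb wu wv z) ^ 3 *
      ∑' z, wc wb wu wv z * ind (S z.1 z.2.1.1 z.2.2.1 ∧ S z.1 z.2.1.1 z.2.2.2 ∧
          S z.1 z.2.1.2 z.2.2.1 ∧ S z.1 z.2.1.2 z.2.2.2) := by
  have hg := c4c (fun b => .ofReal (wb b)) (fun b u => .ofReal (wu b u))
    (fun b v => .ofReal (wv b v)) fun b u v => ind (S b u v)
  have p0 : ∀ z, 0 ≤ wc wb wu wv z := fun z =>
    mul_nonneg (hb _) (mul_nonneg (mul_nonneg (hu _ _) (hu _ _)) (mul_nonneg (hv _ _) (hv _ _)))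
  have e : ∀ z, wc (fun b => ENNReal.ofReal (wb b)) (fun b u => .ofReal (wu b u))
      (fun b v => .ofReal (wv b v)) z = .ofReal (wc wb wu wv z) := fun z => by
    rw [wc, wc, ENNReal.ofReal_mul (hb _), ENNReal.ofReal_mul (mul_nonneg (hu _ _) (hu _ _)),
      ENNReal.ofReal_mul (hu _ _), ENNReal.ofReal_mul (hv _ _)]
  have n : ∀ P : B × (U × U) × V × V → Prop, 0 ≤ ∑' x, wc wb wu wv x * ind (P x) :=
    fun P => tsum_nonneg fun x => mul_nonneg (p0 x) (ind_u1 _).1
  have z0 : 0 ≤ ∑' x, wc wb wu wv x := tsum_nonneg p0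
  have i4 : ∀ P Q R T : Prop, (ind P * ind Q * (ind R * ind T) : ENNReal) = ind (P ∧ Q ∧ R ∧ T) := by
    intro P Q R T
    by_cases P <;> by_cases Q <;> by_cases R <;> by_cases T <;> simp [ind, *]
  simp only [e, i4] at hg
  rw [ofR p0 hs, ofR p0 hs, ← ENNReal.ofReal_tsum_of_nonneg p0 hs,
    ← ENNReal.ofReal_pow (n _), ← ENNReal.ofReal_pow z0, ← ENNReal.ofReal_mul (pow_nonneg z0 3)] at hg
  exact (ENNReal.ofReal_le_ofReal_iff (mul_nonneg (pow_nonneg z0 3) (n _))).1 hg

theorem c4p {Y U ρ : Type*} [Fintype ρ] [DecidableEq ρ] [Zero U] {x0 x0' x1 x1' : ρ}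
    (h : D4 x0 x0' x1 x1') {w0 : Y → ℝ} {k : ρ → Y → U → ℝ}
    (h0 : ∀ y, 0 ≤ w0 y) (hk : ∀ x y u, 0 ≤ k x y u) (k0 : k x0' = k x0) (k1 : k x1' = k x1)
    {W : Y × (ρ → U) → ℝ} (hW : ∀ w, W w = w0 w.1 * ∏ x, k x w.1 (w.2 x)) (hs : Summable W)
    (S : Y × (ρ → U) → Prop)
    (hi : ∀ y m m', (∀ x, x ≠ x0' → x ≠ x1' → m x = m' x) → (S (y, m) ↔ S (y, m'))) :
    (∑' w, W w * ind (S w)) ^ 4 ≤ (∑' w, W w) ^ 3 *
      ∑' w, W w * ind (S w ∧ S (w.1, update w.2 x1 (w.2 x1')) ∧ S (w.1, update w.2 x0 (w.2 x0')) ∧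
        S (w.1, update (update w.2 x0 (w.2 x0')) x1 (w.2 x1'))) := by
  let e := e4 (Y := Y) (U := U) h
  have hw : ∀ z, W (e z) = wc (fun b => w0 b.1 * ∏ x ∈ univ \ {x0, x0', x1, x1'}, k x b.1 (b.2.1 x))
      (fun b => k x0 b.1) (fun b => k x1 b.1) z := fun z => by
    rw [hW]
    simp only [e, e4, Equiv.coe_fn_mk, wc]
    rw [prod_u4 h fun x => k x z.1.1, k0, k1]
    exact (mul_assoc _ _ _).symm
  have hg := c4cr
    (wb := fun b : Y × {m : ρ → U // m x0 = 0 ∧ m x0' = 0 ∧ m x1 = 0 ∧ m x1' = 0} =>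
      w0 b.1 * ∏ x ∈ univ \ {x0, x0', x1, x1'}, k x b.1 (b.2.1 x))
    (wu := fun b => k x0 b.1) (wv := fun b => k x1 b.1)
    (fun b => mul_nonneg (h0 _) (prod_nonneg fun _ _ => hk _ _ _)) (fun _ _ => hk _ _ _)
    (fun _ _ => hk _ _ _) ((e.summable_iff.2 hs).congr hw)
    (fun b u v => S (e (b, (u, 0), v, 0)))
  have key : ∀ (z : (Y × {m : ρ → U // m x0 = 0 ∧ m x0' = 0 ∧ m x1 = 0 ∧ m x1' = 0}) ×
      (U × U) × U × U) (m : ρ → U) (u v : U), m x0 = u → m x1 = v →
      (∀ x, x ≠ x0 → x ≠ x1 → m x = (e z).2 x) →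
      (S ((e z).1, m) ↔ S (e (z.1, (u, 0), v, 0))) := by
    intro z m u v hu hv hm
    refine hi z.1.1 _ _ fun x a b => ?_
    by_cases c0 : x = x0
    · simp [u4, c0, hu]
    by_cases c1 : x = x1
    · simp [u4, c1, hv, h.b, h.d]
    · rw [hm x c0 c1]; simp [e, e4, u4, a, b, c0, c1]
  have v0 : ∀ z, (e z).2 x0 = z.2.1.1 := fun z => by simp [e, e4, u4]
  have v0' : ∀ z, (e z).2 x0' = z.2.1.2 := fun z => by simp [e, e4, u4, h.a]
  have v1 : ∀ z, (e z).2 x1 = z.2.2.1 := fun z => by simp [e, e4, u4, h.b, h.d]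
  have v1' : ∀ z, (e z).2 x1' = z.2.2.2 := fun z => by simp [e, e4, u4, h.c, h.e, h.f]
  have q00 := fun z => key z (e z).2 _ _ (v0 z) (v1 z) fun _ _ _ => rfl
  have q01 := fun z => key z (update (e z).2 x1 ((e z).2 x1')) z.2.1.1 z.2.2.2
    (by rw [update_of_ne h.b.symm, v0]) (by rw [update_self, v1']) fun x _ b => update_of_ne b _ _
  have q10 := fun z => key z (update (e z).2 x0 ((e z).2 x0')) z.2.1.2 z.2.2.1
    (by rw [update_self, v0']) (by rw [update_of_ne h.b, v1]) fun x a _ => update_of_ne a _ _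
  have q11 := fun z => key z (update (update (e z).2 x0 ((e z).2 x0')) x1 ((e z).2 x1')) z.2.1.2
    z.2.2.2 (by rw [update_of_ne h.b.symm, update_self, v0']) (by rw [update_self, v1'])
    fun x a b => by rw [update_of_ne b, update_of_ne a]
  rw [← e.tsum_eq, ← e.tsum_eq W, ← e.tsum_eq]
  simp only [hw]
  simp only [Prod.mk.eta] at q00
  simp only [q01, q10, q11, q00]
  exact hg

section disc
variable {X : Type*} [MeasurableSpace X] [Countable X] [MeasurableSingletonClass X]

theorem meas_ts (ν : Measure X) (P : X → Prop) : ν {x | P x} = ∑' x, ν {x} * ind (P x) := by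
  rw [← Measure.tsum_indicator_apply_singleton ν _ .of_discrete]
  exact tsum_congr fun x => by by_cases h : P x <;> simp [ind, h]

theorem real_ts (ν : Measure X) [IsFiniteMeasure ν] (P : X → Prop) :
    ν.real {x | P x} = ∑' x, ν.real {x} * ind (P x) := by
  rw [Measure.real, meas_ts, ENNReal.tsum_toReal_eq fun x => by by_cases h : P x <;> simp [ind, h]]
  exact tsum_congr fun x => by by_cases h : P x <;> simp [ind, h, Measure.real]

theorem sum_one (ν : Measure X) [IsProbabilityMeasure ν] : HasSum (fun x => ν.real {x}) 1 := by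
  have e : ∑' x, ν {x} = 1 := by simpa [ind] using (meas_ts ν fun _ => True).symm
  have := ENNReal.hasSum_toReal (f := fun x => ν {x}) (by simp [e])
  rwa [← ENNReal.tsum_toReal_eq fun x => measure_ne_top _ _, e] at this

/-- transport along a bijection that keeps the atoms -/
theorem mp_of_atoms {Y : Type*} [MeasurableSpace Y] [Countable Y] [MeasurableSingletonClass Y]
    {ν : Measure X} {ν' : Measure Y} (e : X ≃ Y) (h : ∀ x, ν' {e x} = ν {x}) :
    MeasurePreserving e ν ν' :=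
  ⟨.of_discrete, Measure.ext_of_singleton fun y => by
    rw [Measure.map_apply .of_discrete .of_discrete, ← e.apply_symm_apply y, h]
    congr 1; ext; simp [Equiv.apply_eq_iff_eq_symm_apply]⟩

/-- two labels, one of each coordinate, that agree on `E` take a popular value -/
theorem popv {Y N : Type*} [MeasurableSpace Y] [Countable Y] [MeasurableSingletonClass Y]
    (γ : Measure X) (β : Measure Y) [IsProbabilityMeasure γ] [IsProbabilityMeasure β]
    (E : Set (X × Y)) (a : X → N) (b : Y → N) (h : ∀ p ∈ E, a p.1 = b p.2) :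
    ∃ ℓ, (γ.prod β).real E ^ 2 ≤ (γ.prod β).real {p | p ∈ E ∧ a p.1 = ℓ} := by
  have at2 : ∀ p : X × Y, (γ.prod β) {p} = γ {p.1} * β {p.2} := fun p => by
    rw [← Measure.prod_prod, Set.singleton_prod_singleton]
  have g1 : ∑' x, γ {x} = 1 := by simpa [ind] using (meas_ts γ fun _ => True).symm
  have b1 : ∑' x, β {x} = 1 := by simpa [ind] using (meas_ts β fun _ => True).symm
  have c := clone (fun y : Y => β {y}) fun y (x : X) => γ {x} * ind ((x, y) ∈ E)
  have e1 : (γ.prod β) E = ∑' p : Y × X, β {p.1} * (γ {p.2} * ind ((p.2, p.1) ∈ E)) := by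
    rw [show E = {p | p ∈ E} from rfl, meas_ts, ← (Equiv.prodComm Y X).tsum_eq]
    exact tsum_congr fun p => by simp only [at2, Equiv.prodComm_apply, Prod.swap, Set.mem_setOf]; ring
  rw [← e1, b1, one_mul] at c
  obtain ⟨u, h0, hu⟩ := exists_ge (fun u : X => γ {u})
    (fun u => γ {u} * (γ.prod β) {p | p ∈ E ∧ a p.1 = a u}) ((γ.prod β) E ^ 2) (by simp [g1])
    (by rw [g1, mul_one]; exact ENNReal.pow_ne_top (measure_ne_top _ _)) (fun u hu => by simp [hu])
    (by
      rw [g1, mul_one]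
      refine c.trans ?_
      let e : X × X × Y ≃ Y × X × X :=
        ⟨fun p => (p.2.2, p.2.1, p.1), fun p => (p.2.2, p.2.1, p.1), fun _ => rfl, fun _ => rfl⟩
      rw [← e.tsum_eq, ENNReal.tsum_prod']
      refine ENNReal.tsum_le_tsum fun u => ?_
      rw [meas_ts, ← ENNReal.tsum_mul_left]
      refine ENNReal.tsum_le_tsum fun p => ?_
      simp only [e, Equiv.coe_fn_mk, at2]
      by_cases k1 : p ∈ E
      · by_cases k2 : (u, p.2) ∈ E
        · have : a p.1 = a u := (h p k1).trans (h _ k2).symm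
          simp only [ind, Prod.mk.eta, k1, k2, this, if_true, and_self]
          exact le_of_eq (by ring)
        · simp [ind, k2]
      · simp [ind, k1])
  refine ⟨a u, ?_⟩
  rw [mul_comm (γ {u}), ENNReal.mul_le_mul_iff_left h0 (measure_ne_top _ _)] at hu
  rw [Measure.real, ← ENNReal.toReal_pow]
  exact ENNReal.toReal_mono (measure_ne_top _ _) hu

end disc

section pi
variable {G ρ κ : Type*} [MeasurableSpace G] [Countable G] [MeasurableSingletonClass G]
  [Fintype ρ] [DecidableEq ρ] [Fintype κ] (μs : ρ → Measure G) [∀ i, IsProbabilityMeasure (μs i)]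

theorem marg_pi {ι : κ → ρ} (hι : Injective ι) :
    MeasurePreserving (fun ω : ρ → G => ω ∘ ι) (Measure.pi μs) (Measure.pi fun k => μs (ι k)) := by
  refine ⟨.of_discrete, (Measure.pi_eq fun s _ => ?_).symm⟩
  rw [Measure.map_apply .of_discrete .of_discrete]
  have : (fun ω : ρ → G => ω ∘ ι) ⁻¹' Set.univ.pi s =
      Set.univ.pi (extend ι s fun _ => Set.univ) := by
    ext ω
    simp only [Set.mem_preimage, Set.mem_pi, Set.mem_univ, true_imp_iff, comp_apply]
    refine ⟨fun h x => ?_, fun h k => by simpa [hι.extend_apply] using h (ι k)⟩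
    by_cases hx : ∃ k, ι k = x
    · obtain ⟨k, rfl⟩ := hx
      simpa [hι.extend_apply] using h k
    · simp [extend_apply' _ _ _ hx]
  rw [this, Measure.pi_pi]
  exact (Fintype.prod_of_injective ι hι _ _ (fun x hx => by simp [extend_apply' _ _ _ hx])
    fun k => by simp [hι.extend_apply]).symm

theorem mp_upd (k : ρ) : MeasurePreserving (fun p : (ρ → G) × G => update p.1 k p.2)
    ((Measure.pi μs).prod (μs k)) (Measure.pi μs) := by
  refine ⟨.of_discrete, (Measure.pi_eq fun s _ => ?_).symm⟩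
  rw [Measure.map_apply .of_discrete .of_discrete]
  have : (fun p : (ρ → G) × G => update p.1 k p.2) ⁻¹' Set.univ.pi s =
      Set.univ.pi (update s k Set.univ) ×ˢ s k := by
    ext p
    simp only [Set.mem_preimage, Set.mem_pi, Set.mem_univ, true_imp_iff, Set.mem_prod]
    refine ⟨fun h => ⟨fun x => ?_, by simpa using h k⟩, fun h x => ?_⟩
    · by_cases hx : x = k
      · simp [hx]
      · simpa [hx] using h x
    · by_cases hx : x = k
      · simpa [hx] using h.2
      · simpa [hx] using h.1 x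
  rw [this, Measure.prod_prod, Measure.pi_pi, ← prod_erase_mul _ _ (mem_univ k),
    ← prod_erase_mul _ _ (mem_univ k)]
  simp only [update_self, measure_univ, mul_one]
  congr 1
  exact prod_congr rfl fun x hx => by rw [update_of_ne (ne_of_mem_erase hx)]

theorem resample (k : ρ) (E : Set (ρ → G)) :
    (Measure.pi μs).real E = ∫ ω, (μs k).real {a | update ω k a ∈ E} ∂Measure.pi μs := by
  rw [← (mp_upd μs k).measureReal_preimage MeasurableSet.of_discrete.nullMeasurableSet, Measure.real,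
    Measure.prod_apply .of_discrete, ← integral_toReal Measurable.of_discrete.aemeasurable
      (.of_forall fun _ => measure_lt_top _ _)]
  rfl

variable [Zero G] {x0 x0' x1 x1' : ρ}

theorem atom (ω : ρ → G) : (Measure.pi μs).real {ω} = 1 * ∏ x, (μs x).real {ω x} := by
  simp [Measure.real, ENNReal.toReal_prod]

theorem sum_unit : Summable fun w : Unit × (ρ → G) => (Measure.pi μs).real {w.2} :=
  ((Equiv.uniqueProd (ρ → G) Unit).summable_iff (f := fun w => (Measure.pi μs).real {w})).2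
    (sum_one (Measure.pi μs)).summable

theorem c4m (h : D4 x0 x0' x1 x1') (k0 : μs x0' = μs x0) (k1 : μs x1' = μs x1)
    (S : (ρ → G) → Prop) (hi : ∀ m m', (∀ x, x ≠ x0' → x ≠ x1' → m x = m' x) → (S m ↔ S m')) :
    (Measure.pi μs).real {w | S w} ^ 4 ≤ (Measure.pi μs).real {w | S w ∧ S (update w x1 (w x1')) ∧
      S (update w x0 (w x0')) ∧ S (update (update w x0 (w x0')) x1 (w x1'))} := by
  let e := Equiv.uniqueProd (ρ → G) Unit
  have := c4p (Y := Unit) h (w0 := fun _ => 1) (k := fun x _ u => (μs x).real {u})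
    (fun _ => zero_le_one) (fun _ _ _ => measureReal_nonneg) (by rw [k0]) (by rw [k1])
    (W := fun w => (Measure.pi μs).real {w.2}) (fun w => atom μs w.2)
    (sum_unit μs) (fun w => S w.2) fun _ => hi
  rw [show ∑' w : Unit × (ρ → G), (Measure.pi μs).real {w.2} = 1 from
    (e.tsum_eq fun w => (Measure.pi μs).real {w}).trans (sum_one _).tsum_eq, one_pow, one_mul] at this
  rw [real_ts, real_ts, ← e.tsum_eq, ← e.tsum_eq]
  exact this

theorem g1m {N : Type*} [Nonempty N] (h : D4 x0 x0' x1 x1') (k0 : μs x0' = μs x0)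
    (k1 : μs x1' = μs x1) (S : (ρ → G) → Prop) (p : (ρ → G) → N)
    (hi : ∀ m m', (∀ x, x ≠ x0' → x ≠ x1' → m x = m' x) → (S m ↔ S m') ∧ p m = p m') :
    ∃ g : (ρ → G) → N, (∀ m m', (∀ x, x ≠ x0' → x ≠ x1 → x ≠ x1' → m x = m' x) → g m = g m') ∧
      (Measure.pi μs).real {w | S w} ^ 4 ≤ (Measure.pi μs).real {w | S w ∧ S (update w x1 (w x1')) ∧
        S (update w x0 (w x0')) ∧ S (update (update w x0 (w x0')) x1 (w x1')) ∧
        p w ≠ p (update w x1 (w x1'))} + 2 * (Measure.pi μs).real {w | S w ∧ p w = g w} := by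
  let e := Equiv.uniqueProd (ρ → G) Unit
  obtain ⟨g, hg, this⟩ := g1p (Y := Unit) h (w0 := fun _ => 1) (k := fun x _ u => (μs x).real {u})
    (fun _ => zero_le_one) (fun _ _ _ => measureReal_nonneg) (by rw [k0]) (by rw [k1])
    (W := fun w => (Measure.pi μs).real {w.2}) (fun w => atom μs w.2)
    (sum_unit μs) (fun w => S w.2) (fun w => p w.2)
    fun _ => hi
  rw [show ∑' w : Unit × (ρ → G), (Measure.pi μs).real {w.2} = 1 from
    (e.tsum_eq fun w => (Measure.pi μs).real {w}).trans (sum_one _).tsum_eq, one_pow, one_mul] at this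
  refine ⟨fun m => g ((), m), hg (), ?_⟩
  rw [real_ts, real_ts, real_ts, ← e.tsum_eq, ← e.tsum_eq, ← e.tsum_eq]
  exact this

end pi

/-- an elementary shear of a product law -/
theorem shear {d ρ : Type} [Fintype d] [Fintype ρ] [DecidableEq ρ] (μs : ρ → Measure (d → ℤ))
    [∀ i, IsProbabilityMeasure (μs i)] {N : Seminorm ℝ (d → ℝ)} {k k' : ρ} (hk : k' ≠ k)
    (h : To.QI N (μs k)) (hi : Integrable (fun x => N (La.ci x)) (μs k')) (c : ℤ)
    (hc : c = 1 ∨ c = -1) {τ : ℝ} (ht : ∫ x, N (La.ci x) ∂μs k' ≤ τ) (E : Set (ρ → d → ℤ)) :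
    (Measure.pi μs).real E ≤ (Measure.pi μs).real {ω | update ω k (ω k + c • ω k') ∈ E} + τ := by
  have mp := measurePreserving_eval μs k'
  have i2 : Integrable (fun ω : ρ → d → ℤ => N (La.ci (ω k'))) (Measure.pi μs) :=
    mp.integrable_comp_of_integrable hi
  have e2 : ∫ ω, N (La.ci (ω k')) ∂Measure.pi μs = ∫ x, N (La.ci x) ∂μs k' := by
    rw [← mp.map_eq, integral_map mp.measurable.aemeasurable
      Measurable.of_discrete.aestronglyMeasurable]
  rw [resample μs k E, resample μs k]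
  refine le_trans ?_ (add_le_add le_rfl (e2.trans_le ht))
  rw [← integral_add (Lo.int_real _ _ _) i2]
  refine integral_mono (Lo.int_real _ _ _) ((Lo.int_real _ _ _).add i2) fun ω => ?_
  have := h {a | update ω k a ∈ E} (-(c • ω k'))
  have e3 : N (La.ci (-(c • ω k'))) = N (La.ci (ω k')) := by
    rcases hc with rfl | rfl <;> simp
  rw [e3] at this
  refine this.trans (add_le_add (le_of_eq ?_) le_rfl)
  congr 1
  ext a
  simp [update_of_ne hk]

end Crest.Agent.N49.On.Cy
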