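import Mathlib

/-!
# Row 49 (helper53): functions on additive quadruples without mixed second differences

`K a₀ a₁ a₂` lives on the quadruples `a₀ + a₃ = a₁ + a₂`.
-/

set_option autoImplicit false

namespace Crest.Agent.N49.On

variable {X N ι : Type*} [AddCommGroup X] [AddCommGroup N]

/-- no mixed second difference in the three pairings -/
structure NM (K : X → X → X → N) : Prop where
  p1 : ∀ a b c x y, K (a + x) (b + x) (c + y) - K (a + x) (b + x) c - K a b (c + y) + K a b c = 0
  p2 : ∀ a b c x y, K (a + x) (b + y) (c + x) - K (a + x) b (c + x) - K a (b + y) c + K a b c = 0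
  p3 : ∀ a b c x y, K (a + x) (b + y) (c - y) - K (a + x) b c - K a (b + y) (c - y) + K a b c = 0

/-- the cocycle of `K` at `a₃ = 0` -/
def cc (K : X → X → X → N) (a b : X) : N := K (a + b) a b - K a a 0 - K b 0 b + K 0 0 0

theorem cc_zl (K : X → X → X → N) (b : X) : cc K 0 b = 0 := by simp [cc]

theorem cc_zr (K : X → X → X → N) (a : X) : cc K a 0 = 0 := by simp [cc]

section
variable {K : X → X → X → N} (h : NM K)
include h

theorem NM.e1 (e a b : X) : K (a + b - e) a b =
    K (-e) 0 0 + cc K a (-e) + cc K (a - e) b + K a a 0 + K b 0 b - K 0 0 0 - K 0 0 0 := by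
  have a1 := h.p2 (a - e) (a - e) 0 b e
  have a2 := h.p1 (-e) 0 (-e) a e
  simp only [cc, ← sub_eq_add_neg]
  rw [show a - e + b = a + b - e by abel] at a1 ⊢
  simp only [sub_add_cancel, zero_add, neg_add_cancel, neg_add_eq_sub] at a1 a2
  linear_combination (norm := abel) a1 + a2

theorem NM.e2 (e a b : X) : K (a + b - e) a b =
    K (-e) 0 0 + cc K (-e) b + cc K a (b - e) + K a a 0 + K b 0 b - K 0 0 0 - K 0 0 0 := by
  have a1 := h.p1 (b - e) 0 (b - e) a e
  have a2 := h.p2 (-e) (-e) 0 b e
  simp only [cc]
  rw [show b - e + a = a + b - e by abel] at a1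
  rw [show a + (b - e) = a + b - e by abel]
  simp only [sub_add_cancel, zero_add, neg_add_cancel, neg_add_eq_sub] at a1 a2 ⊢
  linear_combination (norm := abel) a1 + a2

theorem NM.coc (x y z : X) : cc K x y + cc K (x + y) z = cc K y z + cc K x (y + z) := by
  have a1 := h.e1 (-y) x z
  have a2 := h.e2 (-y) x z
  simp only [neg_neg, sub_neg_eq_add, add_comm z y] at a1 a2
  linear_combination (norm := abel) a2 - a1

theorem NM.symm (x y : X) : cc K x y = cc K y x := by
  have a1 := h.p3 0 0 0 x y
  have a2 := h.e1 (-x) y (-y)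
  have a3 := h.e1 0 y (-y)
  have a4 := h.coc x y (-y)
  simp only [zero_add, zero_sub, neg_neg, sub_neg_eq_add, add_neg_cancel, sub_zero, neg_zero,
    cc_zr, add_comm y x] at a1 a2 a3 a4
  linear_combination (norm := abel) a4 + a2 - a1 - a3

theorem NM.four (a b x y : X) : cc K (a + x) (b + y) + cc K a x + cc K b y =
    cc K a b + cc K x y + cc K (a + b) (x + y) := by
  have a1 := h.coc a x (b + y)
  have a2 := h.coc x b y
  have a3 := h.coc b x y
  have a4 := h.coc a b (x + y)
  have a5 := h.symm x b
  rw [add_comm b x] at a3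
  rw [show b + (x + y) = x + (b + y) by abel] at a4
  linear_combination (norm := abel) a1 - a2 + a3 - a4 + a5

end

/-- the sum of the listed projections -/
def sp (p : ι → X →+ X) (l : List ι) (x : X) : X := (l.map fun i => p i x).sum

/-- the telescoped primitive of a cocycle -/
def tel (c : X → X → N) (p : ι → X →+ X) : List ι → X → N
  | [], _ => 0
  | i :: l, x => tel c p l x + c (sp p l x) (p i x)

theorem sp_add (p : ι → X →+ X) (l : List ι) (x y : X) : sp p l (x + y) = sp p l x + sp p l y := by
  simp [sp, List.sum_map_add]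

theorem sp_cons (p : ι → X →+ X) (i : ι) (l : List ι) (x : X) :
    sp p (i :: l) x = sp p l x + p i x := by simp [sp, add_comm]

theorem NM.tel_add {K : X → X → X → N} (h : NM K) {p : ι → X →+ X}
    (hp : ∀ i a b, cc K (p i a) (p i b) = 0) (a b : X) : ∀ l : List ι,
    tel (cc K) p l (a + b) = tel (cc K) p l a + tel (cc K) p l b + cc K (sp p l a) (sp p l b)
  | [] => by simp [tel, sp, cc_zl]
  | i :: l => by
    have a1 := h.tel_add hp a b l
    have a2 := h.four (sp p l a) (sp p l b) (p i a) (p i b)
    simp only [tel, sp_cons, sp_add, map_add, hp] at a2 ⊢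
    linear_combination (norm := abel) a1 - a2

theorem tel_proj (K : X → X → X → N) {p : ι → X →+ X} (ho : ∀ i j, i ≠ j → ∀ x, p i (p j x) = 0)
    (j : ι) (x : X) : ∀ l : List ι, l.Nodup → tel (cc K) p l (p j x) = 0
  | [], _ => rfl
  | i :: l, hl => by
    rw [List.nodup_cons] at hl
    rw [tel, tel_proj K ho j x l hl.2, zero_add]
    by_cases e : i = j
    · have : sp p l (p j x) = 0 := List.sum_eq_zero fun y hy => by
        obtain ⟨k, hk, rfl⟩ := List.mem_map.1 hy
        exact ho _ _ (fun e' => hl.1 (by rw [e, ← e']; exact hk)) x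
      rw [this, cc_zl]
    · rw [ho _ _ e, cc_zr]

/-- a complete system of projections -/
structure Pj (p : ι → X →+ X) (l : List ι) : Prop where
  nd : l.Nodup
  orth : ∀ i j, i ≠ j → ∀ x, p i (p j x) = 0
  sum : ∀ x, sp p l x = x

/-- the four labels of `K` -/
def lab (K : X → X → X → N) (p : ι → X →+ X) (l : List ι) : Fin 4 → X → N :=
  ![tel (cc K) p l, fun a => K a a 0 - K 0 0 0 - tel (cc K) p l a,
    fun a => K a 0 a - K 0 0 0 - tel (cc K) p l a, fun a => K (-a) 0 0 - K 0 0 0 - tel (cc K) p l (-a)]

theorem tel_zero (K : X → X → X → N) (p : ι → X →+ X) : ∀ l : List ι, tel (cc K) p l 0 = 0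
  | [] => rfl
  | i :: l => by rw [tel, tel_zero K p l, map_zero, cc_zr, add_zero]

theorem lab_zero (K : X → X → X → N) (p : ι → X →+ X) (l : List ι) (j : Fin 4) :
    lab K p l j 0 = 0 := by
  fin_cases j <;> simp [lab, tel_zero]

/-- **DIAG** -/
theorem NM.diag {K : X → X → X → N} (h : NM K) {p : ι → X →+ X} {l : List ι} (hl : Pj p l)
    (hp : ∀ i a b, cc K (p i a) (p i b) = 0) (a b c : X) :
    K a b c = K 0 0 0 + lab K p l 0 a + lab K p l 1 b + lab K p l 2 c + lab K p l 3 (b + c - a) := by
  have a1 := h.e1 (b + c - a) b c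
  have a2 := h.tel_add hp b (-(b + c - a)) l
  have a3 := h.tel_add hp (b - (b + c - a)) c l
  simp only [hl.sum] at a2 a3
  rw [show b - (b + c - a) + c = a by abel] at a3
  rw [← sub_eq_add_neg] at a2
  rw [sub_sub_cancel] at a1
  simp only [lab, Matrix.cons_val]
  linear_combination (norm := abel) a1 - a2 - a3

/-- an additive function that vanishes on the ranges of the projections -/
theorem Pj.eq_zero {p : ι → X →+ X} {l : List ι} (hl : Pj p l) {v : X → N}
    (ha : ∀ x y, v (x + y) = v x + v y) (h0 : ∀ j x, v (p j x) = 0) (x : X) : v x = 0 := by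
  have z : v 0 = 0 := by simpa using ha 0 0
  have : ∀ k : List ι, v (sp p k x) = 0 := fun k => by
    induction k with
    | nil => simpa [sp] using z
    | cons i k ih => rw [sp_cons, ha, ih, h0, add_zero]
  rw [← hl.sum x, this]

/-- two labels whose sum along a shift does not see the base point -/
theorem Pj.lab_eq {p : ι → X →+ X} {l : List ι} (hl : Pj p l) {u v : X → N} (s : X ≃+ X)
    (h0 : ∀ j x, u (p j x) = 0) (u0 : u 0 = 0) (v0 : v 0 = 0)
    (e : ∀ a x, u a + v (s a + x) = v x) : u = 0 ∧ v = 0 := by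
  have e1 : ∀ a, u a = -v (s a) := fun a => by
    have := e a 0
    rw [add_zero, v0] at this
    exact eq_neg_of_add_eq_zero_left this
  have e2 : u = 0 := funext fun x => hl.eq_zero (fun a b => by
    have := e a (s b)
    rw [e1, e1, e1, map_add] at *
    linear_combination (norm := abel) -this) h0 x
  refine ⟨e2, funext fun x => ?_⟩
  have := e1 (s.symm x)
  rw [e2, s.apply_symm_apply] at this
  simpa using this

end Crest.Agent.N49.On
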