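import Crest.Agent.N49.Rm.Pr
import Crest.Agent.N49.Rm.Op
import Crest.Agent.N49.Gg.Cpl

/-! Row 49 (helper16): G1 on clone shapes of a typed tower. -/

set_option autoImplicit false
set_option linter.unusedSectionVars false
noncomputable section
namespace Crest.Agent.N49.On
open Finset Function Rm Gg

namespace G1
section abs
variable {Y U ρ N : Type*} [Fintype ρ] [DecidableEq ρ] [Zero U]

def u4 (x0 x0' x1 x1' : ρ) (m : ρ → U) (u u' v v' : U) : ρ → U := fun x =>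
  if x = x0 then u else if x = x0' then u' else if x = x1 then v else if x = x1' then v' else m x

/-- four distinct clones -/
structure D4 (x0 x0' x1 x1' : ρ) : Prop where
  a : x0' ≠ x0
  b : x1 ≠ x0
  c : x1' ≠ x0
  d : x1 ≠ x0'
  e : x1' ≠ x0'
  f : x1' ≠ x1

variable {x0 x0' x1 x1' : ρ}

def e4 (h : D4 x0 x0' x1 x1') :
    (Y × {m : ρ → U // m x0 = 0 ∧ m x0' = 0 ∧ m x1 = 0 ∧ m x1' = 0}) × (U × U) × U × U ≃
      Y × (ρ → U) where
  toFun z := (z.1.1, u4 x0 x0' x1 x1' z.1.2.1 z.2.1.1 z.2.1.2 z.2.2.1 z.2.2.2)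
  invFun w := ((w.1, ⟨u4 x0 x0' x1 x1' w.2 0 0 0 0, by simp [u4], by simp [u4], by simp [u4],
    by simp [u4]⟩), (w.2 x0, w.2 x0'), w.2 x1, w.2 x1')
  left_inv := by
    rintro ⟨⟨y, m, m0, m1, m2, m3⟩, ⟨u, u'⟩, v, v'⟩
    simp only [u4, h.a, h.b, h.c, h.d, h.e, h.f, if_true, if_false, Prod.mk.injEq, true_and,
      and_true, Subtype.mk.injEq]
    funext x
    simp only [u4]
    split_ifs <;> simp_all
  right_inv := by
    rintro ⟨y, m⟩
    simp only [Prod.mk.injEq, true_and]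
    funext x
    simp only [u4]
    split_ifs <;> simp_all

theorem prod_u4 (h : D4 x0 x0' x1 x1') (k : ρ → U → ℝ) (m : ρ → U) (u u' v v' : U) :
    ∏ x, k x (u4 x0 x0' x1 x1' m u u' v v' x) =
      (∏ x ∈ univ \ {x0, x0', x1, x1'}, k x (m x)) * (k x0 u * k x0' u' * (k x1 v * k x1' v')) := by
  rw [← prod_sdiff (subset_univ ({x0, x0', x1, x1'} : Finset ρ))]
  congr 1
  · refine prod_congr rfl fun x hx => ?_
    simp only [mem_sdiff, mem_univ, mem_insert, mem_singleton, true_and, not_or] at hx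
    simp [u4, hx]
  · rw [prod_insert (by simp [h.a.symm, h.b.symm, h.c.symm]),
      prod_insert (by simp [h.d.symm, h.e.symm]), prod_insert (by simp [h.f.symm]), prod_singleton]
    simp [u4, h.a, h.b, h.c, h.d, h.e, h.f, mul_assoc]

theorem g1p [Nonempty N] (h : D4 x0 x0' x1 x1') {w0 : Y → ℝ} {k : ρ → Y → U → ℝ}
    (h0 : ∀ y, 0 ≤ w0 y) (hk : ∀ x y u, 0 ≤ k x y u) (k0 : k x0' = k x0) (k1 : k x1' = k x1)
    {W : Y × (ρ → U) → ℝ} (hW : ∀ w, W w = w0 w.1 * ∏ x, k x w.1 (w.2 x)) (hs : Summable W)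
    (S : Y × (ρ → U) → Prop) (p : Y × (ρ → U) → N)
    (hi : ∀ y m m', (∀ x, x ≠ x0' → x ≠ x1' → m x = m' x) →
      (S (y, m) ↔ S (y, m')) ∧ p (y, m) = p (y, m')) :
    ∃ g : Y × (ρ → U) → N,
      (∀ y m m', (∀ x, x ≠ x0' → x ≠ x1 → x ≠ x1' → m x = m' x) → g (y, m) = g (y, m')) ∧
      (∑' w, W w * ind (S w)) ^ 4 ≤ (∑' w, W w) ^ 3 *
        (∑' w, W w * ind (S w ∧ S (w.1, update w.2 x1 (w.2 x1')) ∧ S (w.1, update w.2 x0 (w.2 x0')) ∧
            S (w.1, update (update w.2 x0 (w.2 x0')) x1 (w.2 x1')) ∧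
            p w ≠ p (w.1, update w.2 x1 (w.2 x1'))) +
          2 * ∑' w, W w * ind (S w ∧ p w = g w)) := by
  let e := e4 (Y := Y) (U := U) h
  have hw : ∀ z, W (e z) = wc (fun b => w0 b.1 * ∏ x ∈ univ \ {x0, x0', x1, x1'}, k x b.1 (b.2.1 x))
      (fun b => k x0 b.1) (fun b => k x1 b.1) z := fun z => by
    rw [hW]
    simp only [e, e4, Equiv.coe_fn_mk, wc]
    rw [prod_u4 h fun x => k x z.1.1, k0, k1]
    exact (mul_assoc _ _ _).symm
  obtain ⟨g, hg⟩ := g1cr (N := N)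
    (wb := fun b : Y × {m : ρ → U // m x0 = 0 ∧ m x0' = 0 ∧ m x1 = 0 ∧ m x1' = 0} =>
      w0 b.1 * ∏ x ∈ univ \ {x0, x0', x1, x1'}, k x b.1 (b.2.1 x))
    (wu := fun b => k x0 b.1) (wv := fun b => k x1 b.1)
    (fun b => mul_nonneg (h0 _) (prod_nonneg fun _ _ => hk _ _ _)) (fun _ _ => hk _ _ _)
    (fun _ _ => hk _ _ _) ((e.summable_iff.2 hs).congr hw)
    (fun b u v => S (e (b, (u, 0), v, 0))) fun b u v => p (e (b, (u, 0), v, 0))
  refine ⟨fun w => g (e.symm w).1 (w.2 x0), fun y m m' hm => ?_, ?_⟩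
  · have : (e.symm (y, m)).1 = (e.symm (y, m')).1 := by
      simp only [e, e4, Equiv.coe_fn_symm_mk, Prod.mk.injEq, true_and, Subtype.mk.injEq]
      funext x
      simp only [u4]
      split_ifs <;> simp_all
    simp only [this, hm x0 h.a.symm h.b.symm h.c.symm]
  have key : ∀ (z : (Y × {m : ρ → U // m x0 = 0 ∧ m x0' = 0 ∧ m x1 = 0 ∧ m x1' = 0}) ×
      (U × U) × U × U) (m : ρ → U) (u v : U), m x0 = u → m x1 = v →
      (∀ x, x ≠ x0 → x ≠ x1 → m x = (e z).2 x) →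
      (S ((e z).1, m) ↔ S (e (z.1, (u, 0), v, 0))) ∧ p ((e z).1, m) = p (e (z.1, (u, 0), v, 0)) := by
    intro z m u v hu hv hm
    refine hi z.1.1 _ _ fun x a b => ?_
    by_cases c0 : x = x0
    · simp [u4, c0, hu]
    by_cases c1 : x = x1
    · simp [u4, c1, hv, h.b, h.d]
    · rw [hm x c0 c1]; simp [e, e4, u4, a, b, c0, c1]
  have v0 : ∀ z, (e z).2 x0 = z.2.1.1 := fun z => by simp [e, e4, u4]
  have v0' : ∀ z, (e z).2 x0' = z.2.1.2 := fun z => by simp [e, e4, u4, h.a]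
  have v1 : ∀ z, (e z).2 x1 = z.2.2.1 := fun z => by simp [e, e4, u4, h.b, h.d]
  have v1' : ∀ z, (e z).2 x1' = z.2.2.2 := fun z => by simp [e, e4, u4, h.c, h.e, h.f]
  have q00 := fun z => key z (e z).2 _ _ (v0 z) (v1 z) fun _ _ _ => rfl
  have q01 := fun z => key z (update (e z).2 x1 ((e z).2 x1')) z.2.1.1 z.2.2.2
    (by rw [update_of_ne h.b.symm, v0]) (by rw [update_self, v1']) fun x _ b => update_of_ne b _ _
  have q10 := fun z => key z (update (e z).2 x0 ((e z).2 x0')) z.2.1.2 z.2.2.1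
    (by rw [update_self, v0']) (by rw [update_of_ne h.b, v1]) fun x a _ => update_of_ne a _ _
  have q11 := fun z => key z (update (update (e z).2 x0 ((e z).2 x0')) x1 ((e z).2 x1')) z.2.1.2
    z.2.2.2 (by rw [update_of_ne h.b.symm, update_self, v0']) (by rw [update_self, v1'])
    fun x a b => by rw [update_of_ne b, update_of_ne a]
  rw [← e.tsum_eq, ← e.tsum_eq W, ← e.tsum_eq, ← e.tsum_eq]
  simp only [hw, Equiv.symm_apply_apply, v0]
  simp only [Prod.mk.eta] at q00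
  simp only [(q01 _).1, (q10 _).1, (q11 _).1, (q01 _).2, (q00 _).1, (q00 _).2]
  exact hg

end abs

variable {L C : Type} [Fintype L] [DecidableEq L] [Fintype C] [DecidableEq C] (T : TT L C) (j : L)
  {ρ : Type} [Fintype ρ] [DecidableEq ρ]

/-- base configuration and blocks -/
def ce : (C → ℤ) × (ρ → T.Bl j → ℤ) ≃ (T.CC j ρ → ℤ) where
  toFun z := Sum.elim z.1 fun cx => z.2 cx.2 cx.1
  invFun w := (fun c => w (.inl c), fun x c => w (.inr (c, x)))
  left_inv _ := rfl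
  right_inv w := by funext c; rcases c with c | c <;> rfl

/-- the weight of a block -/
def cw (β : Bool) (a : ℕ) (y : C → ℤ) (m : T.Bl j → ℤ) : ℝ :=
  Real.exp (-Real.pi * ∑ c : T.Bl j, (2 ^ a * T.Φ (T.px j (fun _ : Unit => β) ()
    (TT.cf (ce T j (y, fun _ => m)))) c.1) ^ 2)

theorem wt_ce (pt : ρ → Bool) (a : ρ → ℕ) (z : (C → ℤ) × (ρ → T.Bl j → ℤ)) :
    (T.cl j pt a).wt (ce T j z) = T.wt z.1 * ∏ x, cw T j (pt x) (a x) z.1 (z.2 x) := by
  simp only [TT.wt, cw, ← Real.exp_sum, ← Real.exp_add, Fintype.sum_sum_type, TT.cl_Φ_l, TT.cl_Φ_r,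
    TT.p0_cf, ← mul_sum, ← mul_add, Fintype.sum_prod_type_right]
  congr 3

theorem pr_ind {C' L' : Type} [Fintype L'] [DecidableEq L'] [Fintype C'] [DecidableEq C']
    (T' : TT L' C') (P : (C' → ℤ) → Prop) :
    T'.pr {w | P w} = (∑' w, T'.wt w * ind (P w)) / ∑' w, T'.wt w := by
  unfold TT.pr
  congr 1
  exact tsum_congr fun w => by by_cases h : P w <;> simp [ind, h]

end G1
open G1

variable {L C : Type} [Fintype L] [DecidableEq L] [Fintype C] [DecidableEq C] (T : TT L C) (j : L)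
  {ρ : Type} [Fintype ρ] [DecidableEq ρ]

/-- block `x` replaced by block `x'` -/
def mv (x x' : ρ) (w : T.CC j ρ → ℤ) : T.CC j ρ → ℤ :=
  Sum.elim (fun c => w (.inl c)) fun cx => w (.inr (cx.1, if cx.2 = x then x' else cx.2))

/-- agreement off the blocks in `X` -/
def Ag (X : Set ρ) (w w' : T.CC j ρ → ℤ) : Prop :=
  (∀ c, w (.inl c) = w' (.inl c)) ∧ ∀ c x, x ∉ X → w (.inr (c, x)) = w' (.inr (c, x))

theorem mv_ce (x x' : ρ) (z : (C → ℤ) × (ρ → T.Bl j → ℤ)) :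
    mv T j x x' (ce T j z) = ce T j (z.1, update z.2 x (z.2 x')) := by
  funext c
  rcases c with c | ⟨c, u⟩
  · rfl
  · show z.2 (if u = x then x' else u) c = update z.2 x (z.2 x') u c
    by_cases h : u = x <;> simp [h]

/-- **G1** on a clone shape: `x0, x0'` and `x1, x1'` are equal clones -/
theorem g1 {N : Type*} [Nonempty N] (hT : T.Ok) {pt : ρ → Bool} {a : ρ → ℕ} {x0 x0' x1 x1' : ρ}
    (h : D4 x0 x0' x1 x1') (p0 : pt x0' = pt x0) (a0 : a x0' = a x0) (p1 : pt x1' = pt x1)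
    (a1 : a x1' = a x1) (S : (T.CC j ρ → ℤ) → Prop) (p : (T.CC j ρ → ℤ) → N)
    (hi : ∀ w w', Ag T j {x0', x1'} w w' → (S w ↔ S w') ∧ p w = p w') :
    ∃ g : (T.CC j ρ → ℤ) → N, (∀ w w', Ag T j {x0', x1, x1'} w w' → g w = g w') ∧
      (T.cl j pt a).pr {w | S w} ^ 4 ≤
        (T.cl j pt a).pr {w | S w ∧ S (mv T j x1 x1' w) ∧ S (mv T j x0 x0' w) ∧
          S (mv T j x1 x1' (mv T j x0 x0' w)) ∧ p w ≠ p (mv T j x1 x1' w)} +
        2 * (T.cl j pt a).pr {w | S w ∧ p w = g w} := by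
  have ok : (T.cl j pt a).Ok := hT.cl j pt a
  obtain ⟨g, hg, hh⟩ := g1p (N := N) h (w0 := T.wt) (k := fun x => cw T j (pt x) (a x))
    (fun y => (TT.wt_pos y).le) (fun _ _ _ => (Real.exp_pos _).le) (by rw [p0, a0]) (by rw [p1, a1])
    (W := fun z => (T.cl j pt a).wt (ce T j z)) (wt_ce T j pt a)
    ((ce T j).summable_iff.2 ok.summable) (fun z => S (ce T j z)) (fun z => p (ce T j z))
    fun y m m' hm => hi _ _ ⟨fun _ => rfl, fun c x hx => by
      simp only [Set.mem_insert_iff, Set.mem_singleton_iff, not_or] at hx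
      exact congrFun (hm x hx.1 hx.2) c⟩
  refine ⟨fun w => g ((ce T j).symm w), fun w w' hw => ?_, ?_⟩
  · have e : (fun c => w (.inl c)) = fun c => w' (.inl c) := funext hw.1
    show g (_, _) = g (_, _)
    rw [e]
    exact hg _ _ _ fun x a b c => funext fun d => hw.2 d x (by simp [a, b, c])
  have Zp : 0 < ∑' w, (T.cl j pt a).wt w := ok.Z_pos
  rw [pr_ind, pr_ind, pr_ind, ← (ce T j).tsum_eq fun w => _ * ind (S w),
    ← (ce T j).tsum_eq fun w => _ * ind (S w ∧ S (mv T j x1 x1' w) ∧ _),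
    ← (ce T j).tsum_eq fun w => _ * ind (S w ∧ p w = _)]
  rw [(ce T j).tsum_eq (T.cl j pt a).wt] at hh
  simp only [mv_ce, Equiv.symm_apply_apply, update_of_ne h.c]
  rw [div_pow, div_le_iff₀ (pow_pos Zp 4)]
  refine hh.trans_eq ?_
  field_simp

end Crest.Agent.N49.On
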