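import Crest.Agent.N49.On.Tp
import Crest.Agent.N49.On.Dg

/-! # Row 49 (helper53): labels of a function on rectangles -/

set_option autoImplicit false

namespace Crest.Agent.N49.On

section cr
variable {G : Type*} [AddCommGroup G] (ω : Fin 5 → G)
theorem cr0 : cr 0 ω = ω 0 + ω 1 + ω 3 := by simp [cr, Rm.TT.cv, Fin.sum_univ_four, add_assoc]
theorem cr1 : cr 1 ω = ω 0 + ω 1 + ω 4 := by simp [cr, Rm.TT.cv, Fin.sum_univ_four, add_assoc]
theorem cr2 : cr 2 ω = ω 0 + ω 2 + ω 3 := by simp [cr, Rm.TT.cv, Fin.sum_univ_four, add_assoc]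
theorem cr3 : cr 3 ω = ω 0 + ω 2 + ω 4 := by simp [cr, Rm.TT.cv, Fin.sum_univ_four, add_assoc]
end cr

variable {X N ι : Type*} [AddCommGroup X] [AddCommGroup N]

def NI (K : (Fin 5 → X) → N) : Prop := ∀ x s₀ s₁ t₀ t₁ α β,
  K ![x - α - β, s₀ + α, s₁ + α, t₀ + β, t₁ + β] = K ![x, s₀, s₁, t₀, t₁]
def NA (K : (Fin 5 → X) → N) : Prop := ∀ x s₀ s₀' s₁ s₁' t₀ t₁,
  K ![x, s₀, s₁, t₀, t₁] - K ![x, s₀, s₁', t₀, t₁] - K ![x, s₀', s₁, t₀, t₁] +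
    K ![x, s₀', s₁', t₀, t₁] = 0
def NB (K : (Fin 5 → X) → N) : Prop := ∀ x s₀ s₁ t₀ t₀' t₁ t₁',
  K ![x, s₀, s₁, t₀, t₁] - K ![x, s₀, s₁, t₀, t₁'] - K ![x, s₀, s₁, t₀', t₁] +
    K ![x, s₀, s₁, t₀', t₁'] = 0
def NC (K : (Fin 5 → X) → N) : Prop := ∀ x s₀ s₁ t₀ t₀' t₁ t₁',
  K ![x, s₀, s₁ - t₀ - t₁, t₀, t₁] - K ![x, s₀, s₁ - t₀ - t₁', t₀, t₁'] -
    K ![x, s₀, s₁ - t₀' - t₁, t₀', t₁] + K ![x, s₀, s₁ - t₀' - t₁', t₀', t₁'] = 0

/-- the identity along a 4-cycle -/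
def Cy (g : Fin 2 → Fin 2 → Fin 5 → Fin 7 → ℤ) (K : Fin 2 → Fin 2 → (Fin 5 → X) → N) : Prop :=
  ∀ ζ, K 0 0 (ap (g 0 0) ζ) - K 0 1 (ap (g 0 1) ζ) - K 1 0 (ap (g 1 0) ζ) + K 1 1 (ap (g 1 1) ζ) = 0

theorem ni_of {K K' : (Fin 5 → X) → N} (h : ∀ ζ, K (ap (gI 0) ζ) = K' (ap (gI 1) ζ)) : NI K :=
  fun x s₀ s₁ t₀ t₁ α β => by
    have a := h ![x, s₀, s₁, t₀, t₁, α, β, 0, 0]
    have b := h ![x, s₀, s₁, t₀, t₁, 0, 0, 0, 0]
    simp only [ap_gI] at a b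
    simp at a b
    exact a.trans b.symm

variable {K : Fin 2 → Fin 2 → (Fin 5 → X) → N}

theorem na_of (h : Cy gA K) : NA (K 0 0) := fun x s₀ s₀' s₁ s₁' t₀ t₁ => by
  have a := fun s s' => h ![x, s, 0, s', 0, t₀, t₁]
  simp only [ap_gA] at a
  simp at a
  linear_combination (norm := abel) a s₀ s₁ - a s₀ s₁' - a s₀' s₁ + a s₀' s₁'

theorem nb_of (h : Cy gB K) : NB (K 0 0) := fun x s₀ s₁ t₀ t₀' t₁ t₁' => by
  have a := fun t t' => h ![x, s₀, s₁, t, 0, t', 0]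
  simp only [ap_gB] at a
  simp at a
  linear_combination (norm := abel) a t₀ t₁ - a t₀ t₁' - a t₀' t₁ + a t₀' t₁'

theorem nc_of (h : Cy gC K) : NC (K 0 0) := fun x s₀ s₁ t₀ t₀' t₁ t₁' => by
  have a := fun t t' => h ![x, s₀, s₁, t, 0, t', 0]
  simp only [ap_gC] at a
  simp at a
  linear_combination (norm := abel) a t₀ t₁ - a t₀ t₁' - a t₀' t₁ + a t₀' t₁'

/-- `K` at the corners `1, 0, 3` -/
def kp (K : (Fin 5 → X) → N) (a b c : X) : N := K ![b, 0, c - a, 0, a - b]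

theorem NI.eq {K : (Fin 5 → X) → N} (h : NI K) (x s₀ s₁ t₀ t₁ : X) :
    K ![x, s₀, s₁, t₀, t₁] = kp K (x + s₀ + t₁) (x + s₀ + t₀) (x + s₁ + t₁) := by
  rw [← h x s₀ s₁ t₀ t₁ (-s₀) (-t₀), kp]
  congr 1
  funext o
  fin_cases o <;> simp <;> abel

/-- all four properties -/
structure Gd (K : (Fin 5 → X) → N) : Prop where
  i : NI K
  a : NA K
  b : NB K
  c : NC K

theorem Gd.nm {K : (Fin 5 → X) → N} (h : Gd K) : NM (kp K) where
  p1 a b c x y := by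
    have := h.a b x 0 (c + y - a) (c - a) 0 (a - b)
    simp only [h.i.eq] at this
    convert this using 4 <;> abel
  p2 a b c x y := by
    have := h.b b 0 (c - a) y 0 (a - b + x) (a - b)
    simp only [h.i.eq] at this
    abel_nf at this ⊢
    exact this
  p3 a b c x y := by
    have := h.c b 0 (c - b) y 0 (a - b + x) (a - b)
    simp only [h.i.eq] at this
    abel_nf at this ⊢
    exact this

/-- the labels of the four corners -/
def nl (p : ι → X →+ X) (l : List ι) (K : (Fin 5 → X) → N) (i : Fin 4) : X → N :=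
  lab (kp K) p l (![1, 0, 3, 2] i)

/-- the cocycle vanishes on the slots -/
def Sl (p : ι → X →+ X) (K : (Fin 5 → X) → N) : Prop := ∀ i a b, cc (kp K) (p i a) (p i b) = 0

variable {p : ι → X →+ X} {l : List ι}

theorem Gd.eq {K : (Fin 5 → X) → N} (h : Gd K) (hl : Pj p l) (s : Sl p K) (x s₀ s₁ t₀ t₁ : X) :
    K ![x, s₀, s₁, t₀, t₁] = K 0 + nl p l K 0 (x + s₀ + t₀) + nl p l K 1 (x + s₀ + t₁) +
      nl p l K 2 (x + s₁ + t₀) + nl p l K 3 (x + s₁ + t₁) := by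
  have e : kp K 0 0 0 = K 0 := by
    rw [kp]; congr 1; funext o; fin_cases o <;> simp
  rw [h.i.eq, h.nm.diag hl s, e, show x + s₀ + t₀ + (x + s₁ + t₁) - (x + s₀ + t₁) = x + s₁ + t₀ by abel]
  simp only [nl, Matrix.cons_val]
  abel

theorem Gd.eq' {K : (Fin 5 → X) → N} (h : Gd K) (hl : Pj p l) (s : Sl p K) (ξ : Fin 5 → X) :
    K ξ = K 0 + nl p l K 0 (cr 0 ξ) + nl p l K 1 (cr 1 ξ) + nl p l K 2 (cr 2 ξ) +
      nl p l K 3 (cr 3 ξ) := by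
  rw [cr0, cr1, cr2, cr3, ← h.eq hl s]
  congr 1
  funext o; fin_cases o <;> rfl

theorem nl_zero (K : (Fin 5 → X) → N) (i : Fin 4) : nl p l K i 0 = 0 := lab_zero ..

theorem nl_eq (hl : Pj p l) {K K' : (Fin 5 → X) → N} (i : Fin 4) (s : X ≃+ X)
    (e : ∀ a x, nl p l K 1 a - nl p l K' 1 a + (nl p l K i (s a + x) - nl p l K' i (s a + x)) =
      nl p l K i x - nl p l K' i x) : nl p l K 1 = nl p l K' 1 ∧ nl p l K i = nl p l K' i := by
  have := hl.lab_eq (u := nl p l K 1 - nl p l K' 1) (v := nl p l K i - nl p l K' i) s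
    (fun j x => sub_eq_zero.2 ((tel_proj _ hl.orth j x l hl.nd).trans
      (tel_proj _ hl.orth j x l hl.nd).symm)) (by simp [nl_zero]) (by simp [nl_zero]) e
  exact ⟨sub_eq_zero.1 this.1, sub_eq_zero.1 this.2⟩

theorem lab_A (hl : Pj p l) (h : Cy gA K) (g : ∀ i k, Gd (K i k)) (s : ∀ i k, Sl p (K i k)) :
    nl p l (K 0 0) 0 = nl p l (K 0 1) 0 ∧ nl p l (K 0 0) 1 = nl p l (K 0 1) 1 := by
  refine (nl_eq hl 0 (.refl X) fun a x => ?_).symm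
  have b := fun s => h ![0, s, 0, 0, 0, x, 0]
  simp only [ap_gA] at b
  simp [(g 0 0).eq hl (s 0 0), (g 0 1).eq hl (s 0 1), nl_zero] at b
  have b1 := b a
  have b2 := b 0
  simp only [nl_zero, zero_add, AddEquiv.refl_apply] at b1 b2 ⊢
  linear_combination (norm := abel) b1 - b2

theorem lab_B (hl : Pj p l) (h : Cy gB K) (g : ∀ i k, Gd (K i k)) (s : ∀ i k, Sl p (K i k)) :
    nl p l (K 0 0) 1 = nl p l (K 1 0) 1 ∧ nl p l (K 0 0) 3 = nl p l (K 1 0) 3 := by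
  refine nl_eq hl 3 (.refl X) fun a x => ?_
  have b := fun t => h ![0, 0, x, 0, 0, t, 0]
  simp only [ap_gB] at b
  simp [(g 0 0).eq hl (s 0 0), (g 1 0).eq hl (s 1 0), nl_zero] at b
  have b1 := b a
  have b2 := b 0
  simp only [nl_zero, add_zero, AddEquiv.refl_apply, add_comm x a] at b1 b2 ⊢
  linear_combination (norm := abel) b1 - b2

theorem lab_C (hl : Pj p l) (h : Cy gC K) (g : ∀ i k, Gd (K i k)) (s : ∀ i k, Sl p (K i k)) :
    nl p l (K 0 0) 2 = nl p l (K 1 0) 2 := by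
  refine (nl_eq hl 2 (.neg X) fun a x => ?_).2
  have b := fun t => h ![0, 0, x, 0, 0, t, 0]
  simp only [ap_gC] at b
  simp [(g 0 0).eq hl (s 0 0), (g 1 0).eq hl (s 1 0), nl_zero] at b
  have b1 := b a
  have b2 := b 0
  simp only [nl_zero, sub_zero, AddEquiv.neg_apply, neg_add_eq_sub] at b1 b2 ⊢
  linear_combination (norm := abel) b1 - b2

end Crest.Agent.N49.On
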