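import Crest.Agent.N49.On.Out
import Crest.Agent.N49.Rm.Hk

/-! # Row 49 (helper12): the interface of the mass part of `ONE` -/

set_option autoImplicit false
set_option linter.unusedSectionVars false
noncomputable section
open Finset

namespace Crest.Agent.N49.On
open Rm Rm.TT

/-- the mass part of `ONE` -/
def MASS (l0 : ℕ) : Prop := ∃ K0 K1 : ℕ, 1 ≤ K0 ∧ K0 + 2 ≤ K1 ∧ ∀ (L C : Type) [Fintype L]
  [DecidableEq L] [Fintype C] [DecidableEq C] (T : TT L C) (D : Type) [Fintype D]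
  (n : ℕ) (H : Set (C → ℤ)) (A M : Finset L) (j : L) (q : ℕ) (F : Fin 4 → D → Fm L C),
  Fintype.card L ≤ l0 → Sz n T H → G (n ^ K1) T → Fintype.card D ≤ n → M.Nonempty → M ⊆ A →
  j ∈ A → j ∉ M → (∀ l d, T.Dat A M (F l d)) → 1 ≤ q → q ≤ 2 ^ n →
  (1 / 2 : ℝ) ^ n ≤ T.RM0 A M j H q (2 ^ n) F (n ^ K0) (2 * n ^ K0) →
  ∃ (e : ℕ) (S : (C → ℤ) → Lt T (A \ M) j → Set (Lt T (A \ M) j)), e ≤ n ^ K1 ∧
    (∀ y c, ∃ (γ : Fin e → Fm L C) (X : D → Fm L C) (Λ : D → Fin e → Fm L C),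
      T.Rep A M j ((fun x => (act T (A \ M)).jn j y (c + x)) '' S y c) q (2 ^ n ^ K1) (F 0) γ X Λ) ∧
    (1 / 2 : ℝ) ^ n ^ K1 ≤ (T.cl j (fun _ : Fin 1 => false) fun _ => 3 * n ^ K0).pr
      {w | T.posZ j 1 ![1] w ∈ H ∧ aw T (A \ M) j w 1 ∈
        S (rs T (A \ M) j fun c => w (.inl c)) (aw T (A \ M) j w 0)}

/-- most rests are generic -/
def NGM (l0 : ℕ) : Prop := ∃ K : ℕ, ∀ (L C : Type) [Fintype L]
  [DecidableEq L] [Fintype C] [DecidableEq C] (T : TT L C) (n : ℕ) (A M : Finset L) (j : L)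
  (r : ℕ) (a : Fin r → ℕ), Fintype.card L ≤ l0 → Fintype.card L ≤ n → 2 ≤ n →
  Fintype.card C ≤ 2 ^ n → G (n ^ K) T → M.Nonempty → M ⊆ A → j ∈ A → j ∉ M → r ≤ 8 →
  (∀ x, a x ≤ n) →
  T.pr {y | ¬ (T.UQ (A.erase j) M (rs T (A \ M) j y) (2 ^ n) ∧
    NG T A M j (rs T (A \ M) j y) ((act T (A \ M)).Mm j y) ((act T (A \ M)).ce j y) a n n)} ≤
    (1 / 2) ^ n

end Crest.Agent.N49.On
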