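import Crest.Agent.N49.On.Defs
import Crest.Agent.N49.Rm.Op
import Crest.Agent.N49.Rm.Trf

/-! # Row 49 (helper11): output part of `ONE`: fibrewise representations glue after recentring -/

set_option autoImplicit false
set_option linter.unusedSectionVars false
noncomputable section
open Finset

namespace Crest.Agent.N49.On
open Rm Rm.TT

variable {L C : Type} [Fintype L] [DecidableEq L] [Fintype C] [DecidableEq C]

/-- the active `j`-free part of a configuration -/
def rs (T : TT L C) (Z : Finset L) (j : L) (y : C → ℤ) : C → ℤ :=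
  fun c => if T.ty c ⊆ Z.erase j ∧ (T.ty c).Nonempty then y c else 0

theorem rs_congr {T : TT L C} {Z : Finset L} {j : L} {y y' : C → ℤ}
    (h : ∀ c, T.ty c ⊆ Z.erase j → (T.ty c).Nonempty → y c = y' c) : rs T Z j y = rs T Z j y' :=
  funext fun c => by
    simp only [rs]
    split_ifs with k
    exacts [h c k.1 k.2, rfl]

theorem rs_rs (T : TT L C) (Z : Finset L) (j : L) (y : C → ℤ) :
    rs T Z j (rs T Z j y) = rs T Z j y := rs_congr fun _ a b => if_pos ⟨a, b⟩

/-- the active part of the centre, read from a point of the recentred tower -/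
def cfg (T : TT L C) (Z : Finset L) (j : L) (z : C → ℤ) (p : T.CR j ⊕ L → ℝ) :
    (C → ℤ) × Lt T Z j :=
  (rs T Z j fun c => round (T.dn j z p (.inl c)), fun c => round (T.dn j z p (.inl c.1)))

theorem cfg_congr {T : TT L C} {Z : Finset L} {j : L} (a : ℕ) {z : C → ℤ} {p p' : T.CR j ⊕ L → ℝ}
    (h : ∀ v, (T.rc j a z).tv v ⊆ Z.erase j → ((T.rc j a z).tv v).Nonempty → p v = p' v) :
    cfg T Z j z p = cfg T Z j z p' := by
  have k := fun v s n => T.pt_dn j a z Z v s n p p' h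
  refine Prod.ext (rs_congr fun c s n => congrArg round ?_) (funext fun c => congrArg round ?_)
  · exact k (.inl c) (s.trans (erase_subset _ _)) n
  · exact k (.inl c.1) (act_mem.1 c.2).2 ⟨j, (act_mem.1 c.2).1⟩

theorem dat_cfg {T : TT L C} {Z A M : Finset L} {j : L} (a q : ℕ) (z : C → ℤ)
    {F : (C → ℤ) × Lt T Z j → Fm L C} (h : ∀ ω, T.Dat A M (F ω)) (hA : Z.erase j ⊆ A)
    (hM : Disjoint M (Z.erase j)) :
    (T.rc j a z).Dat A M fun p => F (cfg T Z j z p) (T.rci j q z p) := by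
  refine ⟨fun p p' e => ?_, fun ℓ m x y p p' e => ?_⟩
  · have e1 := cfg_congr (Z := Z) a fun v s n => e v (s.trans hA) n
    simp only [e1]
    exact ((h _).rci j a q z).1 p p' e
  · have n : ∀ v, (T.rc j a z).tv v ⊆ Z.erase j → ℓ ∉ (T.rc j a z).tv v :=
      fun v s k => disjoint_left.1 hM m (s k)
    have e1 : cfg T Z j z p' = cfg T Z j z p :=
      cfg_congr a fun v s _ => (e v (n v s)).symm
    have e2 : cfg T Z j z ((T.rc j a z).cmb ℓ x y p p') = cfg T Z j z p :=
      cfg_congr a fun v s _ => cmb_out (n v s)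
    simp only [e1, e2]
    exact ((h _).rci j a q z).2 ℓ m x y p p' e

theorem rcZ_pos (T : TT L C) (j : L) (z : C → ℤ) (y : T.CR j → ℤ) :
    T.rcZ j 1 z y = T.posZ j 1 ![1] (T.rcw j z y) := by
  funext c
  by_cases k : j ∈ T.ty c <;> simp [rcZ, posZ, rcw, k]

/-- **OUT**: representations on the fibres `c + S y c` give one representation on `rc j a z` -/
theorem out {T : TT L C} (hT : T.Ok) {D E : Type} [Fintype E] {A M : Finset L} {j : L} {q : ℕ}
    {B : ℝ} {F : D → Fm L C} (hF : ∀ d, T.Dat A M (F d))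
    (S : (C → ℤ) → Lt T (A \ M) j → Set (Lt T (A \ M) j))
    (hS : ∀ y c, ∃ (γ : E → Fm L C) (X : D → Fm L C) (Λ : D → E → Fm L C),
      T.Rep A M j ((fun x => (act T (A \ M)).jn j y (c + x)) '' S y c) q B F γ X Λ)
    (a : ℕ) (z : C → ℤ) :
    ∃ (γ : E → Fm L (T.CR j)) (X : D → Fm L (T.CR j)) (Λ : D → E → Fm L (T.CR j)),
      (T.rc j a z).Rep A M j {y | aw T (A \ M) j (T.rcw j z y) 1 ∈
          S (rs T (A \ M) j fun c => T.rcw j z y (.inl c)) (aw T (A \ M) j (T.rcw j z y) 0)}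
        q (2 ^ #M * B) (fun d p => F d (T.rci j 1 z p)) γ X Λ := by
  choose γ X Λ h using hS
  have s1 : (A \ M).erase j ⊆ A \ M := erase_subset _ _
  have d1 : Disjoint M ((A \ M).erase j) := disjoint_sdiff.mono_right s1
  refine ⟨fun e p => γ (cfg T _ j z p).1 (cfg T _ j z p).2 e (T.rci j 1 z p),
    fun d p => X (cfg T _ j z p).1 (cfg T _ j z p).2 d (T.rci j 1 z p),
    fun d e p => Λ (cfg T _ j z p).1 (cfg T _ j z p).2 d e (T.rci j 1 z p),
    fun e => dat_cfg a 1 z (fun ω => (h ω.1 ω.2).1 e) s1 (by simp),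
    fun d => dat_cfg a 1 z (fun ω => (h ω.1 ω.2).2.1 d) (s1.trans sdiff_subset)
      (disjoint_insert_left.2 ⟨by simp, d1⟩),
    fun d e => dat_cfg a 1 z (fun ω => (h ω.1 ω.2).2.2.1 d e) (erase_subset_erase _ sdiff_subset) d1,
    fun y hy => ?_⟩
  set y0 := rs T (A \ M) j fun c => T.rcw j z y (.inl c) with hy0
  set c0 := aw T (A \ M) j (T.rcw j z y) 0 with hc0
  have e0 : cfg T (A \ M) j z (cf y) = (y0, c0) := by
    have : ∀ c, round (T.dn j z (cf y) (.inl c)) = T.rcw j z y (.inl c) := fun c => by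
      simp only [dn, rcw, Sum.elim_inl, cf_inl]
      split_ifs <;> exact round_intCast _
    simp only [cfg, this]
    rfl
  have e1 : ∀ p ∈ (T.rc j a z).Fib M y, cfg T (A \ M) j z p = (y0, c0) := fun p hp => by
    rw [← e0]
    refine cfg_congr a ?_
    rintro (c | ℓ) s -
    · exact hp.1 c (d1.symm.mono_left s)
    · rw [hp.2, if_neg fun k => disjoint_left.1 d1 k (s (by simp))]; rfl
  obtain ⟨h1, h2, h3, h4⟩ := h y0 c0
  obtain ⟨h5, h6⟩ := h4 _ ⟨_, hy, rfl⟩
  have ag : ∀ c, T.ty c ⊆ A \ M → (T.ty c).Nonempty →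
      (act T (A \ M)).jn j y0 (c0 + aw T (A \ M) j (T.rcw j z y) 1) c = T.rcZ j 1 z y c := by
    intro c s n
    by_cases k : j ∈ T.ty c
    · rw [jn, dif_pos (act_mem.2 ⟨k, s⟩)]
      simp [hc0, aw, rcZ, rcw, k]
    · rw [jn_out _ _ fun m => k (act_mem.1 m).1, hy0, rs, if_pos ⟨subset_erase.2 ⟨s, k⟩, n⟩]
      simp [rcZ, rcw, k]
  have e2 : ∀ e, γ y0 c0 e (cf ((act T (A \ M)).jn j y0 (c0 + aw T (A \ M) j (T.rcw j z y) 1))) =
      γ y0 c0 e (T.rci j 1 z (cf y)) := fun e => by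
    rw [rci_cf]
    refine (h1 e).1 _ _ ?_
    rintro (c | ℓ) s n
    exacts [congrArg Int.cast (ag c s n), rfl]
  simp only [e2] at h5 h6
  refine ⟨fun e => by simpa only [e0] using h5 e, fun d => ?_⟩
  have dG : T.Dat A M fun p => F d p - X y0 c0 d p -
      ∑ e, round (γ y0 c0 e (T.rci j 1 z (cf y))) * Λ y0 c0 d e p :=
    ((hF d).sub ((h2 d).mono Subset.rfl (subset_insert _ _))).sub (Dat.sum univ fun e _ =>
      ((h3 d e).mono (erase_subset _ _) Subset.rfl).smul _)
  have r := Agr.rel (y' := T.rcZ j 1 z y)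
    (fun c s n k => ag c (subset_sdiff.2 ⟨s, k⟩) n) hT dG.1 (h6 d)
  refine (r.rci j a 1 z hT Nat.one_le_two_pow dG.2).congr fun p hp => ?_
  simp only [e0, e1 p hp]

end Crest.Agent.N49.On
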