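import Crest.Agent.N49.On.Defs
import Crest.Agent.N49.Rm.Op
import Crest.Agent.N49.Rm.Sol

/-! # Row 49 (helper53): forms on clone shapes as functions of tuples -/

set_option autoImplicit false
set_option linter.unusedSectionVars false
noncomputable section
open Finset

namespace Crest.Agent.N49.On
open Rm Rm.TT

variable {L C : Type} [Fintype L] [DecidableEq L] [Fintype C] [DecidableEq C]
  (T : TT L C) (A M : Finset L) (j : L) (y : C → ℤ)

/-- the point of mass `e` over `lam` with marked words `n` (free of `j`) and `ξ` (mixed) -/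
def pt (e : ℤ) (lam : Lt T (A \ M) j) (n ξ : C → ℝ) : C ⊕ L → ℝ
  | .inl c => if Disjoint (T.ty c) M then ((act T (A \ M)).jn j y lam c : ℝ)
      else if j ∈ T.ty c then ξ c else n c
  | .inr ℓ => if ℓ ∈ M then 0 else if ℓ = j then e else 1

def Nc (c : C) : Prop := T.ty c ⊆ A ∧ ¬ Disjoint (T.ty c) M ∧ j ∉ T.ty c
def Xc (c : C) : Prop := T.ty c ⊆ A ∧ ¬ Disjoint (T.ty c) M ∧ j ∈ T.ty c
def cm (m : L) (a b : ℝ) (x x' : C → ℝ) : C → ℝ :=
  fun c => if m ∈ T.ty c then a * x c + b * x' c else x c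

/-- linear in the marked blocks -/
structure BL {ρ : Type} (k : (C → ℝ) → (ρ → C → ℝ) → ℝ) : Prop where
  dep : ∀ n n' ξ ξ', (∀ c, Nc T A M j c → n c = n' c) → (∀ o c, Xc T A M j c → ξ o c = ξ' o c) →
    k n ξ = k n' ξ'
  lin : ∀ m ∈ M, ∀ (a b : ℝ) n n' ξ ξ', (∀ c, m ∉ T.ty c → n c = n' c) →
    (∀ o c, m ∉ T.ty c → ξ o c = ξ' o c) →
    k (cm T m a b n n') (fun o => cm T m a b (ξ o) (ξ' o)) = a * k n ξ + b * k n' ξ'

/-- integer forms -/
structure JF {ρ : Type} (k : (C → ℝ) → (ρ → C → ℝ) → ℝ) : Prop extends BL T A M j k where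
  int : ∀ (n : C → ℝ) (ξ : ρ → C → ℝ), (∀ c, ∃ z : ℤ, n c = z) → (∀ o c, ∃ z : ℤ, ξ o c = z) → ∃ z : ℤ, k n ξ = z

/-- bounded on the cube of radius `R` of the clone shape -/
def Bd {r : ℕ} (ω : Fin (r + 1) → Lt T (A \ M) j) (a : Fin r → ℕ) (R B : ℝ)
    (f : (C → ℝ) → (Fin (r + 1) → C → ℝ) → ℝ) : Prop :=
  ∀ n ξ, (∀ c, Nc T A M j c → |T.Φ (pt T A M j y 0 0 n 0) c| ≤ R) →
    (∀ c, Xc T A M j c → |T.Φ (pt T A M j y 1 (ω 0) n (ξ 0)) c| ≤ R) →
    (∀ x c, Xc T A M j c → |2 ^ a x * T.Φ (pt T A M j y 0 (ω x.succ) n (ξ x.succ)) c| ≤ R) →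
    |f n ξ| ≤ B

/-- the point of the clone shape -/
def fc {r : ℕ} (ω : Fin (r + 1) → Lt T (A \ M) j) (n : C → ℝ) (ξ : Fin (r + 1) → C → ℝ) :
    T.CC j (Fin r) ⊕ (L ⊕ Fin r) → ℝ
  | .inl (.inl c) => pt T A M j y 1 (ω 0) n (ξ 0) (.inl c)
  | .inl (.inr cx) => pt T A M j y 0 (ω cx.2.succ) n (ξ cx.2.succ) (.inl cx.1.1)
  | .inr (.inl ℓ) => if ℓ ∈ M then 0 else 1
  | .inr (.inr _) => 1

/-- the tuple of a point of the clone shape -/
def xi {r : ℕ} (p : T.CC j (Fin r) ⊕ (L ⊕ Fin r) → ℝ) : Fin (r + 1) → C → ℝ :=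
  Fin.cons (fun c => p (.inl (.inl c))) fun x c =>
    if h : j ∈ T.ty c then p (.inl (.inr (⟨c, h⟩, x))) else 0

/-- the corners of a rectangle -/
def cr {G : Type*} [AddCommGroup G] (l : Fin 4) (ω : Fin 5 → G) : G :=
  ω 0 + ∑ x, cv l x • ω x.succ

variable {T A M j y} {r : ℕ} {ω : Fin (r + 1) → Lt T (A \ M) j} {a : Fin r → ℕ}

theorem pt_out {c : C} (h : j ∉ T.ty c) (e e' lam lam' n ξ ξ') :
    pt T A M j y e lam n ξ (.inl c) = pt T A M j y e' lam' n ξ' (.inl c) := by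
  have : j ∉ (act T (A \ M)).ty c := fun k => h (act_mem.1 k).1
  simp only [pt, if_neg h, jn_out _ _ this]

theorem pt_off {v : C ⊕ L} (h : j ∉ T.tv v) (e e' lam lam' n ξ ξ') :
    pt T A M j y e lam n ξ v = pt T A M j y e' lam' n ξ' v := by
  rcases v with c | ℓ
  · exact pt_out h ..
  · have : ℓ ≠ j := fun k => h (by simp [k])
    simp only [pt, if_neg this]

theorem pt_act {c : C} (a : T.ty c ⊆ A) (d : Disjoint (T.ty c) M) (h : j ∈ T.ty c) (e lam n ξ) :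
    pt T A M j y e lam n ξ (.inl c) =
      lam ⟨c, act_mem.2 ⟨h, subset_sdiff.2 ⟨a, d⟩⟩⟩ := by
  simp only [pt, if_pos d]
  exact congrArg _ (dif_pos _)

theorem pt_congr {n n' ξ ξ' : C → ℝ} (hn : ∀ c, Nc T A M j c → n c = n' c)
    (hx : ∀ c, Xc T A M j c → ξ c = ξ' c) (e lam) {v : C ⊕ L} (h : T.tv v ⊆ A) :
    pt T A M j y e lam n ξ v = pt T A M j y e lam n' ξ' v := by
  rcases v with c | ℓ
  · simp only [pt]
    split_ifs with a b
    exacts [rfl, hx c ⟨h, a, b⟩, hn c ⟨h, a, b⟩]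
  · rfl

theorem pt_agree {m : L} {n n' ξ ξ' : C → ℝ} (hn : ∀ c, m ∉ T.ty c → n c = n' c)
    (hx : ∀ c, m ∉ T.ty c → ξ c = ξ' c) (e lam) {v : C ⊕ L} (h : m ∉ T.tv v) :
    pt T A M j y e lam n ξ v = pt T A M j y e lam n' ξ' v := by
  rcases v with c | ℓ
  · simp only [pt, hn c h, hx c h]
  · rfl

theorem pt_cm {m : L} (hm : m ∈ M) (a b : ℝ) (e lam) (n n' ξ ξ' : C → ℝ) :
    pt T A M j y e lam (cm T m a b n n') (cm T m a b ξ ξ') =
      T.cmb m a b (pt T A M j y e lam n ξ) (pt T A M j y e lam n' ξ') := by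
  funext v
  rcases v with c | ℓ
  · by_cases k : m ∈ T.ty c
    · have : ¬ Disjoint (T.ty c) M := fun d => disjoint_left.1 d k hm
      rw [cmb_in (by exact k)]
      simp only [pt, cm, if_neg this, if_pos k]
      split_ifs <;> rfl
    · rw [cmb_out (by exact k)]
      simp only [pt, cm, if_neg k]
  · by_cases k : m = ℓ
    · subst k; rw [cmb_in (by simp)]; simp [pt, hm]
    · rw [cmb_out (by simpa using k)]; rfl

theorem pt_int {n ξ : C → ℝ} (hn : ∀ c, ∃ z : ℤ, n c = z) (hx : ∀ c, ∃ z : ℤ, ξ c = z) (e lam) :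
    IntP (pt T A M j y e lam n ξ) := by
  rintro (c | ℓ) <;> simp only [pt] <;> split_ifs
  exacts [⟨_, rfl⟩, hx c, hn c, ⟨0, by simp⟩, ⟨_, rfl⟩, ⟨1, by simp⟩]

theorem pt_fib (lam n ξ) : pt T A M j y 1 lam n ξ ∈ T.Fib M ((act T (A \ M)).jn j y lam) :=
  ⟨fun c d => if_pos d, fun ℓ => by simp only [pt]; split_ifs <;> simp⟩

theorem eq_pt {lam} {p : C ⊕ L → ℝ} (h : p ∈ T.Fib M ((act T (A \ M)).jn j y lam)) :
    p = pt T A M j y 1 lam (fun c => p (.inl c)) fun c => p (.inl c) := by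
  funext v
  rcases v with c | ℓ
  · simp only [pt]
    split_ifs with d
    exacts [h.1 c d, rfl, rfl]
  · rw [h.2, (pt_fib (y := y) lam _ _).2]

/-- integer combinations in the block of `j` -/
theorem pt_sum (hj : j ∉ M) {s : ℕ} (g e : Fin s → ℤ) (lam : Fin s → Lt T (A \ M) j) (n : C → ℝ)
    (ξ : Fin s → C → ℝ) {v : C ⊕ L} (h : T.tv v ⊆ A) (k : j ∈ T.tv v) :
    pt T A M j y (∑ o, g o * e o) (∑ o, g o • lam o) n (∑ o, g o • ξ o) v =
      ∑ o, g o * pt T A M j y (e o) (lam o) n (ξ o) v := by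
  rcases v with c | ℓ
  · by_cases d : Disjoint (T.ty c) M
    · simp [pt_act h d k]
    · have k' : j ∈ T.ty c := k
      simp [pt, d, k']
  · obtain rfl : j = ℓ := by simpa using k
    simp [pt, hj]

theorem pt_lin (hj : j ∉ M) {S : Finset L} (hS : S ⊆ A) {F : Fm L C} (h1 : T.Ty S F)
    (h2 : T.Lin j F) {s : ℕ} (g e : Fin s → ℤ) (lam : Fin s → Lt T (A \ M) j) (n : C → ℝ)
    (ξ : Fin s → C → ℝ) : F (pt T A M j y (∑ o, g o * e o) (∑ o, g o • lam o) n (∑ o, g o • ξ o)) =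
      ∑ o, g o * F (pt T A M j y (e o) (lam o) n (ξ o)) := by
  have := h2.fam univ 0 (fun o => (g o : ℝ)) (pt T A M j y 0 0 n 0)
    (fun o => pt T A M j y (e o) (lam o) n (ξ o)) fun o v k => pt_off k ..
  rw [zero_mul, zero_add] at this
  rw [← this]
  refine h1 _ _ fun v a _ => ?_
  split_ifs with k
  · rw [pt_sum hj g e lam n ξ (a.trans hS) k, zero_mul, zero_add]
  · exact pt_off k ..

theorem phi_out (hT : T.Ok) {c : C} (h : j ∉ T.ty c) (e e' lam lam' n ξ ξ') :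
    T.Φ (pt T A M j y e lam n ξ) c = T.Φ (pt T A M j y e' lam' n ξ') c :=
  hT.ind h _ _ fun _ k => pt_off k ..

theorem phi_sum (hT : T.Ok) (hj : j ∉ M) {c : C} (h : Xc T A M j c) {s : ℕ} (g e : Fin s → ℤ)
    (lam : Fin s → Lt T (A \ M) j) (n : C → ℝ) (ξ : Fin s → C → ℝ) :
    T.Φ (pt T A M j y (∑ o, g o * e o) (∑ o, g o • lam o) n (∑ o, g o • ξ o)) c =
      ∑ o, g o * T.Φ (pt T A M j y (e o) (lam o) n (ξ o)) c :=
  pt_lin hj h.1 (hT.dat c ⟨j, h.2.2⟩).1 ((hT.dat c ⟨j, h.2.2⟩).2 j h.2.2) g e lam n ξ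

theorem p0_fc (n ξ) : T.p0 j (fc T A M j y ω n ξ) = pt T A M j y 1 (ω 0) n (ξ 0) := by
  funext v
  rcases v with c | ℓ
  · rfl
  · simp only [p0, fc, pt]; split_ifs <;> simp

theorem px_fc (x : Fin r) (n ξ) : T.px j (fun _ => false) x (fc T A M j y ω n ξ) =
    pt T A M j y 0 (ω x.succ) n (ξ x.succ) := by
  funext v
  rcases v with c | ℓ
  · simp only [px]
    split_ifs with h
    exacts [rfl, pt_out h 1 0 _ _ _ _ _]
  · simp only [px, fc, pt]; split_ifs <;> simp_all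

theorem dj_l {ρ : Type} [DecidableEq ρ] {S : Finset L} :
    Disjoint (S.image (Sum.inl : L → L ⊕ ρ)) (M.image .inl) ↔ Disjoint S M :=
  disjoint_image Sum.inl_injective

theorem dj_r (hj : j ∉ M) {S : Finset L} (x : Fin r) :
    Disjoint (insert (Sum.inr x) ((S.erase j).image (Sum.inl : L → L ⊕ Fin r))) (M.image .inl) ↔
      Disjoint S M := by
  rw [disjoint_insert_left, dj_l]
  simp only [disjoint_left, mem_erase]
  exact ⟨fun h _ a b => h.2 ⟨fun e => hj (e ▸ b), a⟩ b, fun h => ⟨by simp, fun _ a => h a.2⟩⟩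

theorem sub_l {S : Finset L} : S.image (Sum.inl : L → L ⊕ Fin r) ⊆ upA A (Fin r) ↔ S ⊆ A := by
  simp only [image_subset_iff, inl_upA]; rfl

theorem sub_r (hA : j ∈ A) {S : Finset L} (x : Fin r) :
    insert (Sum.inr x) ((S.erase j).image (Sum.inl : L → L ⊕ Fin r)) ⊆ upA A (Fin r) ↔ S ⊆ A := by
  rw [insert_subset_iff, sub_l]
  refine ⟨fun h ℓ k => ?_, fun h => ⟨inr_upA x, (erase_subset _ _).trans h⟩⟩
  by_cases e : ℓ = j
  exacts [e ▸ hA, h.2 (mem_erase.2 ⟨e, k⟩)]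

theorem fc_fib (hj : j ∉ M) (n ξ) : fc T A M j y ω n ξ ∈
    (T.cl j (fun _ => false) a).Fib (M.image .inl) (cw T (A \ M) j y ω) := by
  refine ⟨?_, ?_⟩
  · rintro (c | ⟨c, x⟩) d
    · exact if_pos (dj_l.1 d)
    · exact if_pos ((dj_r hj x).1 d)
  · rintro (ℓ | x) <;> simp [fc]

theorem eq_fc (hj : j ∉ M) {p} (h : p ∈ (T.cl j (fun _ => false) a).Fib (M.image .inl)
    (cw T (A \ M) j y ω)) : p = fc T A M j y ω (xi T j p 0) (xi T j p) := by
  funext v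
  rcases v with (c | ⟨c, x⟩) | ℓ
  · simp only [fc, pt]
    split_ifs with d
    exacts [h.1 (.inl c) (dj_l.2 d), rfl, rfl]
  · simp only [fc, pt, if_pos c.2]
    split_ifs with d
    · exact h.1 (.inr (c, x)) ((dj_r hj x).2 d)
    · simp [xi, c.2]
  · rw [h.2, (fc_fib (a := a) hj _ _).2]

theorem mem_l {m : L} {S : Finset L} : (Sum.inl m : L ⊕ Fin r) ∈ S.image .inl ↔ m ∈ S := by simp

theorem mem_r {m : L} (h : m ≠ j) {S : Finset L} (x : Fin r) :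
    (Sum.inl m : L ⊕ Fin r) ∈ insert (Sum.inr x) ((S.erase j).image .inl) ↔ m ∈ S := by simp [h]

/-- data of the clone shape are block linear -/
theorem bl_fc (hA : j ∈ A) (hj : j ∉ M) {K : Fm (L ⊕ Fin r) (T.CC j (Fin r))}
    (h : (T.cl j (fun _ => false) a).Dat (upA A (Fin r)) (M.image .inl) K) :
    BL T A M j fun n ξ => K (fc T A M j y ω n ξ) where
  dep n n' ξ ξ' hn hx := h.1 _ _ fun v s _ => by
    rcases v with (c | ⟨c, x⟩) | (ℓ | x)
    exacts [pt_congr (v := .inl c) hn (hx _) 1 _ (sub_l.1 s),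
      pt_congr (v := .inl c.1) hn (hx _) 0 _ ((sub_r hA x).1 s), rfl, rfl]
  lin m hm a' b n n' ξ ξ' hn hx := by
    have mj : m ≠ j := fun e => hj (e ▸ hm)
    rw [← h.2 (.inl m) (mem_image_of_mem _ hm) a' b _ _ fun v k => ?_]
    · congr 1
      funext v
      rcases v with (c | ⟨c, x⟩) | (ℓ | x)
      · exact (congrFun (pt_cm hm a' b 1 _ n n' _ _) (.inl c)).trans (if_congr mem_l.symm rfl rfl)
      · exact (congrFun (pt_cm hm a' b 0 _ n n' _ _) (.inl c.1)).trans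
          (if_congr (mem_r mj x).symm rfl rfl)
      · by_cases e : m = ℓ
        · subst e; rw [cmb_in (by simp)]; simp [fc, hm]
        · rw [cmb_out (by simpa using e)]; rfl
      · rw [cmb_out (by simp)]; rfl
    · rcases v with (c | ⟨c, x⟩) | (ℓ | x)
      exacts [pt_agree (v := .inl c) hn (hx _) 1 _ fun e => k (mem_l.2 e),
        pt_agree (v := .inl c.1) hn (hx _) 0 _ fun e => k ((mem_r mj x).2 e), rfl, rfl]

theorem jf_fc (hA : j ∈ A) (hj : j ∉ M) {K : Fm (L ⊕ Fin r) (T.CC j (Fin r))}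
    (h : (T.cl j (fun _ => false) a).IntF (upA A (Fin r)) (M.image .inl) (cw T (A \ M) j y ω) K) :
    JF T A M j fun n ξ => K (fc T A M j y ω n ξ) where
  toBL := bl_fc hA hj h.1
  int n ξ hn hx := h.2 _ (fc_fib hj n ξ) fun v => by
    rcases v with (c | ⟨c, x⟩) | (ℓ | x)
    · exact pt_int (y := y) hn (hx 0) 1 (ω 0) (.inl c)
    · exact pt_int (y := y) hn (hx x.succ) 0 (ω x.succ) (.inl c.1)
    · simp only [fc]; split_ifs; exacts [⟨0, by simp⟩, ⟨1, by simp⟩]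
    · exact ⟨1, by simp [fc]⟩

theorem xi_cases {P : Fin (r + 1) → C → Prop} (h0 : ∀ c, P 0 c) (h1 : ∀ (x : Fin r) c, P x.succ c) :
    ∀ o c, P o c := fun o => Fin.cases h0 h1 o

theorem xi_succ (p) (x : Fin r) {c : C} (h : j ∈ T.ty c) :
    xi T j p x.succ c = p (.inl (.inr (⟨c, h⟩, x))) := by simp [xi, h]

theorem xi_out (p) (x : Fin r) {c : C} (h : j ∉ T.ty c) : xi T j p x.succ c = 0 := by simp [xi, h]

theorem JF.intF (hA : j ∈ A) (hj : j ∉ M) {k : (C → ℝ) → (Fin (r + 1) → C → ℝ) → ℝ}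
    (h : JF T A M j k) (w) : (T.cl j (fun _ => false) a).IntF (upA A (Fin r)) (M.image .inl) w
      fun p => k (xi T j p 0) (xi T j p) := by
  refine ⟨⟨fun p p' e => h.dep _ _ _ _ (fun c k => e (.inl (.inl c)) (sub_l.2 k.1) ?_)
    (xi_cases (fun c k => e (.inl (.inl c)) (sub_l.2 k.1) ?_) fun x c k => ?_), fun m' hm' => ?_⟩,
    fun p _ i => h.int _ _ (fun c => i _) (xi_cases (fun c => i _) fun x c => ?_)⟩
  · exact (not_disjoint_iff.1 k.2.1).elim fun ℓ z => ⟨_, mem_l.2 z.1⟩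
  · exact ⟨_, mem_l.2 k.2.2⟩
  · rw [xi_succ _ _ k.2.2, xi_succ _ _ k.2.2]
    exact e _ ((sub_r hA x).2 k.1) ⟨_, mem_insert_self _ _⟩
  · obtain ⟨m, hm, rfl⟩ := mem_image.1 hm'
    have mj : m ≠ j := fun e => hj (e ▸ hm)
    intro a' b p p' e
    have e1 : ∀ o c, m ∉ T.ty c → xi T j p o c = xi T j p' o c :=
      xi_cases (fun c k => e (.inl (.inl c)) fun z => k (mem_l.1 z)) fun x c k => by
        by_cases z : j ∈ T.ty c
        · rw [xi_succ _ _ z, xi_succ _ _ z]; exact e _ fun z => k ((mem_r mj x).1 z)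
        · rw [xi_out _ _ z, xi_out _ _ z]
    have e2 : xi T j ((T.cl j (fun _ => false) a).cmb (.inl m) a' b p p') =
        fun o => cm T m a' b (xi T j p o) (xi T j p' o) := by
      funext o c
      refine xi_cases (P := fun o c => xi T j ((T.cl j (fun _ => false) a).cmb (.inl m) a' b p p')
        o c = cm T m a' b (xi T j p o) (xi T j p' o) c) (fun c => if_congr mem_l rfl rfl)
        (fun x c => ?_) o c
      by_cases z : j ∈ T.ty c
      · simp only [cm, xi_succ _ _ z]; exact if_congr (mem_r mj x) rfl rfl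
      · simp [cm, xi_out _ _ z]
    simp only [e2]
    exact h.lin m hm a' b _ _ _ _ (e1 0) e1
  · by_cases z : j ∈ T.ty c
    · rw [xi_succ _ _ z]; exact i _
    · exact ⟨0, by simp [xi_out _ _ z]⟩

theorem bd_fc (hT : T.Ok) (hA : j ∈ A) (hj : j ∉ M) {F : Fm (L ⊕ Fin r) (T.CC j (Fin r))} {B R : ℝ}
    (h : (T.cl j (fun _ => false) a).Sm (upA A (Fin r)) (M.image .inl) (cw T (A \ M) j y ω) B F)
    (l : ∀ ℓ ∈ M.image .inl, (T.cl j (fun _ => false) a).Lin ℓ F) (hR : 1 ≤ R) :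
    Bd T A M j y ω a R (R ^ #M * B) fun n ξ => F (fc T A M j y ω n ξ) := fun n ξ h1 h2 h3 => by
  rw [← card_image_of_injective M (Sum.inl_injective (β := Fin r))]
  refine h.cubeR (hT.cl _ _ _) l hR (fc_fib hj n ξ) ?_
  rintro (c | ⟨c, x⟩) s d
  · rw [cl_Φ_l, p0_fc]
    by_cases z : j ∈ T.ty c
    · exact h2 c ⟨sub_l.1 s, mt dj_l.2 d, z⟩
    · rw [phi_out hT z 1 0 _ 0 n _ 0]; exact h1 c ⟨sub_l.1 s, mt dj_l.2 d, z⟩
  · rw [cl_Φ_r, px_fc]
    exact h3 x c.1 ⟨(sub_r hA x).1 s, mt (dj_r hj x).2 d, c.2⟩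

/-- a small integer form on a generic shape vanishes -/
theorem JF.uq (hT : T.Ok) (hA : j ∈ A) (hj : j ∉ M) {k : (C → ℝ) → (Fin (r + 1) → C → ℝ) → ℝ}
    (h : JF T A M j k) {R : ℝ} (b : Bd T A M j y ω a 1 R k)
    (u : (T.cl j (fun _ => false) a).UQ (upA A (Fin r)) (M.image .inl) (cw T (A \ M) j y ω) R)
    (n ξ) : k n ξ = 0 := by
  have := u _ (h.intF hA hj _) (fun p hp hc => ?_) _ (fc_fib hj n ξ)
  · rw [← this]
    refine h.dep _ _ _ _ (fun c k => ?_) (xi_cases (fun c k => ?_) fun x c k => ?_)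
    · simp [xi, fc, pt, k.2.1, k.2.2]
    · simp [xi, fc, pt, k.2.1, k.2.2]
    · simp [xi, fc, pt, k.2.1, k.2.2]
  · rw [eq_fc hj hp] at hc
    refine b _ _ (fun c k => ?_) (fun c k => ?_) fun x c k => ?_
    · have := hc (.inl c) (sub_l.2 k.1) (mt dj_l.1 k.2.1)
      rwa [cl_Φ_l, p0_fc, phi_out hT k.2.2 1 0 _ 0 _ _ 0] at this
    · have := hc (.inl c) (sub_l.2 k.1) (mt dj_l.1 k.2.1)
      rwa [cl_Φ_l, p0_fc] at this
    · have := hc (.inr (⟨c, k.2.2⟩, x)) ((sub_r hA x).2 k.1) (mt (dj_r hj x).1 k.2.1)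
      rwa [cl_Φ_r, px_fc] at this

theorem cr_eq {G : Type*} [AddCommGroup G] (l : Fin 4) (ω : Fin 5 → G) :
    cr l ω = ∑ o, (Fin.cons 1 (cv l) : Fin 5 → ℤ) o • ω o := by
  rw [Fin.sum_univ_succ]; simp [cr]

theorem pos_fc (hj : j ∉ M) {ω : Fin 5 → Lt T (A \ M) j} {F : Fm L C} (h : T.Ty A F) (l n ξ) :
    F (T.pos j (fun _ => false) 1 (cv l) (fc T A M j y ω n ξ)) =
      F (pt T A M j y 1 (cr l ω) n (cr l ξ)) := h _ _ fun v s _ => by
  simp only [pos, p0_fc, px_fc]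
  split_ifs with k
  · have := pt_sum (y := y) hj (Fin.cons 1 (cv l)) (Fin.cons 1 0) ω n ξ s k
    rw [← cr_eq, ← cr_eq, Fin.sum_univ_succ, Fin.sum_univ_succ (n := 4)] at this
    simpa using this.symm
  · exact pt_off k ..

/-- the alternating sum over the corners -/
def alt (T : TT L C) (A M : Finset L) (j : L) (y : C → ℤ) (F : Fin 4 → Fm L C)
    (ω : Fin 5 → Lt T (A \ M) j) (n : C → ℝ) (ξ : Fin 5 → C → ℝ) : ℝ :=
  F 0 (pt T A M j y 1 (cr 0 ω) n (cr 0 ξ)) - F 1 (pt T A M j y 1 (cr 1 ω) n (cr 1 ξ)) -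
    F 2 (pt T A M j y 1 (cr 2 ω) n (cr 2 ξ)) + F 3 (pt T A M j y 1 (cr 3 ω) n (cr 3 ξ))

theorem rr_jf (hT : T.Ok) (hA : j ∈ A) (hj : j ∉ M) {ω : Fin 5 → Lt T (A \ M) j} {a1 a2 q : ℕ}
    {B : ℝ} {F : Fin 4 → Fm L C} (hF : ∀ l, T.Dat A M (F l))
    (h : T.RR A M j a1 a2 (cw T (A \ M) j y ω) q B F) : ∃ k : (C → ℝ) → (Fin 5 → C → ℝ) → ℝ,
      JF T A M j k ∧ ∀ R, 1 ≤ R →
      Bd T A M j y ω ![a1, a1, a2, a2] R (R ^ #M * B) fun n ξ => alt T A M j y F ω n ξ - k n ξ / q := by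
  obtain ⟨I, h1, h2⟩ := h
  refine ⟨_, jf_fc hA hj h1, fun R hR => ?_⟩
  have d := fun l => Dat.pos j (fun _ : Fin 4 => false) ![a1, a1, a2, a2] 1 (cv l) hj (hF l)
  have := bd_fc hT hA hj h2
    (((((d 0).sub (d 1)).sub (d 2)).add (d 3)).sub (h1.1.div q)).2 hR
  simpa only [pos_fc hj (hF _).1, alt] using this

end Crest.Agent.N49.On
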